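import Vale.Agent.P155.T802.Cap

/-!
# P155, TIGHT, sweep: parity functions of even edge sets
-/

namespace Vale.Agent.P155.T802

open Finset

/-- parity of the number of vertical edges crossed by the ray to the left of the face `f` -/
noncomputable def par (a : Pt → ZMod 2) (f : Pt) : ZMod 2 := ∑ᶠ j ∈ Set.Iic f.1, a (j, f.2)

/-- `a` (vertical edges `{v, v + e₂}`) and `b` (horizontal edges `{v, v + e₁}`) form an even
edge set, bounded to the left. -/
structure EvenSet (a b : Pt → ZMod 2) : Prop where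
  bd : ∃ M : ℤ, ∀ v : Pt, v.1 < M → a v = 0 ∧ b v = 0
  even : ∀ v : Pt, a v + a (v.1, v.2 - 1) + b v + b (v.1 - 1, v.2) = 0

theorem z2 (x : ZMod 2) : x + x = 0 := CharTwo.add_self_eq_zero x

theorem z2_alg : ∀ p q r s : ZMod 2, p + q + r + s = 0 → p = q + r + s := by decide

theorem z2_alg' : ∀ q r s t : ZMod 2, t + s + (q + r + s) = t + q + r := by decide

theorem par_eq {a : Pt → ZMod 2} {M : ℤ} (h : ∀ v : Pt, v.1 < M → a v = 0) (f : Pt) :
    par a f = ∑ j ∈ Finset.Icc M f.1, a (j, f.2) := by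
  unfold par
  apply finsum_mem_eq_sum_of_inter_support_eq
  ext j
  simp only [Set.mem_inter_iff, Set.mem_Iic, Function.mem_support, coe_Icc, Set.mem_Icc]
  constructor
  · rintro ⟨h1, h2⟩
    exact ⟨⟨by by_contra hh; exact h2 (h (j, f.2) (by simp only; omega)), h1⟩, h2⟩
  · rintro ⟨h1, h2⟩
    exact ⟨h1.2, h2⟩

theorem par_right {a b : Pt → ZMod 2} (h : EvenSet a b) (x y : ℤ) :
    par a (x, y) = par a (x - 1, y) + a (x, y) := by
  obtain ⟨M, hM⟩ := h.bd
  have h1 : ∀ v : Pt, v.1 < M → a v = 0 := fun v hv => (hM v hv).1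
  rw [par_eq h1, par_eq h1]
  simp only
  by_cases hx : M ≤ x
  · rw [← Finset.insert_Icc_sub_one_right_eq_Icc hx, Finset.sum_insert (by simp), add_comm]
  · rw [Finset.Icc_eq_empty (by omega), Finset.Icc_eq_empty (by omega), h1 (x, y) (by simp only; omega)]
    simp

theorem par_up {a b : Pt → ZMod 2} (h : EvenSet a b) (x y : ℤ) :
    par a (x, y) = par a (x, y - 1) + b (x, y) := by
  obtain ⟨M, hM⟩ := h.bd
  have h1 : ∀ v : Pt, v.1 < M → a v = 0 := fun v hv => (hM v hv).1
  -- induction on x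
  have key : ∀ n : ℕ, par a (M - 1 + n, y) = par a (M - 1 + n, y - 1) + b (M - 1 + n, y) := by
    intro n
    induction n with
    | zero =>
      rw [par_eq h1, par_eq h1]
      simp only [Nat.cast_zero, add_zero]
      rw [Finset.Icc_eq_empty (by omega), (hM (M - 1, y) (by simp only; omega)).2]
      simp
    | succ n ih =>
      have e1 : M - 1 + ((n + 1 : ℕ) : ℤ) - 1 = M - 1 + n := by push_cast; ring
      rw [par_right h, par_right h (M - 1 + ((n + 1 : ℕ) : ℤ)) (y - 1), e1, ih]
      have h2 := h.even (M - 1 + ((n + 1 : ℕ) : ℤ), y)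
      simp only [e1] at h2
      have h3 : a (M - 1 + ((n + 1 : ℕ) : ℤ), y) = a (M - 1 + ((n + 1 : ℕ) : ℤ), y - 1) +
          b (M - 1 + ((n + 1 : ℕ) : ℤ), y) + b (M - 1 + (n : ℤ), y) := by
        exact z2_alg _ _ _ _ h2
      rw [h3]
      exact z2_alg' _ _ _ _
  by_cases hx : M - 1 ≤ x
  · have := key (x - (M - 1)).toNat
    rw [Int.toNat_of_nonneg (by omega), add_sub_cancel] at this
    exact this
  · rw [par_eq h1, par_eq h1]
    simp only
    rw [Finset.Icc_eq_empty (by omega), (hM (x, y) (by simp only; omega)).2]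
    simp

/-- a row without edges -/
theorem par_zero_row {a : Pt → ZMod 2} {y : ℤ} (h : ∀ x, a (x, y) = 0) (x : ℤ) :
    par a (x, y) = 0 := by
  unfold par
  simp [h]

/-- no edges to the left -/
theorem par_zero_left {a : Pt → ZMod 2} {x y : ℤ} (h : ∀ x', x' ≤ x → a (x', y) = 0) :
    par a (x, y) = 0 := by
  unfold par
  apply finsum_mem_eq_zero_of_forall_eq_zero
  intro j hj
  exact h j hj

/-- the four faces around a vertex -/
def facesAt (q : Pt) : Finset Pt :=
  {(q.1, q.2), (q.1 - 1, q.2), (q.1, q.2 - 1), (q.1 - 1, q.2 - 1)}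

theorem mem_facesAt {f q : Pt} : f ∈ facesAt q ↔ q ∈ corners f := by
  obtain ⟨x, y⟩ := f
  obtain ⟨u, v⟩ := q
  simp only [facesAt, corners, mem_insert, mem_singleton, Prod.mk.injEq]
  omega

/-- around a vertex without edges the parity is constant -/
theorem par_around {a b : Pt → ZMod 2} (h : EvenSet a b) {q : Pt} (h1 : a q = 0)
    (h2 : a (q.1, q.2 - 1) = 0) (h3 : b q = 0) (h4 : b (q.1 - 1, q.2) = 0) {f f' : Pt}
    (hf : f ∈ facesAt q) (hf' : f' ∈ facesAt q) : par a f = par a f' := by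
  obtain ⟨x, y⟩ := q
  simp only at h1 h2 h3 h4
  have e1 := par_right h x y
  have e2 := par_right h x (y - 1)
  have e3 := par_up h x y
  have e4 := par_up h (x - 1) y
  rw [h1, add_zero] at e1
  rw [h2, add_zero] at e2
  rw [h3, add_zero] at e3
  rw [h4, add_zero] at e4
  have : ∀ g ∈ facesAt (x, y), par a g = par a (x, y) := by
    intro g hg
    simp only [facesAt, mem_insert, mem_singleton] at hg
    rcases hg with rfl | rfl | rfl | rfl
    · rfl
    · exact e1.symm
    · exact e3.symm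
    · rw [← e2, ← e3]
  rw [this f hf, this f' hf']

end Vale.Agent.P155.T802
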