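import Vale.Agent.P155.Defs2

/-!
# P155, TIGHT, sweep: definitions

`Cap`: a wall made of the left, top and right side of a rectangle (open at the bottom).
Components of the superposition are cut at the wall; a walker goes up the vertical line
`x = xS` and explores, jumping behind the last point of every component he meets.
-/

namespace Vale.Agent.P155.T802

open Finset

/-- A cap: the rectangle `[x0,x1] × [y0,y1]`; crossings have to stay below `yc`;
the walker uses the vertical line `x = xS`. -/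
structure Cap where
  x0 : ℤ
  x1 : ℤ
  y0 : ℤ
  y1 : ℤ
  yc : ℤ
  xS : ℤ
  hS0 : x0 < xS
  hS1 : xS < x1
  hy0 : y0 ≤ yc
  hy1 : yc + 1 < y1

/-- the wall -/
def Cap.W (Q : Cap) : Set Pt :=
  {v | (v.1 = Q.x0 ∧ Q.y0 ≤ v.2 ∧ v.2 ≤ Q.y1) ∨ (v.1 = Q.x1 ∧ Q.y0 ≤ v.2 ∧ v.2 ≤ Q.y1) ∨
    (v.2 = Q.y1 ∧ Q.x0 ≤ v.1 ∧ v.1 ≤ Q.x1)}

/-- `u` is reached from `v` along the superposition without meeting the wall (`v` off the wall). -/
def SameW (W : Set Pt) (ω : Conf) : Pt → Pt → Prop :=
  Relation.ReflTransGen (fun a b => b ∉ W ∧ (b = ω.1 a ∨ b = ω.2 a))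

/-- the component of `v` cut at the wall -/
def compW (W : Set Pt) (ω : Conf) (v : Pt) : Set Pt := {u | SameW W ω v u}

/-- A set of vertices which is a union of components cut at the wall. -/
structure Closed (W : Set Pt) (V : Finset Pt) (ω : Conf) (K : Set Pt) : Prop where
  sub : ∀ u ∈ K, u ∈ V ∧ u ∉ W
  one : ∀ u ∈ K, ω.1 u ∈ K ∨ ω.1 u ∈ W
  two : ∀ u ∈ K, ω.2 u ∈ K ∨ ω.2 u ∈ W

open Classical in
/-- new height of the walker after a visit to `(xS, t)`: behind the last point of the component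
of `(xS,t)` on the line, below the top of the cap; `t + 1` if `(xS,t)` is no vertex. -/
noncomputable def Cap.next (Q : Cap) (V : Finset Pt) (ω : Conf) (t : ℤ) : ℤ :=
  if (Q.xS, t) ∈ V then
    1 + sSup {t' : ℤ | t' < Q.y1 ∧ (Q.xS, t') ∈ compW Q.W ω (Q.xS, t)}
  else t + 1

/-- position of the walker after `k` steps; he starts at height `t0`. -/
noncomputable def Cap.pos (Q : Cap) (V : Finset Pt) (t0 : ℤ) (ω : Conf) : ℕ → ℤ
  | 0 => t0
  | k + 1 => if Cap.pos Q V t0 ω k < Q.y1 then Q.next V ω (Cap.pos Q V t0 ω k)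
      else Cap.pos Q V t0 ω k

open Classical in
/-- the component explored in step `k` (empty if the walker is at no vertex or at the top) -/
noncomputable def Cap.C (Q : Cap) (V : Finset Pt) (t0 : ℤ) (ω : Conf) (k : ℕ) : Set Pt :=
  if (Q.xS, Q.pos V t0 ω k) ∈ V ∧ Q.pos V t0 ω k < Q.y1
    then compW Q.W ω (Q.xS, Q.pos V t0 ω k) else ∅

/-- everything explored in the first `k` steps -/
noncomputable def Cap.E (Q : Cap) (V : Finset Pt) (t0 : ℤ) (ω : Conf) (k : ℕ) : Set Pt :=
  {v | ∃ l < k, v ∈ Q.C V t0 ω l}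

/-- the exploration of a vertex set `E` : what is not matched to `E`, not in `E`. -/
def unexp (V : Finset Pt) (E : Set Pt) (ω : Conf) : Set Pt × Set Pt :=
  ({v | v ∈ V ∧ v ∉ E ∧ ω.1 v ∉ E}, {v | v ∈ V ∧ v ∉ E ∧ ω.2 v ∉ E})

/-- the corners of a face -/
def corners (f : Pt) : Finset Pt :=
  {(f.1, f.2), (f.1 + 1, f.2), (f.1, f.2 + 1), (f.1 + 1, f.2 + 1)}

/-- the face `f` touches the vertex set `E` -/
def Touch (E : Set Pt) (f : Pt) : Prop := ∃ v ∈ corners f, v ∈ E

/-- unexplored faces of the polygon -/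
def OE (T : Temp) (E : Set Pt) : Set Pt := {f | f ∈ T.faceSet ∧ ¬ Touch E f}

open Classical in
/-- number (mod 2) of edges from the wall point `z` into `K` -/
noncomputable def degW (ω : Conf) (K : Set Pt) (z : Pt) : ZMod 2 :=
  (if ω.1 z ∈ K then 1 else 0) + (if ω.2 z ∈ K then 1 else 0)

/-- parity of the number of edges from the left side of the wall into `K` -/
noncomputable def Cap.DL (Q : Cap) (ω : Conf) (K : Set Pt) : ZMod 2 :=
  ∑ y ∈ Finset.Icc Q.y0 Q.y1, degW ω K (Q.x0, y)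

/-- A good crossing: a component cut at the wall, inside the open rectangle and below `yc`, with
an odd number of ends on the left side of the wall. -/
structure Cap.Good (Q : Cap) (V : Finset Pt) (ω : Conf) (K : Set Pt) : Prop where
  comp : ∃ v, v ∈ V ∧ v ∉ Q.W ∧ K = compW Q.W ω v
  reg : ∀ u ∈ K, Q.x0 < u.1 ∧ u.1 < Q.x1 ∧ Q.y0 ≤ u.2 ∧ u.2 ≤ Q.yc
  odd : Q.DL ω K = 1

/-- highest point of `K` over the two vertex columns of the face column `x` -/
noncomputable def top (K : Set Pt) (x : ℤ) : ℤ := sSup {y | (x, y) ∈ K ∨ (x + 1, y) ∈ K}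

open Classical in
/-- The exploration is stopped when `j` good crossings have been found (or at the top). -/
noncomputable def Cap.tau (Q : Cap) (V : Finset Pt) (t0 : ℤ) (ω : Conf) (j : ℕ) : ℕ :=
  sInf {k | j ≤ ((Finset.range k).filter (fun l => Q.Good V ω (Q.C V t0 ω l))).card ∨
    Q.y1 ≤ Q.pos V t0 ω k}

/-- the set explored when `j` good crossings have been found -/
noncomputable def Cap.Ej (Q : Cap) (V : Finset Pt) (t0 : ℤ) (ω : Conf) (j : ℕ) : Set Pt :=
  Q.E V t0 ω (Q.tau V t0 ω j)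

/-- the corresponding exploration -/
noncomputable def Cap.Xj (Q : Cap) (V : Finset Pt) (t0 : ℤ) (j : ℕ) : Expl :=
  fun ω => unexp V (Q.Ej V t0 ω j) ω

/-- the `j`-th good crossing (`j ≥ 1`); meaningful if there are at least `j` of them -/
noncomputable def Cap.cj (Q : Cap) (V : Finset Pt) (t0 : ℤ) (ω : Conf) (j : ℕ) : Set Pt :=
  Q.C V t0 ω (Q.tau V t0 ω j - 1)

open Classical in
/-- `j` good crossings exist -/
noncomputable def Cap.Has (Q : Cap) (V : Finset Pt) (t0 : ℤ) (ω : Conf) (j : ℕ) : Prop :=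
  ∃ k, j ≤ ((Finset.range k).filter (fun l => Q.Good V ω (Q.C V t0 ω l))).card

end Vale.Agent.P155.T802
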