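import Vale.Agent.P155.S743.EV

/-!
# P155, TIGHT, sweep: `STEP` from one evaluation in probability
-/

namespace Vale.Agent.P155.T802

open Finset T905 H904 S862 S743 SW HT J H12 G45

/-- `gap` is at least `gapD` over the strips -/
theorem gapD_le_gap {T : Temp} {Q : Cap} {t0 mL mR : ℤ} {A n κ ρ0 D : ℕ} {ω : Conf}
    (G : S7.Geo T Q t0 mL mR A n) (hω : ω ∈ DD T.V) {yb : ℤ} {m d : ℕ}
    (_S : Setup T Q t0 yb mL m κ d ρ0 D) (hm : mL + 16 * κ * m ≤ mR) {j : ℕ} (hj : 1 ≤ j)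
    (h : Q.Has T.V t0 ω (j + 1)) :
    (gapD Q T.V t0 ω j mL (mL + 16 * κ * m) : ℝ) ≤ S7.gap Q T.V t0 mL mR ω j := by
  have h1 := gapD_mono hω G.below G.ht hj h (a := mL) (b := mR) (a' := mL)
    (b' := mL + 16 * κ * m) (by have := G.l; omega) le_rfl hm (by have := G.r; omega)
  have h2 : S7.gap Q T.V t0 mL mR ω j = ((gapD Q T.V t0 ω j mL mR : ℤ) : ℝ) := by
    unfold S7.gap gapD
    push_cast
    rfl
  rw [h2]
  exact_mod_cast h1

/-- the parameter `w0` -/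
theorem exists_w0 {b C : ℝ} (hb : 0 < b) (hC : 0 < C) : ∃ w0 : ℝ, 0 < w0 ∧ w0 ≤ 1 / 9 ∧
    ∀ w : ℝ, 0 < w → w ≤ w0 → 2 * C * w ^ (2 * b) ≤ 1 / 8 ∧ 4 * C * w ≤ 1 / 8 := by
  refine ⟨min (1 / 9) (min ((1 / (16 * C)) ^ (1 / (2 * b))) (1 / (32 * C))), ?_, min_le_left _ _, ?_⟩
  · refine lt_min (by norm_num) (lt_min (by positivity) (by positivity))
  · intro w hw hw0
    have h1 : w ≤ (1 / (16 * C)) ^ (1 / (2 * b)) :=
      hw0.trans ((min_le_right _ _).trans (min_le_left _ _))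
    have h2 : w ≤ 1 / (32 * C) := hw0.trans ((min_le_right _ _).trans (min_le_right _ _))
    constructor
    · have h3 : w ^ (2 * b) ≤ 1 / (16 * C) := by
        calc w ^ (2 * b) ≤ ((1 / (16 * C)) ^ (1 / (2 * b))) ^ (2 * b) :=
              Real.rpow_le_rpow hw.le h1 (by positivity)
          _ = 1 / (16 * C) := by
              rw [← Real.rpow_mul (by positivity), one_div_mul_cancel (by positivity), Real.rpow_one]
      calc 2 * C * w ^ (2 * b) ≤ 2 * C * (1 / (16 * C)) := mul_le_mul_of_nonneg_left h3 (by positivity)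
        _ = 1 / 8 := by field_simp; norm_num
    · calc 4 * C * w ≤ 4 * C * (1 / (32 * C)) := mul_le_mul_of_nonneg_left h2 (by positivity)
        _ = 1 / 8 := by field_simp; norm_num

open Classical in
/-- **STEP** from **EV** -/
theorem step_of_EV (hEV : S743.EV) : S7.STEP := by
  intro a0 ha0 A
  obtain ⟨b, c, C, hb, hc, hC, hev⟩ := hEV a0 ha0 A
  obtain ⟨w0, hw0, hw09, hw0s⟩ := exists_w0 hb hC
  obtain ⟨C', hC'⟩ : ∃ C', C' = 1 + 2 * C + 16 * C * 2 ^ C + 2 * c / a0 + w0 ^ (-(2 * b)) := ⟨_, rfl⟩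
  have p1 : 0 < 16 * C * (2 : ℝ) ^ C := by positivity
  have p2 : 0 < 2 * c / a0 := by positivity
  have p3 : 0 < w0 ^ (-(2 * b)) := by positivity
  have hC'1 : 1 ≤ C' := by rw [hC']; linarith
  have hC'0 : 0 < C' := by linarith
  refine ⟨2 * b, c, C', by positivity, hc, hC'0, ?_⟩
  intro T R n Q t0 mL mR hR hfit hn G w j hw hw1 hj
  have hRr : (1 : ℝ) ≤ R := by exact_mod_cast hR
  have hR0 : (0 : ℝ) < R := by linarith
  have q1 : 0 ≤ C' * w ^ (2 * b) := by positivity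
  have q2 : 0 ≤ C' * w ^ (-C') * (R : ℝ) ^ (-c) := by positivity
  -- first trivial case
  by_cases hww : w0 < w
  · refine (E.Pr_le_one _ _).trans ?_
    have h1 : (1 : ℝ) ≤ C' * w ^ (2 * b) := by
      calc (1 : ℝ) = w0 ^ (-(2 * b)) * w0 ^ (2 * b) := by
            rw [← Real.rpow_add hw0]; simp
        _ ≤ C' * w ^ (2 * b) := by
            apply mul_le_mul _ (Real.rpow_le_rpow hw0.le hww.le (by positivity)) (by positivity)
              (by positivity)
            rw [hC']; linarith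
    linarith
  push Not at hww
  obtain ⟨hs1, hs2⟩ := hw0s w hw hww
  have hw9 : w ≤ 1 / 9 := hww.trans hw09
  have hwsq : w ^ 2 ≤ 1 / 81 := by nlinarith
  have hn1 : (1 : ℝ) ≤ n := (Real.one_le_rpow hRr ha0.le).trans hn
  have hn0 : (0 : ℝ) < n := by linarith
  -- second trivial case
  by_cases hwn : w ^ 2 * n < 1
  · refine (E.Pr_le_one _ _).trans ?_
    have h1 : (R : ℝ) ^ a0 ≤ w ^ (-2 : ℝ) := by
      refine hn.trans ?_
      rw [Real.rpow_neg hw.le, show (2 : ℝ) = ((2 : ℕ) : ℝ) by norm_num, Real.rpow_natCast,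
        ← one_div, le_div_iff₀ (by positivity)]
      linarith
    have h2 : (R : ℝ) ≤ w ^ (-(2 / a0)) := by
      calc (R : ℝ) = ((R : ℝ) ^ a0) ^ (1 / a0) := by
            rw [← Real.rpow_mul hR0.le, mul_one_div_cancel ha0.ne', Real.rpow_one]
        _ ≤ (w ^ (-2 : ℝ)) ^ (1 / a0) := Real.rpow_le_rpow (by positivity) h1 (by positivity)
        _ = w ^ (-(2 / a0)) := by
            rw [← Real.rpow_mul hw.le]
            congr 1
            ring
    have h3 : w ^ (2 * c / a0) ≤ (R : ℝ) ^ (-c) := by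
      calc w ^ (2 * c / a0) = (w ^ (-(2 / a0))) ^ (-c) := by
            rw [← Real.rpow_mul hw.le]
            congr 1
            ring
        _ ≤ (R : ℝ) ^ (-c) := Real.rpow_le_rpow_of_nonpos hR0 h2 (by linarith)
    have h4 : (1 : ℝ) ≤ C' * w ^ (-C') * (R : ℝ) ^ (-c) := by
      calc (1 : ℝ) = 1 * (w ^ (-(2 * c / a0))) * w ^ (2 * c / a0) := by
            rw [one_mul, ← Real.rpow_add hw]; simp
        _ ≤ C' * w ^ (-C') * (R : ℝ) ^ (-c) := by
            apply mul_le_mul _ h3 (by positivity) (by positivity)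
            apply mul_le_mul hC'1 _ (by positivity) (by positivity)
            apply Real.rpow_le_rpow_of_exponent_ge hw hw1
            have : 2 * c / a0 ≤ C' := by rw [hC']; linarith
            linarith
    linarith
  push Not at hwn
  -- third trivial case
  by_cases hbig : 1 / 8 < 2 * C * ((2 : ℝ) ^ C * w ^ (-(2 * C))) * (R : ℝ) ^ (-c)
  · refine (E.Pr_le_one _ _).trans ?_
    have h1 : (1 : ℝ) ≤ 16 * C * 2 ^ C * w ^ (-(2 * C)) * (R : ℝ) ^ (-c) := by nlinarith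
    have h2 : 16 * C * 2 ^ C * w ^ (-(2 * C)) * (R : ℝ) ^ (-c) ≤
        C' * w ^ (-C') * (R : ℝ) ^ (-c) := by
      apply mul_le_mul_of_nonneg_right _ (by positivity)
      apply mul_le_mul _ _ (by positivity) (by positivity)
      · rw [hC']; linarith
      · apply Real.rpow_le_rpow_of_exponent_ge hw hw1
        have : 2 * C ≤ C' := by rw [hC']; linarith
        linarith
    linarith
  push Not at hbig
  -- the parameters
  set κ : ℕ := ⌊w ^ 2 * n⌋₊ with hκdef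
  have hκ1 : 1 ≤ κ := Nat.le_floor (by exact_mod_cast hwn)
  have hκle : (κ : ℝ) ≤ w ^ 2 * n := Nat.floor_le (by positivity)
  have hκge : w ^ 2 * n ≤ 2 * κ := by
    have h1 := (Nat.lt_floor_add_one (w ^ 2 * (n : ℝ))).le
    have h2 : (1 : ℝ) ≤ κ := by exact_mod_cast hκ1
    have h3 : w ^ 2 * (n : ℝ) ≤ (κ : ℝ) + 1 := h1
    linarith
  have hκ0 : (0 : ℝ) < κ := by exact_mod_cast hκ1
  have h80 : 80 * κ ≤ n := by
    have : (80 : ℝ) * κ ≤ n := by
      have := mul_le_mul_of_nonneg_right hwsq hn0.le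
      linarith
    exact_mod_cast this
  obtain ⟨hm1, hm2, hm3⟩ := mm_spec (mL := mL) (mR := mR) hκ1 (by omega : 16 * κ ≤ n) G.m
  have hn18 : 24 ≤ n := by omega
  have S : Setup T Q t0 (Q.y0 - n) mL (mm mL mR κ) κ (n / 4) 1 1 :=
    mk_setup G hκ1 h80 le_rfl (by omega)
  set mm0 := mm mL mR κ with hmm0
  -- powers
  have hkn : (κ : ℝ) / n ≤ w ^ 2 := by rw [div_le_iff₀ hn0]; exact hκle
  have hnk : (n : ℝ) / κ ≤ 2 / w ^ 2 := by
    rw [div_le_div_iff₀ hκ0 (by positivity)]; linarith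
  have hP1 : ((κ : ℝ) / n) ^ b ≤ w ^ (2 * b) := by
    calc ((κ : ℝ) / n) ^ b ≤ (w ^ 2) ^ b := Real.rpow_le_rpow (by positivity) hkn hb.le
      _ = w ^ (2 * b) := by
          rw [← Real.rpow_natCast, ← Real.rpow_mul hw.le]
          norm_num
  have hP2 : ((n : ℝ) / κ) ^ C ≤ 2 ^ C * w ^ (-(2 * C)) := by
    calc ((n : ℝ) / κ) ^ C ≤ (2 / w ^ 2) ^ C := Real.rpow_le_rpow (by positivity) hnk hC.le
      _ = 2 ^ C * w ^ (-(2 * C)) := by
          rw [Real.div_rpow (by norm_num) (by positivity), ← Real.rpow_natCast w 2,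
            ← Real.rpow_mul hw.le, div_eq_mul_inv, ← Real.rpow_neg hw.le]
          norm_num
  -- the loop
  set l : Conf → Set Pt := fun ω =>
    if Q.Has T.V t0 ω (j + 1) then S7.own Q T.V t0 ω (j + 1) else S7.own Q T.V t0 ω j with hl
  have hl1 : ∀ ω ∈ DD T.V, Q.Has T.V t0 ω j → l ω ∈ Loops ω ∧ ∃ q ∈ l ω, q.1 = Q.x0 + 1 := by
    intro ω hω h
    rw [hl]
    simp only
    split_ifs with h'
    · obtain ⟨a1, _, a2⟩ := own_loop hω (by omega : 1 ≤ j + 1) h'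
      exact ⟨a1, a2⟩
    · obtain ⟨a1, _, a2⟩ := own_loop hω hj h
      exact ⟨a1, a2⟩
  have hl2 : ∀ ω ∈ DD T.V, Q.Has T.V t0 ω (j + 1) → l ω ∈ Loops ω ∧
      ∃ q ∈ l ω, q.1 = Q.x0 + 1 := fun ω hω h => hl1 ω hω (has_of_succ h)
  have e1 := hev T R n Q t0 mL mR hR hfit hn G κ j j hκ1 h80 hj le_rfl l hl1
  have e2 := hev T R n Q t0 mL mR hR hfit hn G κ j (j + 1) hκ1 h80 hj (Nat.le_succ j) l hl2
  have hfin : 2 * (C * ((κ : ℝ) / n) ^ b + C * ((n : ℝ) / κ) ^ C * (R : ℝ) ^ (-c)) ≤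
      C' * w ^ (2 * b) + C' * w ^ (-C') * (R : ℝ) ^ (-c) := by
    have h1 : 2 * (C * ((κ : ℝ) / n) ^ b) ≤ C' * w ^ (2 * b) := by
      calc 2 * (C * ((κ : ℝ) / n) ^ b) = (2 * C) * ((κ : ℝ) / n) ^ b := by ring
        _ ≤ C' * w ^ (2 * b) := by
            apply mul_le_mul _ hP1 (by positivity) (by positivity)
            rw [hC']; linarith
    have h2 : 2 * (C * ((n : ℝ) / κ) ^ C * (R : ℝ) ^ (-c)) ≤ C' * w ^ (-C') * (R : ℝ) ^ (-c) := by
      have h3 : 2 * (C * ((n : ℝ) / κ) ^ C) ≤ C' * w ^ (-C') := by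
        calc 2 * (C * ((n : ℝ) / κ) ^ C) = (2 * C) * ((n : ℝ) / κ) ^ C := by ring
          _ ≤ (2 * C) * (2 ^ C * w ^ (-(2 * C))) := mul_le_mul_of_nonneg_left hP2 (by positivity)
          _ = (2 * C * 2 ^ C) * w ^ (-(2 * C)) := by ring
          _ ≤ C' * w ^ (-C') := by
              apply mul_le_mul _ _ (by positivity) (by positivity)
              · have : 2 * C * (2 : ℝ) ^ C ≤ 16 * C * 2 ^ C := by nlinarith
                rw [hC']; linarith
              · apply Real.rpow_le_rpow_of_exponent_ge hw hw1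
                have : 2 * C ≤ C' := by rw [hC']; linarith
                linarith
      have := mul_le_mul_of_nonneg_right h3 (by positivity : 0 ≤ (R : ℝ) ^ (-c))
      linarith
    linarith
  refine le_trans ?_ hfin
  rw [two_mul]
  refine le_trans (E.Pr_mono ?_) ((E.Pr_or_le _ _ _).trans (add_le_add e1 e2))
  rintro ω hω ⟨hH, hgap⟩
  by_contra hcon
  push Not at hcon
  obtain ⟨c1, c2⟩ := hcon
  have hHj := has_of_succ hH
  have c1' := c1 hHj
  have c2' := c2 hH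
  have hlω : l ω = S7.own Q T.V t0 ω (j + 1) := by
    rw [hl]; simp only; rw [if_pos hH]
  rw [hlω] at c1' c2'
  obtain ⟨hA, ⟨v, hv, hvA⟩, hAq⟩ := own_loop hω (by omega : 1 ≤ j + 1) hH
  have hflip := up_flip hω S.h0 S.ht hj hH hA hv hvA
  have hz : ∑ i : Fin mm0, ((badF T Q t0 ω j j mL κ i).card : ℝ) = 0 :=
    Finset.sum_eq_zero fun i _ => by rw [badF_self S hω hj hHj i.2]; simp
  rw [hz, mul_zero, mul_zero, add_zero] at c1'
  have hbad : (∑ i : Fin mm0, ((badF T Q t0 ω j (j + 1) mL κ i).card : ℝ)) ≤ w ^ 3 * (n : ℝ) ^ 2 := by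
    have h1 : (∑ i : Fin mm0, ((badF T Q t0 ω j (j + 1) mL κ i).card : ℝ)) ≤
        (gapD Q T.V t0 ω j mL (mL + 16 * κ * mm0) : ℝ) := by
      exact_mod_cast badF_card S hω hj hH
    exact h1.trans ((gapD_le_gap G hω S hm2 hj hH).trans hgap)
  have hbad2 : C * (((n : ℝ) * κ)⁻¹ * ∑ i : Fin mm0, ((badF T Q t0 ω j (j + 1) mL κ i).card : ℝ)) ≤
      2 * C * w := by
    calc C * (((n : ℝ) * κ)⁻¹ * ∑ i : Fin mm0, ((badF T Q t0 ω j (j + 1) mL κ i).card : ℝ))
        ≤ C * (((n : ℝ) * κ)⁻¹ * (w ^ 3 * (n : ℝ) ^ 2)) :=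
          mul_le_mul_of_nonneg_left (mul_le_mul_of_nonneg_left hbad (by positivity)) hC.le
      _ = C * w * (w ^ 2 * n / κ) := by field_simp
      _ ≤ C * w * 2 := by
          apply mul_le_mul_of_nonneg_left _ (by positivity)
          rw [div_le_iff₀ hκ0]; linarith
      _ = 2 * C * w := by ring
  have t1 : C * ((κ : ℝ) / n) ^ b ≤ 1 / 16 := by
    have := mul_le_mul_of_nonneg_left hP1 hC.le
    linarith
  have t2 : C * ((n : ℝ) / κ) ^ C * (R : ℝ) ^ (-c) ≤ 1 / 16 := by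
    have h1 := mul_le_mul_of_nonneg_left hP2 hC.le
    have h2 := mul_le_mul_of_nonneg_right h1 (by positivity : 0 ≤ (R : ℝ) ^ (-c))
    linarith
  have k1 : |mass ω (T802.phi (Q.cj T.V t0 ω j) mL mm0 κ) (S7.own Q T.V t0 ω (j + 1)) -
      (if upS Q ω (Q.cj T.V t0 ω j) (S7.own Q T.V t0 ω (j + 1)) then 1 else 0)| ≤ 1 / 4 :=
    c1'.trans (by linarith)
  have k2 : |mass ω (T802.phi (Q.cj T.V t0 ω j) mL mm0 κ) (S7.own Q T.V t0 ω (j + 1)) -
      (if upS Q ω (Q.cj T.V t0 ω (j + 1)) (S7.own Q T.V t0 ω (j + 1)) then 1 else 0)| ≤ 1 / 2 :=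
    c2'.trans (by linarith)
  have k1' := abs_le.1 k1
  have k2' := abs_le.1 k2
  by_cases a : upS Q ω (Q.cj T.V t0 ω j) (S7.own Q T.V t0 ω (j + 1))
  · have b' : ¬ upS Q ω (Q.cj T.V t0 ω (j + 1)) (S7.own Q T.V t0 ω (j + 1)) :=
      fun b' => hflip ⟨fun _ => b', fun _ => a⟩
    rw [if_pos a] at k1'
    rw [if_neg b'] at k2'
    linarith [k1'.1, k2'.2]
  · have b' : upS Q ω (Q.cj T.V t0 ω (j + 1)) (S7.own Q T.V t0 ω (j + 1)) := by
      by_contra b'
      exact hflip ⟨fun h => absurd h a, fun h => absurd h b'⟩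
    rw [if_neg a] at k1'
    rw [if_pos b'] at k2'
    linarith [k1'.2, k2'.1]

end Vale.Agent.P155.T802
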