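import Vale.Agent.P155.T802.DetStep
import Vale.Agent.P155.S7.Iface

/-!
# P155, TIGHT, sweep: the deterministic inequalities behind STEP and AREA1
-/

namespace Vale.Agent.P155.T802

open Finset T905 H904 S862 S743 SW HT J H12 G45

variable {T : Temp} {V : Finset Pt} {ω : Conf} {Q : Cap} {K : Set Pt} {t0 : ℤ}

theorem OE_finite (T : Temp) (E : Set Pt) : (OE T E).Finite :=
  (Temp.faceSet_finite T).subset (fun _ h => h.1)

theorem cpr_OE (hω : ω ∈ DD T.V) (h0 : ∀ t ≤ t0, (Q.xS, t) ∉ T.V) (j : ℕ) :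
    CPr (OE T (Q.Ej T.V t0 ω j)) := T862.cp_OE hω h0 j

open Classical in
/-- the two-strand term of the evaluation of `c_j` at time `J` -/
noncomputable def tsE (T : Temp) (Q : Cap) (t0 : ℤ) (ω : Conf) (j J : ℕ) (xa : ℤ) (m κ d D : ℕ)
    (χ : Pt → ℝ) (v : Fin m → Pt → ℝ) (B : Pt → Finset Pt) : ℝ :=
  (m : ℝ)⁻¹ * ∑ i : Fin m, ∑ x ∈ (OE_finite T (Q.Ej T.V t0 ω J)).toFinset,
    |fL (OE T (Q.Ej T.V t0 ω J))
      (gpart (inS Q T.V t0 ω J) (bmp (Q.cj T.V t0 ω j) xa κ i)) χ (v i) x| *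
    (if x ∈ nbh T Q t0 ω j J xa κ d i ∧
      TwoVisit (fun _ : Fin 1 => box x (D + 1)) (res T.V (B x) ω) then 1 else 0)

/-- the analytic data of the evaluation of `c_j` at time `J` -/
structure EvData (T : Temp) (Q : Cap) (t0 : ℤ) (ω : Conf) (j J : ℕ) (xa : ℤ) (m κ s : ℕ)
    (C0 : ℝ) (χ u : Pt → ℝ) (v : Fin m → Pt → ℝ) : Prop where
  cut : IsCut (OE T (Q.Ej T.V t0 ω J)) s C0 χ
  green : IsGreen (OE T (Q.Ej T.V t0 ω J)) (phi (Q.cj T.V t0 ω j) xa m κ) u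
  part : ∀ i : Fin m, IsGreen (OE T (Q.Ej T.V t0 ω J))
      (gpart (inS Q T.V t0 ω J) (bmp (Q.cj T.V t0 ω j) xa κ i)) (v i)

/-- number of faces of the cap surrounded by `A` -/
theorem mass_area {yb xa : ℤ} {m κ d ρ0 D : ℕ} (S : Setup T Q t0 yb xa m κ d ρ0 D)
    (hω : ω ∈ DD T.V) (g : Q.Good T.V ω K) (hκ : 5 ≤ κ) (hm : 1 ≤ m) (A : Set Pt) :
    mass ω (phi K xa m κ) A ≤ 16000000 * (((m : ℝ) * (κ : ℝ) ^ 2)⁻¹ * (S7.area Q ω A : ℝ)) := by
  classical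
  have hm0 : (0 : ℝ) < m := by exact_mod_cast hm
  set F : Finset Pt := Finset.univ.biUnion (fun i : Fin m => box (ctr K xa κ i) κ) with hF
  have hz : ∀ x, x ∉ F → phi K xa m κ x = 0 := by
    intro x hx
    unfold phi
    rw [Finset.sum_eq_zero, mul_zero]
    intro i _
    by_contra h
    exact hx (mem_biUnion.2 ⟨i, mem_univ _, bump_supp hκ h⟩)
  rw [mass_eq_sum hz]
  -- the strips are disjoint
  have huniq : ∀ x (i k : Fin m), x ∈ box (ctr K xa κ i) κ → x ∈ box (ctr K xa κ k) κ → i = k := by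
    intro x i k h1 h2
    have h3 := ctr_box (box_sub2 _ _ h1)
    have h4 := ctr_box (box_sub2 _ _ h2)
    have s3 := S.κ1
    unfold sa at h3 h4
    rcases lt_trichotomy (i : ℕ) (k : ℕ) with hik | hik | hik
    · exfalso
      have h5 : (16 * κ * ((i : ℕ) : ℤ) + 16 * κ : ℤ) ≤ 16 * κ * ((k : ℕ) : ℤ) := by
        have : (((i : ℕ) : ℤ) + 1) ≤ ((k : ℕ) : ℤ) := by exact_mod_cast hik
        have h2 : (0 : ℤ) ≤ 16 * κ := by positivity
        nlinarith [mul_le_mul_of_nonneg_left this h2]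
      omega
    · exact Fin.ext hik
    · exfalso
      have h5 : (16 * κ * ((k : ℕ) : ℤ) + 16 * κ : ℤ) ≤ 16 * κ * ((i : ℕ) : ℤ) := by
        have : (((k : ℕ) : ℤ) + 1) ≤ ((i : ℕ) : ℤ) := by exact_mod_cast hik
        have h2 : (0 : ℤ) ≤ 16 * κ := by positivity
        nlinarith [mul_le_mul_of_nonneg_left this h2]
      omega
  have hle : ∀ x, phi K xa m κ x ≤ (m : ℝ)⁻¹ * (16000000 / (κ : ℝ) ^ 2) := by
    intro x
    unfold phi
    apply mul_le_mul_of_nonneg_left _ (by positivity)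
    by_cases hx : ∃ i : Fin m, x ∈ box (ctr K xa κ i) κ
    · obtain ⟨i, hi⟩ := hx
      rw [Finset.sum_eq_single i]
      · exact bump_le hκ _ _
      · intro k _ hk
        by_contra h
        exact hk (huniq x k i (bump_supp hκ h) hi)
      · intro h
        exact absurd (mem_univ _) h
    · push Not at hx
      rw [Finset.sum_eq_zero]
      · positivity
      · intro i _
        by_contra h
        exact hx i (bump_supp hκ h)
  have hfin : {f : Pt | (Q.x0 ≤ f.1 ∧ f.1 < Q.x1 ∧ Q.y0 ≤ f.2 ∧ f.2 < Q.y1) ∧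
      surr ω A f}.Finite := by
    refine (Finset.finite_toSet (Finset.Icc Q.x0 Q.x1 ×ˢ Finset.Icc Q.y0 Q.y1)).subset ?_
    rintro f ⟨⟨h1, h2, h3, h4⟩, _⟩
    rw [Finset.mem_coe, mem_product, mem_Icc, mem_Icc]
    omega
  have hcard : ((F.filter (fun x => surr ω A x)).card : ℝ) ≤ (S7.area Q ω A : ℝ) := by
    unfold S7.area
    rw [Set.ncard_eq_toFinset_card _ hfin]
    have : F.filter (fun x => surr ω A x) ⊆ hfin.toFinset := by
      intro x hx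
      rw [mem_filter, hF, mem_biUnion] at hx
      obtain ⟨⟨i, _, hi⟩, hs⟩ := hx
      rw [Set.Finite.mem_toFinset]
      have h1 := ctr_Rg S hω g i.2 (box_sub2 _ _ hi)
      have h2 := ctr_box (box_sub2 _ _ hi)
      have h3 := (strip_spec S hω g i.2).2.2.1
      exact ⟨⟨h1.1, h1.2.1, by omega, h1.2.2.2⟩, hs⟩
    exact_mod_cast Finset.card_le_card this
  calc ∑ x ∈ F, phi K xa m κ x * (if surr ω A x then 1 else 0)
      ≤ ∑ x ∈ F, (if surr ω A x then (m : ℝ)⁻¹ * (16000000 / (κ : ℝ) ^ 2) else 0) := by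
        refine Finset.sum_le_sum fun x _ => ?_
        split_ifs
        · rw [mul_one]; exact hle x
        · rw [mul_zero]
    _ = ((m : ℝ)⁻¹ * (16000000 / (κ : ℝ) ^ 2)) * ((F.filter (fun x => surr ω A x)).card : ℝ) := by
        rw [← Finset.sum_filter, Finset.sum_const, nsmul_eq_mul, mul_comm]
    _ ≤ ((m : ℝ)⁻¹ * (16000000 / (κ : ℝ) ^ 2)) * (S7.area Q ω A : ℝ) :=
        mul_le_mul_of_nonneg_left hcard (by positivity)
    _ = _ := by
        rw [mul_inv]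
        ring

/-- the owner loop -/
theorem own_eq (hω : ω ∈ DD V) {j : ℕ} (hj : 1 ≤ j) (h : Q.Has V t0 ω j) {u : Pt}
    (hu : u ∈ Q.cj V t0 ω j) : S7.own Q V t0 ω j = comp ω u := by
  ext v
  constructor
  · rintro ⟨w, hw, hv⟩
    exact L.same_trans (good_same hω (cj_good hj h) hu hw) hv
  · intro hv
    exact ⟨u, hu, hv⟩

theorem own_loop (hω : ω ∈ DD V) {j : ℕ} (hj : 1 ≤ j) (h : Q.Has V t0 ω j) :
    S7.own Q V t0 ω j ∈ Loops ω ∧ (∃ u ∈ Q.cj V t0 ω j, u ∈ S7.own Q V t0 ω j) ∧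
      ∃ q ∈ S7.own Q V t0 ω j, q.1 = Q.x0 + 1 := by
  have g := cj_good hj h
  obtain ⟨u, hu⟩ := g.nonempty
  have e := own_eq hω hj h hu
  have hL : S7.own Q V t0 ω j ∈ Loops ω := ⟨u, good_ne hω g hu, e⟩
  have huo : u ∈ S7.own Q V t0 ω j := by rw [e]; exact L.same_refl _ _
  exact ⟨hL, ⟨u, hu, huo⟩, owner_left hω g hL hu huo⟩

/-- **the two deterministic inequalities**. (1) from `Has j` and `UpIn j`; (2) from `Has (j+1)`. -/
theorem det_two : ∃ β : ℝ, 0 < β ∧ ∃ C : ℝ, 0 < C ∧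
    ∀ (T : Temp) (Q : Cap) (t0 yb xa : ℤ) (m κ d ρ0 D : ℕ), Setup T Q t0 yb xa m κ d ρ0 D →
    ∀ ω ∈ DD T.V, ∀ (j s : ℕ) (C0 : ℝ) (B : Pt → Finset Pt), 1 ≤ j →
    1 ≤ m → 5 ≤ κ → 1 ≤ s → 2 * s ≤ κ → 18 * κ ≤ d → 2 * s + 1 ≤ D → (∀ x, B x ⊆ box x ρ0) →
    (∀ (χ u : Pt → ℝ) (v : Fin m → Pt → ℝ), Q.Has T.V t0 ω j → S7.UpIn Q T.V t0 ω j →
      EvData T Q t0 ω j j xa m κ s C0 χ u v →
      1 ≤ 16000000 * (((m : ℝ) * (κ : ℝ) ^ 2)⁻¹ *
          (S7.area Q ω (S7.own Q T.V t0 ω j) : ℝ)) +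
        |mass ω (lap (fun y => χ y * u y)) (S7.own Q T.V t0 ω j)| +
        C * (C0 + 1) * (((κ : ℝ)) / ((d : ℝ))) ^ β + tsE T Q t0 ω j j xa m κ d D χ v B) ∧
    (∀ (χ u χ' u' : Pt → ℝ) (v v' : Fin m → Pt → ℝ), Q.Has T.V t0 ω (j + 1) →
      EvData T Q t0 ω j j xa m κ s C0 χ u v → EvData T Q t0 ω j (j + 1) xa m κ s C0 χ' u' v' →
      1 ≤ |mass ω (lap (fun y => χ y * u y)) (S7.own Q T.V t0 ω (j + 1))| +
        |mass ω (lap (fun y => χ' y * u' y)) (S7.own Q T.V t0 ω (j + 1))| +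
        2 * (C * (C0 + 1) * (((κ : ℝ)) / ((d : ℝ))) ^ β) +
        tsE T Q t0 ω j j xa m κ d D χ v B + tsE T Q t0 ω j (j + 1) xa m κ d D χ' v' B +
        C * (C0 + 1) * (((m : ℝ) * (κ : ℝ) ^ 2)⁻¹ *
          (gapD Q T.V t0 ω j xa (xa + 16 * κ * m) : ℝ))) := by
  classical
  obtain ⟨β, hβ, C, hC, hev⟩ := det_eval
  refine ⟨β, hβ, C, hC, ?_⟩
  intro T Q t0 yb xa m κ d ρ0 D S ω hω j s C0 B hj hm hκ hs hsκ hκd hD hB
  -- the evaluation at time `j`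
  have E1 : ∀ A ∈ Loops ω, (∃ q ∈ A, q.1 = Q.x0 + 1) → Q.Has T.V t0 ω j →
      ∀ (χ u : Pt → ℝ) (v : Fin m → Pt → ℝ), EvData T Q t0 ω j j xa m κ s C0 χ u v →
      |mass ω (phi (Q.cj T.V t0 ω j) xa m κ) A - (if upS Q ω (Q.cj T.V t0 ω j) A then 1 else 0)| ≤
      |mass ω (lap (fun y => χ y * u y)) A| + C * (C0 + 1) * (((κ : ℝ)) / ((d : ℝ))) ^ β +
        tsE T Q t0 ω j j xa m κ d D χ v B := by
    intro A hA hAq h χ u v hd
    have := hev T Q t0 yb xa m κ d ρ0 D S ω hω j j hj le_rfl h A hA hAq (OE_finite T _)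
      (cpr_OE hω S.h0 j) s C0 χ u v B hm hκ hs hsκ hκd hD hB hd.cut hd.green hd.part
    have e0 : ∑ i : Fin m, ((badF T Q t0 ω j j xa κ i).card : ℝ) = 0 :=
      Finset.sum_eq_zero fun i _ => by rw [badF_self S hω hj h i.2]; simp
    rw [e0, mul_zero, mul_zero, add_zero] at this
    exact this
  refine ⟨?_, ?_⟩
  · intro χ u v h hup hd
    obtain ⟨hA, ⟨w, hw, hwA⟩, hAq⟩ := own_loop hω hj h
    have h1 := E1 _ hA hAq h χ u v hd
    have h2 : upS Q ω (Q.cj T.V t0 ω j) (S7.own Q T.V t0 ω j) := hup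
    rw [if_pos h2] at h1
    have h3 := mass_area S hω (cj_good hj h) hκ hm (S7.own Q T.V t0 ω j)
    have h4 := (abs_le.1 h1).1
    linarith
  · intro χ u χ' u' v v' h hd hd'
    obtain ⟨hA, ⟨w, hw, hwA⟩, hAq⟩ := own_loop hω (by omega : 1 ≤ j + 1) h
    have h1 := E1 _ hA hAq (has_of_succ h) χ u v hd
    have h2 := hev T Q t0 yb xa m κ d ρ0 D S ω hω j (j + 1) hj (Nat.le_succ j) h _ hA hAq
      (OE_finite T _) (cpr_OE hω S.h0 (j + 1)) s C0 χ' u' v' B hm hκ hs hsκ hκd hD hB hd'.cut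
      hd'.green hd'.part
    have hflip := up_flip hω S.h0 S.ht hj h hA hw hwA
    have hbad : (∑ i : Fin m, ((badF T Q t0 ω j (j + 1) xa κ i).card : ℝ)) ≤
        (gapD Q T.V t0 ω j xa (xa + 16 * κ * m) : ℝ) := by
      exact_mod_cast badF_card S hω hj h
    have hC0 := cut_C0_nonneg hd.cut
    have h3 : C * (C0 + 1) * (((m : ℝ) * (κ : ℝ) ^ 2)⁻¹ *
        ∑ i : Fin m, ((badF T Q t0 ω j (j + 1) xa κ i).card : ℝ)) ≤
        C * (C0 + 1) * (((m : ℝ) * (κ : ℝ) ^ 2)⁻¹ *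
          (gapD Q T.V t0 ω j xa (xa + 16 * κ * m) : ℝ)) := by
      apply mul_le_mul_of_nonneg_left _ (by positivity)
      exact mul_le_mul_of_nonneg_left hbad (by positivity)
    have h4 : (1 : ℝ) ≤ |mass ω (phi (Q.cj T.V t0 ω j) xa m κ) (S7.own Q T.V t0 ω (j + 1)) -
        (if upS Q ω (Q.cj T.V t0 ω j) (S7.own Q T.V t0 ω (j + 1)) then 1 else 0)| +
        |mass ω (phi (Q.cj T.V t0 ω j) xa m κ) (S7.own Q T.V t0 ω (j + 1)) -
        (if upS Q ω (Q.cj T.V t0 ω (j + 1)) (S7.own Q T.V t0 ω (j + 1)) then 1 else 0)| := by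
      set M := mass ω (phi (Q.cj T.V t0 ω j) xa m κ) (S7.own Q T.V t0 ω (j + 1)) with hM
      by_cases a : upS Q ω (Q.cj T.V t0 ω j) (S7.own Q T.V t0 ω (j + 1))
      · have b : ¬ upS Q ω (Q.cj T.V t0 ω (j + 1)) (S7.own Q T.V t0 ω (j + 1)) :=
          fun b => hflip ⟨fun _ => b, fun _ => a⟩
        rw [if_pos a, if_neg b]
        have e1 := neg_abs_le (M - 1)
        have e2 := le_abs_self (M - 0)
        linarith
      · have b : upS Q ω (Q.cj T.V t0 ω (j + 1)) (S7.own Q T.V t0 ω (j + 1)) := by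
          by_contra b
          exact hflip ⟨fun h => absurd h a, fun h => absurd h b⟩
        rw [if_neg a, if_pos b]
        have e1 := neg_abs_le (M - 1)
        have e2 := le_abs_self (M - 0)
        linarith
    have h5 : |mass ω (phi (Q.cj T.V t0 ω j) xa m κ) (S7.own Q T.V t0 ω (j + 1)) -
        (if upS Q ω (Q.cj T.V t0 ω (j + 1)) (S7.own Q T.V t0 ω (j + 1)) then 1 else 0)| ≤
      |mass ω (lap (fun y => χ' y * u' y)) (S7.own Q T.V t0 ω (j + 1))| +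
      C * (C0 + 1) * (((κ : ℝ)) / ((d : ℝ))) ^ β +
      tsE T Q t0 ω j (j + 1) xa m κ d D χ' v' B +
      C * (C0 + 1) * (((m : ℝ) * (κ : ℝ) ^ 2)⁻¹ *
        ∑ i : Fin m, ((badF T Q t0 ω j (j + 1) xa κ i).card : ℝ)) := h2
    linarith

end Vale.Agent.P155.T802
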