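import Vale.Agent.P155.T802.Seq

/-!
# P155, TIGHT, sweep: the loops seen from the crossings
-/

namespace Vale.Agent.P155.T802

open Finset

variable {V : Finset Pt} {ω : Conf} {Q : Cap} {K : Set Pt} {t0 : ℤ}

theorem eA_loop (hω : ω ∈ DD V) {A : Set Pt} (hA : A ∈ Loops ω) (v : Pt) :
    eA ω A v = ind (vedgeL ω A v.1 v.2) := by
  unfold eA
  by_cases hv : v ∈ A
  · have hne := L.loop_ne hω hA hv
    by_cases h1 : ω.1 v = (v.1, v.2 + 1)
    · have h2 : ω.2 v ≠ (v.1, v.2 + 1) := fun h => hne (h1.trans h.symm)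
      rw [ind_true ⟨Or.inl hv, h1⟩, ind_false (fun h => h2 h.2), ind_true ⟨hv, Or.inl h1⟩, add_zero]
    · by_cases h2 : ω.2 v = (v.1, v.2 + 1)
      · rw [ind_false (fun h => h1 h.2), ind_true ⟨Or.inl hv, h2⟩, ind_true ⟨hv, Or.inr h2⟩,
          zero_add]
      · rw [ind_false (fun h => h1 h.2), ind_false (fun h => h2 h.2),
          ind_false (fun h => h.2.elim h1 h2), zero_add]
  · have n1 : ¬ ((v ∈ A ∨ (v.1, v.2 + 1) ∈ A) ∧ ω.1 v = (v.1, v.2 + 1)) := by
      rintro ⟨h, e⟩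
      have := L.loop_m1 hA (h.resolve_left hv)
      rw [← e, L.inv1 hω] at this
      exact hv this
    have n2 : ¬ ((v ∈ A ∨ (v.1, v.2 + 1) ∈ A) ∧ ω.2 v = (v.1, v.2 + 1)) := by
      rintro ⟨h, e⟩
      have := L.loop_m2 hA (h.resolve_left hv)
      rw [← e, L.inv2 hω] at this
      exact hv this
    rw [ind_false n1, ind_false n2, ind_false (fun h => hv h.1), add_zero]

/-- the edges of a loop form an even edge set -/
theorem loop_even (hω : ω ∈ DD V) {A : Set Pt} (hA : A ∈ Loops ω) :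
    EvenSet (eA ω A) (eB ω A) where
  bd := by
    classical
    obtain ⟨M', hM'⟩ := (V.image (fun v => - v.1)).exists_le
    obtain ⟨M, hM⟩ : ∃ M : ℤ, ∀ v ∈ V, M ≤ v.1 :=
      ⟨-M', fun v hv => by have := hM' (- v.1) (Finset.mem_image_of_mem (fun v : Pt => - v.1) hv); omega⟩
    refine ⟨M - 1, fun v hv => ?_⟩
    have nK : ∀ u : Pt, u.1 < M → u ∉ A := by
      intro u hu h
      have := hM u (L.loop_subset hω hA h)
      omega
    have k1 : v ∉ A := nK _ (by omega)
    have k2 : (v.1, v.2 + 1) ∉ A := nK _ (by simp only; omega)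
    have k3 : (v.1 + 1, v.2) ∉ A := nK _ (by simp only; omega)
    constructor
    · unfold eA
      rw [ind_false (fun h => h.1.elim k1 k2), ind_false (fun h => h.1.elim k1 k2), add_zero]
    · unfold eB
      rw [ind_false (fun h => h.1.elim k1 k3), ind_false (fun h => h.1.elim k1 k3), add_zero]
  even := by
    intro v
    have a1 : ∀ u, ω.1 u = u ∨ Adj u (ω.1 u) := by
      intro u
      by_cases hu : u ∈ V
      · exact Or.inr (L.adj1 hω hu)
      · exact Or.inl (L.off1 hω hu)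
    have a2 : ∀ u, ω.2 u = u ∨ Adj u (ω.2 u) := by
      intro u
      by_cases hu : u ∈ V
      · exact Or.inr (L.adj2 hω hu)
      · exact Or.inl (L.off2 hω hu)
    have h1 := four (L.inv1 hω) a1 A v
    have h2 := four (L.inv2 hω) a2 A v
    have key : eA ω A v + eA ω A (v.1, v.2 - 1) + eB ω A v + eB ω A (v.1 - 1, v.2) =
        ind ((v ∈ A ∨ ω.1 v ∈ A) ∧ ω.1 v ≠ v) + ind ((v ∈ A ∨ ω.2 v ∈ A) ∧ ω.2 v ≠ v) := by
      rw [← h1, ← h2]
      unfold eA eB
      simp only
      ring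
    rw [key]
    have i1 : ((v ∈ A ∨ ω.1 v ∈ A) ∧ ω.1 v ≠ v) ↔ v ∈ A := by
      constructor
      · rintro ⟨h | h, _⟩
        · exact h
        · have := L.loop_m1 hA h
          rwa [L.inv1 hω] at this
      · exact fun h => ⟨Or.inl h, (L.adj_ne (L.adj1 hω (L.loop_subset hω hA h))).symm⟩
    have i2 : ((v ∈ A ∨ ω.2 v ∈ A) ∧ ω.2 v ≠ v) ↔ v ∈ A := by
      constructor
      · rintro ⟨h | h, _⟩
        · exact h
        · have := L.loop_m2 hA h
          rwa [L.inv2 hω] at this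
      · exact fun h => ⟨Or.inl h, (L.adj_ne (L.adj2 hω (L.loop_subset hω hA h))).symm⟩
    rw [ind_congr i1, ind_congr i2]
    exact z2 _

/-- `surr` is the parity function of the loop -/
theorem surr_par (hω : ω ∈ DD V) {A : Set Pt} (hA : A ∈ Loops ω) (f : Pt) :
    ind (surr ω A f) = par (eA ω A) f := by
  classical
  obtain ⟨M, hM⟩ := (loop_even hω hA).bd
  rw [par_eq (M := M) (fun v hv => (hM v hv).1)]
  have e1 : ∀ j ∈ Finset.Icc M f.1, eA ω A (j, f.2) = ind (vedgeL ω A j f.2) :=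
    fun j _ => eA_loop hω hA _
  rw [Finset.sum_congr rfl e1]
  have e2 : (∑ j ∈ Finset.Icc M f.1, ind (vedgeL ω A j f.2)) =
      (((Finset.Icc M f.1).filter (fun j => vedgeL ω A j f.2)).card : ZMod 2) := by
    rw [Finset.card_filter]
    push_cast
    refine Finset.sum_congr rfl (fun j _ => ?_)
    by_cases h : vedgeL ω A j f.2
    · rw [ind_true h, if_pos h]
    · rw [ind_false h, if_neg h]
  rw [e2]
  have e3 : {j : ℤ | j ≤ f.1 ∧ vedgeL ω A j f.2} =
      (((Finset.Icc M f.1).filter (fun j => vedgeL ω A j f.2) : Finset ℤ) : Set ℤ) := by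
    ext j
    simp only [Set.mem_ofPred_eq, Finset.coe_filter, Finset.mem_Icc]
    constructor
    · rintro ⟨h1, h2⟩
      refine ⟨⟨?_, h1⟩, h2⟩
      by_contra hcon
      have := (hM (j, f.2) (by simp only; omega)).1
      rw [eA_loop hω hA, ind_true h2] at this
      exact absurd this (by decide)
    · rintro ⟨h1, h2⟩
      exact ⟨h1.2, h2⟩
  unfold surr
  rw [e3, Set.ncard_coe_finset]
  by_cases h : Odd ((Finset.Icc M f.1).filter (fun j => vedgeL ω A j f.2)).card
  · rw [ind_true h, ZMod.natCast_eq_one_iff_odd.2 h]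
  · rw [ind_false h]
    have : ∀ p : ZMod 2, p ≠ 1 → 0 = p := by decide
    exact this _ (fun hh => h (ZMod.natCast_eq_one_iff_odd.1 hh))

theorem eA_zero {A : Set Pt} {v : Pt}
    (h : ω.1 v = (v.1, v.2 + 1) ↔ ω.2 v = (v.1, v.2 + 1)) : eA ω A v = 0 := by
  unfold eA
  rw [ind_congr (q := (v ∈ A ∨ (v.1, v.2 + 1) ∈ A) ∧ ω.2 v = (v.1, v.2 + 1))
    (by rw [h])]
  exact z2 _

theorem eB_zero {A : Set Pt} {v : Pt}
    (h : ω.1 v = (v.1 + 1, v.2) ↔ ω.2 v = (v.1 + 1, v.2)) : eB ω A v = 0 := by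
  unfold eB
  rw [ind_congr (q := (v ∈ A ∨ (v.1 + 1, v.2) ∈ A) ∧ ω.2 v = (v.1 + 1, v.2))
    (by rw [h])]
  exact z2 _

/-- the inside indicator of a loop is flat -/
theorem flat_surr (hω : ω ∈ DD V) {A : Set Pt} (hA : A ∈ Loops ω) :
    Flat ω (fun f => ind (surr ω A f)) where
  vert := by
    intro v h
    rw [surr_par hω hA, surr_par hω hA, par_right (loop_even hω hA) v.1 v.2, eA_zero h, add_zero]
  hor := by
    intro v h
    rw [surr_par hω hA, surr_par hω hA, par_up (loop_even hω hA) v.1 v.2, eB_zero h, add_zero]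

/-- a component cut at the wall lies in the full component -/
theorem compW_sub (W : Set Pt) (ω : Conf) (v : Pt) : compW W ω v ⊆ comp ω v := by
  intro u hu
  change Same ω v u
  induction hu with
  | refl => exact Relation.ReflTransGen.refl
  | tail _ hbc ih => exact Relation.ReflTransGen.tail ih hbc.2

/-- the owner jumps across the component -/
theorem owner_jump (hω : ω ∈ DD V) {A : Set Pt} (hA : A ∈ Loops ω) {v u : Pt}
    (hu : u ∈ compW Q.W ω v) (huL : u ∈ A) : ∃ g g', Touch (compW Q.W ω v) g ∧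
      Touch (compW Q.W ω v) g' ∧ ind (surr ω A g) ≠ ind (surr ω A g') := by
  have hev := loop_even hω hA
  have hV := L.loop_subset hω hA huL
  have hne := L.loop_ne hω hA huL
  have hn := mem_nbrs.2 (L.adj1 hω hV)
  have key : ∀ p q : ZMod 2, q = 1 → p + q ≠ p := by decide
  obtain ⟨x, y⟩ := u
  have T : ∀ g ∈ facesAt (x, y), Touch (compW Q.W ω v) g := fun g hg => touch_iff.2 ⟨_, hu, hg⟩
  -- value `1` of the edge indicators
  have s1 : ∀ r, ω.1 (x, y) = r → ω.1 r = (x, y) := fun r h => by rw [← h, L.inv1 hω]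
  have s2 : ∀ r, ω.1 (x, y) = r → ω.2 r ≠ (x, y) := by
    intro r h h'
    refine hne ?_
    rw [h, ← h', L.inv2 hω]
  simp only [nbrs, mem_insert, mem_singleton] at hn
  rcases hn with h | h | h | h
  · refine ⟨(x, y), (x, y - 1), T _ (by simp [facesAt]), T _ (by simp [facesAt]), ?_⟩
    rw [surr_par hω hA, surr_par hω hA, par_up hev x y]
    refine key _ _ ?_
    unfold eB
    rw [ind_true ⟨Or.inl huL, h⟩, ind_false (fun hh => hne (h.trans hh.2.symm)), add_zero]
  · refine ⟨(x - 1, y), (x - 1, y - 1), T _ (by simp [facesAt]), T _ (by simp [facesAt]), ?_⟩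
    rw [surr_par hω hA, surr_par hω hA, par_up hev (x - 1) y]
    refine key _ _ ?_
    unfold eB
    simp only [sub_add_cancel]
    rw [ind_true ⟨Or.inr huL, s1 _ h⟩, ind_false (fun hh => s2 _ h hh.2), add_zero]
  · refine ⟨(x, y), (x - 1, y), T _ (by simp [facesAt]), T _ (by simp [facesAt]), ?_⟩
    rw [surr_par hω hA, surr_par hω hA, par_right hev x y]
    refine key _ _ ?_
    unfold eA
    rw [ind_true ⟨Or.inl huL, h⟩, ind_false (fun hh => hne (h.trans hh.2.symm)), add_zero]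
  · refine ⟨(x, y - 1), (x - 1, y - 1), T _ (by simp [facesAt]), T _ (by simp [facesAt]), ?_⟩
    rw [surr_par hω hA, surr_par hω hA, par_right hev x (y - 1)]
    refine key _ _ ?_
    unfold eA
    simp only [sub_add_cancel]
    rw [ind_true ⟨Or.inr huL, s1 _ h⟩, ind_false (fun hh => s2 _ h hh.2), add_zero]

theorem ind_ne {p q : Prop} (h : ind p ≠ ind q) : ¬ (p ↔ q) := fun hh => h (ind_congr hh)

theorem ind_iff {p q : Prop} (h : ind p = ind q) : p ↔ q := by
  by_cases hp : p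
  · by_cases hq : q
    · exact ⟨fun _ => hq, fun _ => hp⟩
    · rw [ind_true hp, ind_false hq] at h
      exact absurd h (by decide)
  · by_cases hq : q
    · rw [ind_false hp, ind_true hq] at h
      exact absurd h (by decide)
    · exact ⟨fun h' => absurd h' hp, fun h' => absurd h' hq⟩

/-- a loop does not distinguish the faces on one side of a good crossing -/
theorem same_side (hω : ω ∈ DD V) (g : Q.Good V ω K) {A : Set Pt} (hA : A ∈ Loops ω) {f f' : Pt}
    (hf : Touch K f) (hf' : Touch K f') (hp : Q.pr ω K f = Q.pr ω K f') :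
    surr ω A f ↔ surr ω A f' := by
  obtain ⟨v, hv, hW, rfl⟩ := g.comp
  exact ind_iff (side_comp hω hv hW (flat_surr hω hA) hf hf' hp)

/-- the owner distinguishes the two sides of a good crossing -/
theorem other_side (hω : ω ∈ DD V) (g : Q.Good V ω K) {A : Set Pt} (hA : A ∈ Loops ω) {u : Pt}
    (hu : u ∈ K) (huL : u ∈ A) {f f' : Pt} (hf : Touch K f) (hf' : Touch K f')
    (hp : Q.pr ω K f ≠ Q.pr ω K f') : ¬ (surr ω A f ↔ surr ω A f') := by
  obtain ⟨v, hv, hW, rfl⟩ := g.comp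
  exact ind_ne (side_ne hω hv hW (flat_surr hω hA) (owner_jump hω hA hu huL) hf hf' hp)

/-! ### good crossings consist of strand edges -/

theorem degW_ne {z : Pt} (h : degW ω K z ≠ 0) : ω.1 z ∈ K ∨ ω.2 z ∈ K := by
  by_contra hcon
  push Not at hcon
  exact h (degW_eq_zero hcon.1 hcon.2)

/-- the vertices of a good crossing belong to a loop -/
theorem good_ne (hω : ω ∈ DD V) (g : Q.Good V ω K) {u : Pt} (hu : u ∈ K) : ω.1 u ≠ ω.2 u := by
  intro h
  obtain ⟨v, hv, hW, hK⟩ := g.comp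
  have hc := g.closed hω
  have hKu : K = compW Q.W ω u := by
    rw [hK] at hu ⊢
    exact (compW_eq hω hW hu).symm
  -- `K ⊆ {u, ω.1 u}`
  have hsub : ∀ w ∈ K, w = u ∨ w = ω.1 u := by
    intro w hw
    rw [hKu] at hw
    induction hw with
    | refl => exact Or.inl rfl
    | @tail b c _ hbc ih =>
      rcases ih with rfl | rfl
      · rcases hbc.2 with e | e
        · exact Or.inr e
        · exact Or.inr (by rw [e, h])
      · rcases hbc.2 with e | e
        · rw [L.inv1 hω] at e; exact Or.inl e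
        · rw [h, L.inv2 hω] at e; exact Or.inl e
  have hodd := g.odd
  have hz : ∃ y ∈ Finset.Icc Q.y0 Q.y1, degW ω K (Q.x0, y) ≠ 0 := by
    by_contra hcon
    push Not at hcon
    unfold Cap.DL at hodd
    rw [Finset.sum_eq_zero hcon] at hodd
    exact absurd hodd (by decide)
  obtain ⟨y, hy, hz⟩ := hz
  rw [mem_Icc] at hy
  have hzW : (Q.x0, y) ∈ Q.W := Or.inl ⟨rfl, hy⟩
  have hzu : ω.1 u = (Q.x0, y) := by
    rcases degW_ne hz with h1 | h1
    · rcases hsub _ h1 with e | e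
      · rw [← e, L.inv1 hω]
      · have := L.inv1 hω (Q.x0, y)
        rw [e, L.inv1 hω] at this
        exact absurd (this ▸ hzW) (hc.sub u hu).2
    · rcases hsub _ h1 with e | e
      · rw [h, ← e, L.inv2 hω]
      · have := L.inv2 hω (Q.x0, y)
        rw [e, h, L.inv2 hω] at this
        exact absurd (this ▸ hzW) (hc.sub u hu).2
  refine hz ?_
  rw [← hzu, degW_eq, L.inv1 hω, h, L.inv2 hω, ind_true hu]
  exact z2 1

/-- above every vertex there is a horizontal edge -/
theorem good_hedge (hω : ω ∈ DD V) (g : Q.Good V ω K) {u : Pt} (hu : u ∈ K) :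
    ∃ y, u.2 ≤ y ∧ (hedge ω K (u.1 - 1) y ∨ hedge ω K u.1 y) := by
  have hyc := Q.hy1
  have hbdd : BddAbove {y | (u.1, y) ∈ K} := ⟨Q.yc, fun y h => (g.reg _ h).2.2.2⟩
  have hne : {y | (u.1, y) ∈ K}.Nonempty := ⟨u.2, hu⟩
  have hm := Int.csSup_mem hne hbdd
  have hle : ∀ y, (u.1, y) ∈ K → y ≤ sSup {y | (u.1, y) ∈ K} := fun y h => le_csSup hbdd h
  set y := sSup {y | (u.1, y) ∈ K} with hy
  have hmK : (u.1, y) ∈ K := hm
  refine ⟨y, hle _ hu, ?_⟩
  have hc := g.closed hω
  have hV := (hc.sub _ hmK).1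
  have hr := g.reg _ hmK
  simp only at hr
  have nup : (u.1, y + 1) ∉ K ∧ (u.1, y + 1) ∉ Q.W := by
    refine ⟨fun h => by have := hle _ h; omega, ?_⟩
    simp only [Cap.W, Set.mem_ofPred_eq]
    omega
  have n1 := mem_nbrs.2 (L.adj1 hω hV)
  have n2 := mem_nbrs.2 (L.adj2 hω hV)
  have hne' := good_ne hω g hmK
  have c1 := hc.one _ hmK
  have c2 := hc.two _ hmK
  simp only [nbrs, mem_insert, mem_singleton] at n1 n2
  have R1 : ω.1 (u.1, y) = (u.1 + 1, y) → hedge ω K u.1 y := fun h => ⟨Or.inl hmK, Or.inl h⟩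
  have R2 : ω.2 (u.1, y) = (u.1 + 1, y) → hedge ω K u.1 y := fun h => ⟨Or.inl hmK, Or.inr h⟩
  have L1 : ω.1 (u.1, y) = (u.1 - 1, y) → hedge ω K (u.1 - 1) y := fun h =>
    ⟨Or.inr (by rw [sub_add_cancel]; exact hmK), Or.inl (by rw [sub_add_cancel, ← h, L.inv1 hω])⟩
  have L2 : ω.2 (u.1, y) = (u.1 - 1, y) → hedge ω K (u.1 - 1) y := fun h =>
    ⟨Or.inr (by rw [sub_add_cancel]; exact hmK), Or.inr (by rw [sub_add_cancel, ← h, L.inv2 hω])⟩
  have U1 : ω.1 (u.1, y) ≠ (u.1, y + 1) := fun h => by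
    rw [h] at c1
    exact c1.elim nup.1 nup.2
  have U2 : ω.2 (u.1, y) ≠ (u.1, y + 1) := fun h => by
    rw [h] at c2
    exact c2.elim nup.1 nup.2
  rcases n1 with h | h | h | h
  · exact Or.inr (R1 h)
  · exact Or.inl (L1 h)
  · exact absurd h U1
  · rcases n2 with h' | h' | h' | h'
    · exact Or.inr (R2 h')
    · exact Or.inl (L2 h')
    · exact absurd h' U2
    · exact absurd (h.trans h'.symm) hne'

/-- a face touching a good crossing lies below one of the three tops -/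
theorem touch_le (hω : ω ∈ DD V) (g : Q.Good V ω K) {f : Pt} (hf : Touch K f) :
    ∃ x, f.1 - 1 ≤ x ∧ x ≤ f.1 + 1 ∧ Q.x0 ≤ x ∧ x < Q.x1 ∧ f.2 ≤ topE ω K x := by
  obtain ⟨u, hu, hfu⟩ := touch_iff.1 hf
  obtain ⟨y, hy, hh⟩ := good_hedge hω g hu
  have hr := g.reg _ hu
  have hfu' : (f.1 = u.1 ∨ f.1 = u.1 - 1) ∧ (f.2 = u.2 ∨ f.2 = u.2 - 1) := by
    obtain ⟨a, b⟩ := f
    simp only [facesAt, mem_insert, mem_singleton, Prod.mk.injEq] at hfu
    simp only
    omega
  rcases hh with h | h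
  · refine ⟨u.1 - 1, by omega, by omega, by omega, by omega, ?_⟩
    have := (g.topE_spec hω (by omega) (by omega)).2 y h
    omega
  · refine ⟨u.1, by omega, by omega, by omega, by omega, ?_⟩
    have := (g.topE_spec hω (by omega) (by omega)).2 y h
    omega

end Vale.Agent.P155.T802
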