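import Vale.Agent.P155.T802.Chain

/-!
# P155, TIGHT, sweep: good crossings
-/

namespace Vale.Agent.P155.T802

open Finset

variable {V : Finset Pt} {ω : Conf} {Q : Cap} {K : Set Pt} {t0 : ℤ}

/-- horizontal edge of `K` in the face column `x` at height `y` -/
def hedge (ω : Conf) (K : Set Pt) (x y : ℤ) : Prop :=
  ((x, y) ∈ K ∨ (x + 1, y) ∈ K) ∧ (ω.1 (x, y) = (x + 1, y) ∨ ω.2 (x, y) = (x + 1, y))

/-- highest horizontal edge of `K` in the face column `x` -/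
noncomputable def topE (ω : Conf) (K : Set Pt) (x : ℤ) : ℤ := sSup {y | hedge ω K x y}

theorem eB_hedge {x y : ℤ} (h : ¬ hedge ω K x y) : eB ω K (x, y) = 0 := by
  unfold eB
  rw [ind_false (fun hh => h ⟨hh.1, Or.inl hh.2⟩), ind_false (fun hh => h ⟨hh.1, Or.inr hh.2⟩),
    add_zero]

/-- `K` lies in the open cap region, below `yc` -/
def Cap.Reg (Q : Cap) (K : Set Pt) : Prop :=
  ∀ u ∈ K, Q.x0 < u.1 ∧ u.1 < Q.x1 ∧ Q.y0 ≤ u.2 ∧ u.2 ≤ Q.yc

/-- outside of the cap the parity vanishes -/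
theorem pr_out (hω : ω ∈ DD V) (hK : Closed Q.W V ω K) (hr : Q.Reg K) {f : Pt}
    (h : f.1 < Q.x0 ∨ Q.x1 ≤ f.1 ∨ f.2 < Q.y0 ∨ Q.y1 ≤ f.2) : Q.pr ω K f = 0 := by
  have hx := Q.hx
  have hy := Q.hy
  have hyc := Q.hy1
  obtain ⟨x, y⟩ := f
  simp only at h
  have low : ∀ x y : ℤ, y < Q.y0 → Q.pr ω K (x, y) = 0 := by
    intro x y hy'
    unfold Cap.pr
    refine par_zero_row (fun x' => ?_) x
    have h1 : (x', y) ∉ K := fun hh => by have := hr _ hh; simp only at this; omega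
    have h2 : (x', y) ∉ Q.W := by simp only [Cap.W, Set.mem_ofPred_eq]; omega
    unfold Cap.fA
    rw [eA_off hω hK (Or.inl ⟨h1, h2⟩), wA_off (Or.inl h2), add_zero]
  rcases h with h | h | h | h
  · unfold Cap.pr
    refine par_zero_left (fun x' hx' => ?_)
    have h1 : (x', y) ∉ K := fun hh => by have := hr _ hh; simp only at this; omega
    have h2 : (x', y) ∉ Q.W := by simp only [Cap.W, Set.mem_ofPred_eq]; omega
    unfold Cap.fA
    rw [eA_off hω hK (Or.inl ⟨h1, h2⟩), wA_off (Or.inl h2), add_zero]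
  · have key : ∀ n : ℕ, Q.pr ω K (x, Q.y0 - 1 + n) = 0 := by
      intro n
      induction n with
      | zero => exact low _ _ (by push_cast; omega)
      | succ n ih =>
        have h1 : (x + 1, Q.y0 - 1 + ((n + 1 : ℕ) : ℤ)) ∉ K := fun hh => by
          have := hr _ hh; simp only at this; omega
        have h2 : (x + 1, Q.y0 - 1 + ((n + 1 : ℕ) : ℤ)) ∉ Q.W := by
          simp only [Cap.W, Set.mem_ofPred_eq]; omega
        have e := par_up (Cap.even hω hK) x (Q.y0 - 1 + ((n + 1 : ℕ) : ℤ))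
        have e' : Q.y0 - 1 + ((n + 1 : ℕ) : ℤ) - 1 = Q.y0 - 1 + n := by push_cast; ring
        rw [e'] at e
        unfold Cap.pr at ih ⊢
        rw [e, ih, zero_add]
        unfold Cap.fB
        rw [eB_off hω hK (Or.inr ⟨h1, h2⟩), wB_off (Or.inr h2), add_zero]
    by_cases hlow : y < Q.y0
    · exact low _ _ hlow
    · have := key (y - (Q.y0 - 1)).toNat
      rwa [Int.toNat_of_nonneg (by omega), add_sub_cancel] at this
  · exact low _ _ h
  · unfold Cap.pr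
    refine par_zero_row (fun x' => ?_) x
    have h1 : (x', y + 1) ∉ K := fun hh => by have := hr _ hh; simp only at this; omega
    have h2 : (x', y + 1) ∉ Q.W := by simp only [Cap.W, Set.mem_ofPred_eq]; omega
    unfold Cap.fA
    rw [eA_off hω hK (Or.inr ⟨h1, h2⟩), wA_off (Or.inr h2), add_zero]

theorem pr_in (hω : ω ∈ DD V) (hK : Closed Q.W V ω K) (hr : Q.Reg K) {f : Pt}
    (h : Q.pr ω K f ≠ 0) : Q.x0 ≤ f.1 ∧ f.1 < Q.x1 ∧ Q.y0 ≤ f.2 ∧ f.2 < Q.y1 := by
  by_contra hcon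
  exact h (pr_out hω hK hr (by omega))

theorem adj_coord {u v : Pt} (h : Adj u v) :
    u.1 - 1 ≤ v.1 ∧ v.1 ≤ u.1 + 1 ∧ u.2 - 1 ≤ v.2 ∧ v.2 ≤ u.2 + 1 := by
  have := mem_nbrs.2 h
  simp only [nbrs, mem_insert, mem_singleton] at this
  rcases this with rfl | rfl | rfl | rfl <;> simp only <;> omega

/-- no edges from the top side of the wall -/
theorem degW_top (hω : ω ∈ DD V) (hK : Closed Q.W V ω K) (hr : Q.Reg K) (x : ℤ) :
    degW ω K (x, Q.y1) = 0 := by
  have hyc := Q.hy1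
  rw [degW_eq]
  have h1 : ω.1 (x, Q.y1) ∉ K := by
    intro h
    have h2 := L.adj1 hω (hK.sub _ h).1
    rw [L.inv1 hω] at h2
    have := hr _ h
    have := adj_coord h2
    simp only at this
    omega
  have h1' : ω.2 (x, Q.y1) ∉ K := by
    intro h
    have h2 := L.adj2 hω (hK.sub _ h).1
    rw [L.inv2 hω] at h2
    have := hr _ h
    have := adj_coord h2
    simp only at this
    omega
  rw [ind_false h1, ind_false h1', add_zero]

/-- the top row -/
theorem pr_top (hω : ω ∈ DD V) (hK : Closed Q.W V ω K) (hr : Q.Reg K) {x : ℤ} (h0 : Q.x0 ≤ x)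
    (h1 : x < Q.x1) : Q.pr ω K (x, Q.y1 - 1) = Q.DL ω K := by
  have hy := Q.hy
  have hyc := Q.hy1
  have e := par_up (Cap.even hω hK) x Q.y1
  have e0 : Q.pr ω K (x, Q.y1) = 0 := pr_out hω hK hr (by simp only; omega)
  have n1 : ¬ hedge ω K x Q.y1 := by
    rintro ⟨h | h, _⟩
    · have := hr _ h; simp only at this; omega
    · have := hr _ h; simp only at this; omega
  have e1 : Q.fB ω K (x, Q.y1) = Q.DL ω K := by
    unfold Cap.fB Cap.wB Cap.DL
    rw [eB_hedge n1, if_pos ⟨rfl, h0, h1⟩, zero_add]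
    rw [Finset.sum_eq_zero (s := Finset.Icc Q.x0 _) (fun x _ => degW_top hω hK hr x), add_zero]
    rw [← Finset.insert_Icc_sub_one_right_eq_Icc hy.le, Finset.sum_insert (by simp),
      degW_top hω hK hr, zero_add]
  unfold Cap.pr at e0 ⊢
  rw [e0, e1] at e
  have : ∀ p q : ZMod 2, 0 = p + q → p = q := by decide
  exact this _ _ e

/-- in a column, above the last horizontal edge -/
theorem pr_col (hω : ω ∈ DD V) (hK : Closed Q.W V ω K) {x y : ℤ} (hy : y < Q.y1)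
    (hno : ∀ t, y < t → t < Q.y1 → ¬ hedge ω K x t) :
    Q.pr ω K (x, y) = Q.pr ω K (x, Q.y1 - 1) := by
  have key : ∀ n : ℕ, y + n < Q.y1 → Q.pr ω K (x, y) = Q.pr ω K (x, y + n) := by
    intro n
    induction n with
    | zero => intro _; simp
    | succ n ih =>
      intro hn
      push_cast at hn ⊢
      have e := par_up (Cap.even hω hK) x (y + (n + 1 : ℤ))
      have e' : y + ((n : ℤ) + 1) - 1 = y + n := by ring
      rw [e'] at e
      rw [ih (by omega)]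
      unfold Cap.pr
      rw [e]
      unfold Cap.fB
      rw [eB_hedge (hno _ (by omega) (by omega)), zero_add]
      unfold Cap.wB
      rw [if_neg (by simp only; omega), add_zero]
  have := key (Q.y1 - 1 - y).toNat (by omega)
  rwa [Int.toNat_of_nonneg (by omega), show y + (Q.y1 - 1 - y) = Q.y1 - 1 by ring] at this

theorem Cap.Good.closed (hω : ω ∈ DD V) (g : Q.Good V ω K) : Closed Q.W V ω K := by
  obtain ⟨v, h1, h2, rfl⟩ := g.comp
  exact closed_comp hω h1 h2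

theorem Cap.Good.Reg (g : Q.Good V ω K) : Q.Reg K := g.reg

theorem Cap.Good.ptop (hω : ω ∈ DD V) (g : Q.Good V ω K) {x : ℤ} (h0 : Q.x0 ≤ x)
    (h1 : x < Q.x1) : Q.pr ω K (x, Q.y1 - 1) = 1 := by
  rw [pr_top hω (g.closed hω) g.reg h0 h1, g.odd]

/-- `1` above the last horizontal edge -/
theorem Cap.Good.col (hω : ω ∈ DD V) (g : Q.Good V ω K) {x y : ℤ} (h0 : Q.x0 ≤ x)
    (h1 : x < Q.x1) (hy : y < Q.y1) (hno : ∀ t, y < t → t < Q.y1 → ¬ hedge ω K x t) :
    Q.pr ω K (x, y) = 1 := by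
  rw [pr_col hω (g.closed hω) hy hno, g.ptop hω h0 h1]

theorem hedge_reg (hr : Q.Reg K) {x y : ℤ} (h : hedge ω K x y) : Q.y0 ≤ y ∧ y ≤ Q.yc := by
  rcases h.1 with h | h
  · have := hr _ h; simp only at this; omega
  · have := hr _ h; simp only at this; omega

/-- every column contains a horizontal edge; the highest one -/
theorem Cap.Good.topE_spec (hω : ω ∈ DD V) (g : Q.Good V ω K) {x : ℤ} (h0 : Q.x0 ≤ x)
    (h1 : x < Q.x1) : hedge ω K x (topE ω K x) ∧ ∀ y, hedge ω K x y → y ≤ topE ω K x := by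
  have hbdd : BddAbove {y | hedge ω K x y} := ⟨Q.yc, fun y h => (hedge_reg g.reg h).2⟩
  have hne : {y | hedge ω K x y}.Nonempty := by
    by_contra hcon
    rw [Set.not_nonempty_iff_eq_empty] at hcon
    have hno : ∀ t, ¬ hedge ω K x t := fun t h => by
      have : t ∈ {y | hedge ω K x y} := h
      rw [hcon] at this
      exact this
    have e := g.col hω h0 h1 (y := Q.y0 - 1) (by have := Q.hy; omega) (fun t _ _ => hno t)
    rw [pr_out hω (g.closed hω) g.reg (by simp only; omega)] at e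
    exact absurd e (by decide)
  exact ⟨Int.csSup_mem hne hbdd, fun y h => le_csSup hbdd h⟩

/-- above the top the parity is `1` -/
theorem Cap.Good.above (hω : ω ∈ DD V) (g : Q.Good V ω K) {x y : ℤ} (h0 : Q.x0 ≤ x)
    (h1 : x < Q.x1) (hy : y < Q.y1) (ht : topE ω K x ≤ y) : Q.pr ω K (x, y) = 1 :=
  g.col hω h0 h1 hy (fun t h2 _ h => by have := (g.topE_spec hω h0 h1).2 t h; omega)

/-! ### components of the walk -/

theorem C_comp {k : ℕ} (h : (Q.C V t0 ω k).Nonempty) : (Q.xS, Q.pos V t0 ω k) ∈ V ∧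
    Q.pos V t0 ω k < Q.y1 ∧ Q.C V t0 ω k = compW Q.W ω (Q.xS, Q.pos V t0 ω k) := by
  obtain ⟨_, h1, h2⟩ := C_eq_cell h
  exact ⟨h1, h2, C_of h1 h2⟩

theorem C_closed (hω : ω ∈ DD V) (k : ℕ) : Closed Q.W V ω (Q.C V t0 ω k) := by
  rcases (Q.C V t0 ω k).eq_empty_or_nonempty with h | h
  · rw [h]
    exact ⟨fun _ h => absurd h (Set.notMem_empty _), fun _ h => absurd h (Set.notMem_empty _),
      fun _ h => absurd h (Set.notMem_empty _)⟩
  · obtain ⟨h1, h2, h3⟩ := C_comp h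
    rw [h3]
    exact closed_comp hω h1 (Q.notW h2)

theorem C_line {k : ℕ} {t : ℤ} (ht : t < Q.y1) (h : (Q.xS, t) ∈ Q.C V t0 ω k) :
    t < Q.pos V t0 ω (k + 1) := by
  obtain ⟨e, _, h3⟩ := C_eq_cell ⟨_, h⟩
  exact (step_spec h3).2.2.2.2 t ht (e ▸ h)

theorem C_disj (hω : ω ∈ DD V) {l k : ℕ} (h : l < k) : ∀ u ∈ Q.C V t0 ω l, u ∉ Q.C V t0 ω k := by
  intro u hu hu'
  obtain ⟨h1, h2, h3⟩ := C_comp ⟨u, hu⟩
  obtain ⟨h4, h5, h6⟩ := C_comp ⟨u, hu'⟩
  rw [h3] at hu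
  rw [h6] at hu'
  have e1 := compW_eq hω (Q.notW h2) hu
  have e2 := compW_eq hω (Q.notW h5) hu'
  have : (Q.xS, Q.pos V t0 ω k) ∈ Q.C V t0 ω l := by
    rw [h3, ← e1, e2]
    exact self_mem_compW _ _ _
  have := C_line h5 this
  have := pos_mono (V := V) (ω := ω) (Q := Q) (t0 := t0) (l + 1) k h
  omega

/-- the past of `C k` is outside -/
theorem past (hω : ω ∈ DD V) (h0 : ∀ t ≤ t0, (Q.xS, t) ∉ V) (ht : t0 < Q.y1) {k : ℕ} {f : Pt}
    (hf : Touch (Q.E V t0 ω k) f) : Q.pr ω (Q.C V t0 ω k) f = 0 := by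
  obtain ⟨u, ⟨l, hl, hu⟩, hfu⟩ := touch_iff.1 hf
  obtain ⟨e, _, h3⟩ := C_eq_cell ⟨_, hu⟩
  exact (pr_past hω (C_closed hω k) h0 ht (fun l hl => C_disj hω hl)).1 l hl h3 u (e ▸ hu) f hfu

/-- face before step `k` -/
theorem pr_gate (hω : ω ∈ DD V) (h0 : ∀ t ≤ t0, (Q.xS, t) ∉ V) (ht : t0 < Q.y1) (k : ℕ) :
    Q.pr ω (Q.C V t0 ω k) (Q.xS, Q.pos V t0 ω k - 1) = 0 :=
  (pr_past hω (C_closed hω k) h0 ht (fun _ hl => C_disj hω hl)).2

/-- face after step `k` -/
theorem pr_gate' (hω : ω ∈ DD V) (ht : t0 < Q.y1) (k : ℕ) :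
    Q.pr ω (Q.C V t0 ω k) (Q.xS, Q.pos V t0 ω (k + 1) - 1) =
      Q.pr ω (Q.C V t0 ω k) (Q.xS, Q.y1 - 1) := by
  by_cases h : Q.pos V t0 ω (k + 1) < Q.y1
  · refine pr_future hω (C_closed hω k) h ?_ (by simp [facesAt])
    intro t' h1 h2 h3
    have := C_line h2 h3
    omega
  · have := pos_le (V := V) (ω := ω) ht (k + 1)
    rw [show Q.pos V t0 ω (k + 1) = Q.y1 by omega]

/-- the future of a component is on the side of the top -/
theorem future (hω : ω ∈ DD V) {k k' : ℕ} (hk : k < k') {f : Pt}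
    (hf : Touch (Q.C V t0 ω k') f) :
    Q.pr ω (Q.C V t0 ω k) f = Q.pr ω (Q.C V t0 ω k) (Q.xS, Q.y1 - 1) := by
  obtain ⟨u, hu, hfu⟩ := touch_iff.1 hf
  obtain ⟨h1, h2, h3⟩ := C_comp ⟨u, hu⟩
  have hm := pos_mono (V := V) (ω := ω) (Q := Q) (t0 := t0) (k + 1) k' hk
  have e : Q.pr ω (Q.C V t0 ω k) (Q.xS, Q.pos V t0 ω k') =
      Q.pr ω (Q.C V t0 ω k) (Q.xS, Q.y1 - 1) := by
    refine pr_future hω (C_closed hω k) h2 ?_ (by simp [facesAt])
    intro t' h4 h5 h6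
    have := C_line h5 h6
    omega
  rw [← e]
  refine Cap.pr_comp hω (C_closed hω k) h1 (Q.notW h2) ?_ (h3 ▸ hu) hfu (by simp [facesAt])
  intro w hw hw'
  exact C_disj hω hk w hw' (h3 ▸ hw)

theorem future_good (hω : ω ∈ DD V) {k k' : ℕ} (hk : k < k') (g : Q.Good V ω (Q.C V t0 ω k))
    {f : Pt} (hf : Touch (Q.C V t0 ω k') f) : Q.pr ω (Q.C V t0 ω k) f = 1 := by
  rw [future hω hk hf, g.ptop hω Q.hS0.le Q.hS1]

/-- a component between two good ones with odd parity is good -/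
theorem between (hω : ω ∈ DD V) (h0 : ∀ t ≤ t0, (Q.xS, t) ∉ V) (ht : t0 < Q.y1) {k k1 k' : ℕ}
    (g : Q.Good V ω (Q.C V t0 ω k)) (g' : Q.Good V ω (Q.C V t0 ω k')) (h1 : k < k1) (h2 : k1 < k')
    (hp : Q.pr ω (Q.C V t0 ω k1) (Q.xS, Q.pos V t0 ω (k1 + 1) - 1) ≠ 0) :
    Q.Good V ω (Q.C V t0 ω k1) := by
  rw [pr_gate' hω ht] at hp
  have hne : (Q.C V t0 ω k1).Nonempty := by
    by_contra hcon
    rw [Set.not_nonempty_iff_eq_empty] at hcon
    rw [hcon] at hp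
    refine hp ?_
    have hr : Q.Reg (∅ : Set Pt) := fun u h => absurd h (Set.notMem_empty _)
    have hc : Closed Q.W V ω (∅ : Set Pt) := ⟨fun _ h => absurd h (Set.notMem_empty _),
      fun _ h => absurd h (Set.notMem_empty _), fun _ h => absurd h (Set.notMem_empty _)⟩
    rw [pr_top hω hc hr Q.hS0.le Q.hS1]
    unfold Cap.DL
    refine Finset.sum_eq_zero (fun y _ => ?_)
    rw [degW_eq, ind_false (Set.notMem_empty _), ind_false (Set.notMem_empty _), add_zero]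
  obtain ⟨a1, a2, a3⟩ := C_comp hne
  have hr : Q.Reg (Q.C V t0 ω k1) := by
    intro u hu
    have t1 : Touch (Q.C V t0 ω k1) (u.1, u.2) := touch_iff.2 ⟨u, hu, by simp [facesAt]⟩
    have t2 : Touch (Q.C V t0 ω k1) (u.1 - 1, u.2) := touch_iff.2 ⟨u, hu, by simp [facesAt]⟩
    have t3 : Touch (Q.C V t0 ω k1) (u.1, u.2 - 1) := touch_iff.2 ⟨u, hu, by simp [facesAt]⟩
    have b1 := pr_in hω (g.closed hω) g.reg
      (by rw [future_good hω h1 g t1]; decide : Q.pr ω (Q.C V t0 ω k) (u.1, u.2) ≠ 0)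
    have b2 := pr_in hω (g.closed hω) g.reg
      (by rw [future_good hω h1 g t2]; decide : Q.pr ω (Q.C V t0 ω k) (u.1 - 1, u.2) ≠ 0)
    have b3 := pr_in hω (g.closed hω) g.reg
      (by rw [future_good hω h1 g t3]; decide : Q.pr ω (Q.C V t0 ω k) (u.1, u.2 - 1) ≠ 0)
    simp only at b1 b2 b3
    refine ⟨by omega, by omega, by omega, ?_⟩
    by_contra hcon
    push Not at hcon
    -- above `C k'`
    have e1 : Q.pr ω (Q.C V t0 ω k') (u.1, u.2) = 1 := by
      refine g'.col hω (by omega) (by omega) (by omega) ?_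
      intro t h3 _ h5
      have := (hedge_reg g'.reg h5).2
      omega
    have e2 : Q.pr ω (Q.C V t0 ω k') (u.1, u.2) = 0 := by
      refine past hω h0 ht ?_
      obtain ⟨w, hw, hw'⟩ := touch_iff.1 t1
      exact touch_iff.2 ⟨w, ⟨k1, h2, hw⟩, hw'⟩
    rw [e1] at e2
    exact absurd e2 (by decide)
  refine ⟨⟨_, a1, Q.notW a2, a3⟩, hr, ?_⟩
  rw [pr_top hω (C_closed hω k1) hr Q.hS0.le Q.hS1] at hp
  have : ∀ p : ZMod 2, p ≠ 0 → p = 1 := by decide
  exact this _ hp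

/-- a flat function does not change in a step with even parity -/
theorem flat_step (hω : ω ∈ DD V) (h0 : ∀ t ≤ t0, (Q.xS, t) ∉ V) (ht : t0 < Q.y1)
    {F : Pt → ZMod 2} (hF : Flat ω F) {k : ℕ}
    (hp : Q.pr ω (Q.C V t0 ω k) (Q.xS, Q.pos V t0 ω (k + 1) - 1) = 0) :
    F (Q.xS, Q.pos V t0 ω k - 1) = F (Q.xS, Q.pos V t0 ω (k + 1) - 1) := by
  by_cases hpos : Q.pos V t0 ω k < Q.y1
  · by_cases hV : (Q.xS, Q.pos V t0 ω k) ∈ V
    · have e := C_of (V := V) (ω := ω) (Q := Q) (t0 := t0) hV hpos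
      obtain ⟨_, _, _, h4, _⟩ := step_spec hpos
      have hg := pr_gate hω h0 ht k
      rw [e] at hp hg
      refine side_comp hω hV (Q.notW hpos) hF ?_ ?_ (hg.trans hp.symm)
      · exact touch_iff.2 ⟨_, self_mem_compW _ _ _, by simp [facesAt]⟩
      · refine touch_iff.2 ⟨(Q.xS, Q.pos V t0 ω (k + 1) - 1), ?_, by simp [facesAt]⟩
        unfold Cap.cell at h4
        rwa [if_pos hV] at h4
    · have h1 : ω.1 (Q.xS, Q.pos V t0 ω k) = (Q.xS, Q.pos V t0 ω k) := L.off1 hω hV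
      have h2 : ω.2 (Q.xS, Q.pos V t0 ω k) = (Q.xS, Q.pos V t0 ω k) := L.off2 hω hV
      have e := (next_spec (V := V) (ω := ω) (Q := Q) hpos).2.2.2 hV
      rw [pos_succ hpos, e, add_sub_cancel_right]
      exact hF.hor (Q.xS, Q.pos V t0 ω k) (by rw [h1, h2])
  · rw [pos_stop hpos]

/-- **contiguity**: between two consecutive good components a flat function does not change
along the line -/
theorem contig (hω : ω ∈ DD V) (h0 : ∀ t ≤ t0, (Q.xS, t) ∉ V) (ht : t0 < Q.y1) {k k' : ℕ}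
    (g : Q.Good V ω (Q.C V t0 ω k)) (g' : Q.Good V ω (Q.C V t0 ω k')) (hk : k < k')
    (hno : ∀ l, k < l → l < k' → ¬ Q.Good V ω (Q.C V t0 ω l)) {F : Pt → ZMod 2}
    (hF : Flat ω F) : F (Q.xS, Q.pos V t0 ω (k + 1) - 1) = F (Q.xS, Q.pos V t0 ω k' - 1) := by
  have key : ∀ l, k + 1 ≤ l → l ≤ k' →
      F (Q.xS, Q.pos V t0 ω (k + 1) - 1) = F (Q.xS, Q.pos V t0 ω l - 1) := by
    intro l hl
    induction l, hl using Nat.le_induction with
    | base => intro _; rfl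
    | succ l hl ih =>
      intro hl'
      rw [ih (by omega)]
      refine flat_step hω h0 ht hF ?_
      by_contra hcon
      exact hno l hl (by omega) (between hω h0 ht g g' hl (by omega) hcon)
  exact key k' hk le_rfl

/-- every good crossing is found by the walker -/
theorem good_found (hω : ω ∈ DD V) (h0 : ∀ t ≤ t0, (Q.xS, t) ∉ V) (ht : t0 < Q.y1)
    (g : Q.Good V ω K) : ∃ k, K = Q.C V t0 ω k := by
  by_contra hcon
  push Not at hcon
  obtain ⟨v, hv, hvW, hK⟩ := g.comp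
  -- disjoint from all
  have hd : ∀ l, ∀ u ∈ Q.C V t0 ω l, u ∉ K := by
    intro l u hu huK
    obtain ⟨h1, h2, h3⟩ := C_comp ⟨u, hu⟩
    refine hcon l ?_
    rw [h3] at hu
    rw [hK] at huK
    rw [hK, h3, ← compW_eq hω hvW huK, compW_eq hω (Q.notW h2) hu]
  obtain ⟨k, hk⟩ := exists_top (V := V) (ω := ω) (Q := Q) ht
  have h1 := (pr_past hω (g.closed hω) h0 ht (k := k) (fun l _ => hd l)).2
  rw [hk, g.ptop hω Q.hS0.le Q.hS1] at h1
  exact absurd h1 (by decide)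

/-- tops are strictly increasing -/
theorem top_lt (hω : ω ∈ DD V) (h0 : ∀ t ≤ t0, (Q.xS, t) ∉ V) (ht : t0 < Q.y1) {k k' : ℕ}
    (g : Q.Good V ω (Q.C V t0 ω k)) (g' : Q.Good V ω (Q.C V t0 ω k')) (hk : k < k') {x : ℤ}
    (hx0 : Q.x0 ≤ x) (hx1 : x < Q.x1) :
    topE ω (Q.C V t0 ω k) x < topE ω (Q.C V t0 ω k') x := by
  by_contra hcon
  push Not at hcon
  obtain ⟨h1, _⟩ := g.topE_spec hω hx0 hx1
  have hy := (hedge_reg g.reg h1).2
  have hyc := Q.hy1
  have e1 := g'.above hω hx0 hx1 (y := topE ω (Q.C V t0 ω k) x) (by omega) hcon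
  have e2 : Q.pr ω (Q.C V t0 ω k') (x, topE ω (Q.C V t0 ω k) x) = 0 := by
    refine past hω h0 ht ?_
    rcases h1.1 with h | h
    · exact touch_iff.2 ⟨_, ⟨k, hk, h⟩, by simp [facesAt]⟩
    · exact touch_iff.2 ⟨_, ⟨k, hk, h⟩, by simp [facesAt]⟩
  rw [e1] at e2
  exact absurd e2 (by decide)

/-- everything explored which is seen from above the good component `C k` touches `C k` -/
theorem touch_top (hω : ω ∈ DD V) (h0 : ∀ t ≤ t0, (Q.xS, t) ∉ V) (ht : t0 < Q.y1) {k : ℕ} {f : Pt}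
    (hf : Touch (Q.E V t0 ω (k + 1)) f) (hp : Q.pr ω (Q.C V t0 ω k) f ≠ 0) :
    Touch (Q.C V t0 ω k) f := by
  obtain ⟨u, ⟨l, hl, hu⟩, hfu⟩ := touch_iff.1 hf
  rcases Nat.lt_succ_iff_lt_or_eq.1 hl with h | h
  · exact absurd (past hω h0 ht (touch_iff.2 ⟨u, ⟨l, h, hu⟩, hfu⟩)) hp
  · exact touch_iff.2 ⟨u, h ▸ hu, hfu⟩

/-- neighbouring faces inside the cap, one of which does not touch `K`, have the same parity -/
theorem step_in (hω : ω ∈ DD V) (hK : Closed Q.W V ω K) {f f' : Pt} (hf : Q.x0 ≤ f.1 ∧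
    f.1 < Q.x1 ∧ f.2 < Q.y1) (hf' : Q.x0 ≤ f'.1 ∧ f'.1 < Q.x1 ∧ f'.2 < Q.y1) (ha : Adj f f')
    (ht : ¬ Touch K f) : Q.pr ω K f = Q.pr ω K f' := by
  obtain ⟨x, y⟩ := f
  have hev := Cap.even hω hK
  have hn : ∀ v ∈ corners (x, y), v ∉ K := fun v h1 h2 => ht ⟨v, h1, h2⟩
  simp only [corners, mem_insert, mem_singleton, forall_eq_or_imp, forall_eq] at hn
  obtain ⟨n1, n2, n3, n4⟩ := hn
  have zA : ∀ v : Pt, v ∉ K → (v.1, v.2 + 1) ∉ K → eA ω K v = 0 := by
    intro v h1 h2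
    unfold eA
    rw [ind_false (fun h => h.1.elim h1 h2), ind_false (fun h => h.1.elim h1 h2), add_zero]
  have zB : ∀ v : Pt, v ∉ K → (v.1 + 1, v.2) ∉ K → eB ω K v = 0 := by
    intro v h1 h2
    unfold eB
    rw [ind_false (fun h => h.1.elim h1 h2), ind_false (fun h => h.1.elim h1 h2), add_zero]
  have wz : ∀ v : Pt, Q.x0 < v.1 → v.1 < Q.x1 → Q.wA ω K v = 0 := by
    intro v h1 h2
    unfold Cap.wA
    split_ifs with h3 h4
    · omega
    · rfl
    · rfl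
  have wz' : ∀ v : Pt, v.2 < Q.y1 → Q.wB ω K v = 0 := by
    intro v h1
    unfold Cap.wB
    rw [if_neg (by omega)]
  simp only at hf
  have := mem_nbrs.2 ha
  simp only [nbrs, mem_insert, mem_singleton] at this
  unfold Cap.pr
  rcases this with rfl | rfl | rfl | rfl
  · simp only at hf'
    have e := par_right hev (x + 1) y
    rw [add_sub_cancel_right] at e
    rw [e]
    unfold Cap.fA
    rw [zA _ n2 n4, wz _ (by simp only; omega) (by simp only; omega), add_zero, add_zero]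
  · simp only at hf'
    rw [par_right hev x y]
    unfold Cap.fA
    rw [zA _ n1 n3, wz _ (by simp only; omega) (by simp only; omega), add_zero, add_zero]
  · simp only at hf'
    have e := par_up hev x (y + 1)
    rw [add_sub_cancel_right] at e
    rw [e]
    unfold Cap.fB
    rw [zB _ n3 n4, wz' _ (by simp only; omega), add_zero, add_zero]
  · simp only at hf'
    rw [par_up hev x y]
    unfold Cap.fB
    rw [zB _ n1 n2, wz' _ (by simp only; omega), add_zero, add_zero]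

end Vale.Agent.P155.T802
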