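import Vale.Agent.P155.T802.Dict
import Vale.Agent.P155.T905.Layer
import Vale.Agent.P155.H904.PT3

/-!
# P155, TIGHT, sweep: strips above a good crossing; the geometry of the two evaluations
-/

namespace Vale.Agent.P155.T802

open Finset T905 H904

variable {T : Temp} {V : Finset Pt} {ω : Conf} {Q : Cap} {K : Set Pt} {t0 : ℤ}

/-- highest vertex of `K` over the vertex columns `[a, b]` -/
noncomputable def hi (K : Set Pt) (a b : ℤ) : ℤ := sSup {y | ∃ x, a ≤ x ∧ x ≤ b ∧ (x, y) ∈ K}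

/-- leftmost column where it is attained -/
noncomputable def ax (K : Set Pt) (a b : ℤ) : ℤ := sInf {x | a ≤ x ∧ x ≤ b ∧ (x, hi K a b) ∈ K}

theorem hi_spec (hω : ω ∈ DD V) (g : Q.Good V ω K) {a b : ℤ} (h0 : Q.x0 ≤ a) (h1 : a < Q.x1)
    (hab : a < b) : (a ≤ ax K a b ∧ ax K a b ≤ b ∧ (ax K a b, hi K a b) ∈ K) ∧
      (∀ x y, a ≤ x → x ≤ b → (x, y) ∈ K → y ≤ hi K a b) := by
  have hbdd : BddAbove {y | ∃ x, a ≤ x ∧ x ≤ b ∧ (x, y) ∈ K} :=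
    ⟨Q.yc, fun y ⟨x, _, _, h⟩ => (g.reg _ h).2.2.2⟩
  have hne : {y | ∃ x, a ≤ x ∧ x ≤ b ∧ (x, y) ∈ K}.Nonempty := by
    obtain ⟨h | h, _⟩ := (g.topE_spec hω h0 h1).1
    · exact ⟨_, a, le_rfl, hab.le, h⟩
    · exact ⟨_, a + 1, by omega, by omega, h⟩
  obtain ⟨x, hx1, hx2, hx3⟩ := Int.csSup_mem hne hbdd
  have hne2 : {x | a ≤ x ∧ x ≤ b ∧ (x, hi K a b) ∈ K}.Nonempty := ⟨x, hx1, hx2, hx3⟩
  have hbdd2 : BddBelow {x | a ≤ x ∧ x ≤ b ∧ (x, hi K a b) ∈ K} := ⟨a, fun x h => h.1⟩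
  refine ⟨Int.csInf_mem hne2 hbdd2, fun x y h2 h3 h4 => le_csSup hbdd ⟨x, h2, h3, h4⟩⟩

theorem hi_reg (hω : ω ∈ DD V) (g : Q.Good V ω K) {a b : ℤ} (h0 : Q.x0 ≤ a) (h1 : a < Q.x1)
    (hab : a < b) : Q.y0 ≤ hi K a b ∧ hi K a b ≤ Q.yc := by
  have := (g.reg _ (hi_spec hω g h0 h1 hab).1.2.2).2.2
  simpa using this

/-- left end of the strip `i` -/
def sa (xa : ℤ) (κ i : ℕ) : ℤ := xa + 16 * κ * i

/-- height of `K` over the strip `i` -/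
noncomputable def hgt (K : Set Pt) (xa : ℤ) (κ i : ℕ) : ℤ := hi K (sa xa κ i) (sa xa κ i + 8 * κ)

/-- a highest point of `K` over the strip `i` -/
noncomputable def pS (K : Set Pt) (xa : ℤ) (κ i : ℕ) : Pt :=
  (ax K (sa xa κ i) (sa xa κ i + 8 * κ), hgt K xa κ i)

/-- centre of the bump above the strip `i` -/
noncomputable def ctr (K : Set Pt) (xa : ℤ) (κ i : ℕ) : Pt :=
  (sa xa κ i + 4 * κ, hgt K xa κ i + 4 * κ)

/-- Parameters of the sweep. -/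
structure Setup (T : Temp) (Q : Cap) (t0 yb xa : ℤ) (m κ d ρ0 D : ℕ) : Prop where
  h0 : ∀ t ≤ t0, (Q.xS, t) ∉ T.V
  ht : t0 < Q.y1
  face : ∀ f : Pt, Q.x0 ≤ f.1 → f.1 < Q.x1 → yb ≤ f.2 → f.2 < Q.y1 → f ∈ T.faceSet
  κ1 : 1 ≤ κ
  κd : 6 * κ ≤ d
  D0 : D ≤ ρ0
  left : Q.x0 + d + ρ0 + 2 ≤ xa
  right : xa + 16 * κ * m + d + ρ0 + 2 ≤ Q.x1
  bot : yb + d + ρ0 ≤ Q.y0
  top : Q.yc + d + ρ0 + 2 ≤ Q.y1

/-- the open cap region -/
def Rg (Q : Cap) (yb : ℤ) : Set Pt := {f | Q.x0 ≤ f.1 ∧ f.1 < Q.x1 ∧ yb ≤ f.2 ∧ f.2 < Q.y1}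

/-- the upper side of `K` is surrounded by the loop `A` -/
def upS (Q : Cap) (ω : Conf) (K A : Set Pt) : Prop :=
  ∃ f, Touch K f ∧ Q.pr ω K f = 1 ∧ surr ω A f

theorem upS_iff (hω : ω ∈ DD V) (g : Q.Good V ω K) {A : Set Pt} (hA : A ∈ Loops ω) {f : Pt}
    (hf : Touch K f) (hp : Q.pr ω K f = 1) : upS Q ω K A ↔ surr ω A f :=
  ⟨fun ⟨_, h1, h2, h3⟩ => (same_side hω g hA h1 hf (h2.trans hp.symm)).1 h3,
    fun h => ⟨f, hf, hp, h⟩⟩

/-- a face on the upper side -/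
theorem exists_up (hω : ω ∈ DD V) (g : Q.Good V ω K) : ∃ f, Touch K f ∧ Q.pr ω K f = 1 := by
  obtain ⟨h1, _⟩ := g.topE_spec hω le_rfl Q.hx
  have hy := (hedge_reg g.reg h1).2
  have hyc := Q.hy1
  refine ⟨(Q.x0, topE ω K Q.x0), ?_, g.above hω le_rfl Q.hx (by omega) le_rfl⟩
  rcases h1.1 with h | h
  · exact touch_iff.2 ⟨_, h, by simp [facesAt]⟩
  · exact touch_iff.2 ⟨_, h, by simp [facesAt]⟩

/-- **the flip** -/
theorem up_flip (hω : ω ∈ DD V) (h0 : ∀ t ≤ t0, (Q.xS, t) ∉ V) (ht : t0 < Q.y1) {j : ℕ}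
    (hj : 1 ≤ j) (h : Q.Has V t0 ω (j + 1)) {A : Set Pt} (hA : A ∈ Loops ω) {u : Pt}
    (hu : u ∈ Q.cj V t0 ω (j + 1)) (huA : u ∈ A) :
    ¬ (upS Q ω (Q.cj V t0 ω j) A ↔ upS Q ω (Q.cj V t0 ω (j + 1)) A) := by
  have g := cj_good hj (has_of_succ h)
  have g' := cj_good (by omega : 1 ≤ j + 1) h
  obtain ⟨f, h1, h2⟩ := exists_up hω g
  obtain ⟨f', h3, h4⟩ := exists_up hω g'
  rw [upS_iff hω g hA h1 h2, upS_iff hω g' hA h3 h4]
  exact sk_flip hω h0 ht hj h hA hu huA h1 h3 h2 h4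

/-- the leftmost point of a good crossing -/
theorem left_pt (g : Q.Good V ω K) (hω : ω ∈ DD V) : ∃ u ∈ K, u.1 = Q.x0 + 1 := by
  have hodd := g.odd
  have hc := g.closed hω
  have hz : ∃ y ∈ Finset.Icc Q.y0 Q.y1, degW ω K (Q.x0, y) ≠ 0 := by
    by_contra hcon
    push Not at hcon
    unfold Cap.DL at hodd
    rw [Finset.sum_eq_zero hcon] at hodd
    exact absurd hodd (by decide)
  obtain ⟨y, _, hz⟩ := hz
  rcases degW_ne hz with h | h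
  · refine ⟨_, h, ?_⟩
    have h1 := adj_coord (L.adj1 hω (hc.sub _ h).1)
    rw [L.inv1 hω] at h1
    have h2 := (g.reg _ h).1
    simp only at h1
    omega
  · refine ⟨_, h, ?_⟩
    have h1 := adj_coord (L.adj2 hω (hc.sub _ h).1)
    rw [L.inv2 hω] at h1
    have h2 := (g.reg _ h).1
    simp only at h1
    omega

theorem good_same (hω : ω ∈ DD V) (g : Q.Good V ω K) {u v : Pt} (hu : u ∈ K) (hv : v ∈ K) :
    Same ω u v := by
  obtain ⟨w, hw, hW, rfl⟩ := g.comp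
  exact L.same_trans (L.same_symm hω (compW_sub _ _ _ hu)) (compW_sub _ _ _ hv)

/-- the explored set is closed off the wall -/
theorem E_closed (hω : ω ∈ DD V) (k : ℕ) : ∀ a ∈ Q.E V t0 ω k, ∀ b, b ∉ Q.W →
    (b = ω.1 a ∨ b = ω.2 a) → b ∈ Q.E V t0 ω k := by
  rintro a ⟨l, hl, ha⟩ b hb h
  have hc := C_closed (Q := Q) (t0 := t0) hω l
  rcases h with rfl | rfl
  · exact ⟨l, hl, (hc.one a ha).resolve_right hb⟩
  · exact ⟨l, hl, (hc.two a ha).resolve_right hb⟩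

theorem Ej_closed (hω : ω ∈ DD V) (j : ℕ) : ∀ a ∈ Q.Ej V t0 ω j, ∀ b, b ∉ Q.W →
    (b = ω.1 a ∨ b = ω.2 a) → b ∈ Q.Ej V t0 ω j := E_closed hω _

theorem touch_mono {E E' : Set Pt} (h : E ⊆ E') {f : Pt} (hf : Touch E f) : Touch E' f := by
  obtain ⟨v, h1, h2⟩ := hf
  exact ⟨v, h1, h h2⟩

section

variable {yb xa : ℤ} {m κ d ρ0 D : ℕ}

/-- **the local geometry above `c_J`** -/
theorem near_j (S : Setup T Q t0 yb xa m κ d ρ0 D) (hω : ω ∈ DD T.V) {J : ℕ} (hJ : 1 ≤ J)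
    (h : Q.Has T.V t0 ω J) {A : Set Pt} (hA : A ∈ Loops ω) :
    Near T ω (Q.Ej T.V t0 ω J) (Q.cj T.V t0 ω J) {f | Q.pr ω (Q.cj T.V t0 ω J) f = 1} (Rg Q yb) A
      (upS Q ω (Q.cj T.V t0 ω J) A) where
  sub := cj_sub hJ h
  step := by
    intro f g hfg hf hfR hgR hT
    have gd := cj_good hJ h
    change Q.pr ω _ g = 1
    rw [← step_in hω (gd.closed hω) ⟨hfR.1, hfR.2.1, hfR.2.2.2⟩ ⟨hgR.1, hgR.2.1, hgR.2.2.2⟩ hfg
      (fun hh => hT (touch_mono (cj_sub hJ h) hh))]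
    exact hf
  near := by
    intro f hf hfR hT
    have h1 := sk_touch hω S.h0 S.ht hJ h hT (by rw [hf]; decide)
    exact ⟨h1, (upS_iff hω (cj_good hJ h) hA h1 hf).symm⟩
  face := fun f hf => S.face f hf.1 hf.2.1 hf.2.2.1 hf.2.2.2

/-- no step between the two sides in the unexplored region -/
theorem in_step (hω : ω ∈ DD T.V) {J : ℕ} (hJ : 1 ≤ J) (h : Q.Has T.V t0 ω J) {f g : Pt}
    (hf : f ∈ Rg Q yb) (hg : g ∈ Rg Q yb) (hfg : Adj f g) (hO : f ∈ OE T (Q.Ej T.V t0 ω J)) :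
    Q.pr ω (Q.cj T.V t0 ω J) f = Q.pr ω (Q.cj T.V t0 ω J) g := by
  have gd := cj_good hJ h
  exact step_in hω (gd.closed hω) ⟨hf.1, hf.2.1, hf.2.2.2⟩ ⟨hg.1, hg.2.1, hg.2.2.2⟩ hfg
      (fun hh => hO.2 (touch_mono (cj_sub hJ h) hh))

/-- a point of the middle part of the cap -/
def Mid (Q : Cap) (xa : ℤ) (m κ : ℕ) (p : Pt) : Prop :=
  xa ≤ p.1 ∧ p.1 ≤ xa + 16 * κ * m ∧ Q.y0 ≤ p.2 ∧ p.2 ≤ Q.yc

theorem dn_le' {p x : Pt} {r : ℕ} (h : dn p x ≤ r) :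
    p.1 - r ≤ x.1 ∧ x.1 ≤ p.1 + r ∧ p.2 - r ≤ x.2 ∧ x.2 ≤ p.2 + r := by
  unfold dn dinf at h
  rw [Int.toNat_le, max_le_iff, abs_le, abs_le] at h
  omega

theorem dn_le_iff {p x : Pt} {r : ℕ} : dn p x ≤ r ↔
    p.1 - r ≤ x.1 ∧ x.1 ≤ p.1 + r ∧ p.2 - r ≤ x.2 ∧ x.2 ≤ p.2 + r := by
  refine ⟨dn_le', fun h => ?_⟩
  unfold dn dinf
  rw [Int.toNat_le, max_le_iff, abs_le, abs_le]
  omega

theorem mem_box_coord {p x : Pt} {r : ℕ} : x ∈ box p r ↔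
    p.1 - r ≤ x.1 ∧ x.1 ≤ p.1 + r ∧ p.2 - r ≤ x.2 ∧ x.2 ≤ p.2 + r := by
  unfold box
  rw [mem_product, mem_Icc, mem_Icc]
  omega

/-- points near the middle part -/
theorem mid_box (S : Setup T Q t0 yb xa m κ d ρ0 D) {p x : Pt} (hp : Mid Q xa m κ p)
    (hx : dn p x ≤ d) : x ∈ Rg Q yb ∧ (box x D : Set Pt) ⊆ Rg Q yb ∧
      ∀ z ∈ box x ρ0, z ∉ Q.W ∧ Q.x0 + 2 ≤ z.1 := by
  obtain ⟨p1, p2, p3, p4⟩ := hp
  have h1 := dn_le' hx
  have s1 := S.left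
  have s2 := S.right
  have s3 := S.bot
  have s4 := S.top
  have s5 := S.D0
  refine ⟨?_, ?_, ?_⟩
  · unfold Rg
    simp only [Set.mem_ofPred_eq]
    omega
  · intro z hz
    rw [Finset.mem_coe, mem_box_coord] at hz
    unfold Rg
    simp only [Set.mem_ofPred_eq]
    omega
  · intro z hz
    rw [mem_box_coord] at hz
    refine ⟨?_, by omega⟩
    simp only [Cap.W, Set.mem_ofPred_eq]
    omega

/-- **the neighbourhood `N`**: everything reached from faces above `c_J` stays above `c_J` -/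
theorem reach_in (S : Setup T Q t0 yb xa m κ d ρ0 D) (hω : ω ∈ DD T.V) {J : ℕ} (hJ : 1 ≤ J)
    (h : Q.Has T.V t0 ω J) {p : Pt} (hp : Mid Q xa m κ p) {A : Set Pt}
    (hA : ∀ f ∈ A, Q.pr ω (Q.cj T.V t0 ω J) f = 1) {x : Pt}
    (hx : x ∈ reach (OE T (Q.Ej T.V t0 ω J)) p d A) :
    Q.pr ω (Q.cj T.V t0 ω J) x = 1 ∧ x ∈ OE T (Q.Ej T.V t0 ω J) ∧ dn p x ≤ d := by
  obtain ⟨y, hyA, hyO, hyd, hr⟩ := hx
  induction hr with
  | refl => exact ⟨hA y hyA, hyO, hyd⟩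
  | @tail b c _ hbc ih =>
    refine ⟨?_, hbc.2.1, hbc.2.2⟩
    rw [← in_step hω hJ h (mid_box S hp ih.2.2).1 (mid_box S hp hbc.2.2).1 hbc.1 ih.2.1]
    exact ih.1

/-- everything needed at the points of `N` -/
theorem reach_geo (S : Setup T Q t0 yb xa m κ d ρ0 D) (hω : ω ∈ DD T.V) {J : ℕ} (hJ : 1 ≤ J)
    (h : Q.Has T.V t0 ω J) {p : Pt} (hp : Mid Q xa m κ p) {A : Set Pt}
    (hA : ∀ f ∈ A, Q.pr ω (Q.cj T.V t0 ω J) f = 1) {L : Set Pt} (hL : ∃ q ∈ L, q.1 = Q.x0 + 1)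
    {x : Pt} (hx : x ∈ reach (OE T (Q.Ej T.V t0 ω J)) p d A) {B : Finset Pt}
    (hB : B ⊆ box x ρ0) :
    x ∈ {f | Q.pr ω (Q.cj T.V t0 ω J) f = 1} ∧ (box x D : Set Pt) ⊆ Rg Q yb ∧
      (∀ z ∈ B, z ∉ Q.W) ∧ (∃ q ∈ L, q ∉ B) ∧
      (∀ v' ∈ Q.cj T.V t0 ω J, ∃ q, Same ω v' q ∧ q ∉ B) := by
  obtain ⟨h1, h2, h3⟩ := reach_in S hω hJ h hp hA hx
  obtain ⟨_, h5, h6⟩ := mid_box S hp h3
  refine ⟨h1, h5, fun z hz => (h6 z (hB hz)).1, ?_, ?_⟩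
  · obtain ⟨q, hq, hq1⟩ := hL
    exact ⟨q, hq, fun hh => by have := (h6 q (hB hh)).2; omega⟩
  · intro v' hv'
    obtain ⟨u, hu, hu1⟩ := left_pt (cj_good hJ h) hω
    exact ⟨u, good_same hω (cj_good hJ h) hv' hu, fun hh => by have := (h6 u (hB hh)).2; omega⟩

/-- the owner of a good crossing reaches the left side -/
theorem owner_left (hω : ω ∈ DD V) (g : Q.Good V ω K) {A : Set Pt} (hA : A ∈ Loops ω) {u : Pt}
    (hu : u ∈ K) (huA : u ∈ A) : ∃ q ∈ A, q.1 = Q.x0 + 1 := by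
  obtain ⟨w, hw, hw1⟩ := left_pt g hω
  refine ⟨w, ?_, hw1⟩
  rw [L.loop_eq_comp hω hA huA]
  exact good_same hω g hu hw

/-! ### the strips -/

theorem sa_range (_S : Setup T Q t0 yb xa m κ d ρ0 D) {i : ℕ} (hi : i < m) :
    xa ≤ sa xa κ i ∧ sa xa κ i + 16 * κ ≤ xa + 16 * κ * m := by
  unfold sa
  constructor
  · have : (0 : ℤ) ≤ 16 * κ * i := by positivity
    omega
  · have h1 : (16 * κ * (i + 1) : ℤ) ≤ 16 * κ * m := by
      have : ((i : ℤ) + 1) ≤ m := by exact_mod_cast hi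
      have h2 : (0 : ℤ) ≤ 16 * κ := by positivity
      exact mul_le_mul_of_nonneg_left this h2
    have h3 : (16 * κ * (i + 1) : ℤ) = 16 * κ * i + 16 * κ := by ring
    omega

/-- facts about strip `i` -/
theorem strip_spec (S : Setup T Q t0 yb xa m κ d ρ0 D) (hω : ω ∈ DD V) (g : Q.Good V ω K) {i : ℕ}
    (hi : i < m) :
    (sa xa κ i ≤ (pS K xa κ i).1 ∧ (pS K xa κ i).1 ≤ sa xa κ i + 8 * κ ∧ pS K xa κ i ∈ K) ∧
    (∀ x y, sa xa κ i ≤ x → x ≤ sa xa κ i + 8 * κ → (x, y) ∈ K → y ≤ hgt K xa κ i) ∧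
    Q.y0 ≤ hgt K xa κ i ∧ hgt K xa κ i ≤ Q.yc := by
  obtain ⟨h1, h2⟩ := sa_range S hi
  have s1 := S.left
  have s2 := S.right
  have s3 := S.κ1
  have h3 := hi_spec hω g (a := sa xa κ i) (b := sa xa κ i + 8 * κ) (by omega) (by omega) (by omega)
  have h4 := hi_reg hω g (a := sa xa κ i) (b := sa xa κ i + 8 * κ) (by omega) (by omega) (by omega)
  exact ⟨h3.1, h3.2, h4⟩

theorem mid_pS (S : Setup T Q t0 yb xa m κ d ρ0 D) (hω : ω ∈ DD V) (g : Q.Good V ω K) {i : ℕ}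
    (hi : i < m) : Mid Q xa m κ (pS K xa κ i) := by
  obtain ⟨⟨h1, h2, _⟩, _, h4, h5⟩ := strip_spec S hω g hi
  obtain ⟨h6, h7⟩ := sa_range S hi
  have s3 := S.κ1
  exact ⟨by omega, by omega, h4, h5⟩

theorem touch_pS (S : Setup T Q t0 yb xa m κ d ρ0 D) (hω : ω ∈ DD V) (g : Q.Good V ω K) {i : ℕ}
    (hi : i < m) : Touch K (pS K xa κ i) :=
  touch_iff.2 ⟨_, (strip_spec S hω g hi).1.2.2, by simp [facesAt]⟩

/-- the points `p_i` are separated -/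
theorem sep_pS (S : Setup T Q t0 yb xa m κ d ρ0 D) (hω : ω ∈ DD V) (g : Q.Good V ω K) {i k : ℕ}
    (hi : i < m) (hk : k < m) :
    ((i : ℤ) - (k : ℤ)).natAbs * (8 * κ) ≤ dn (pS K xa κ i) (pS K xa κ k) := by
  obtain ⟨⟨h1, h2, _⟩, _⟩ := strip_spec S hω g hi
  obtain ⟨⟨h3, h4, _⟩, _⟩ := strip_spec S hω g hk
  unfold sa at h1 h2 h3 h4
  have s3 := S.κ1
  have hd := dn_le' (le_refl (dn (pS K xa κ i) (pS K xa κ k)))
  generalize (pS K xa κ i).1 = a at *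
  generalize (pS K xa κ k).1 = b at *
  generalize dn (pS K xa κ i) (pS K xa κ k) = r at *
  rcases lt_trichotomy i k with hik | hik | hik
  · obtain ⟨e, rfl⟩ : ∃ e, k = i + e + 1 := ⟨k - i - 1, by omega⟩
    have e1 : ((i : ℤ) - ((i + e + 1 : ℕ) : ℤ)).natAbs = e + 1 := by omega
    rw [e1]
    have : (((e + 1) * (8 * κ) : ℕ) : ℤ) ≤ r := by
      push_cast at *
      nlinarith
    exact_mod_cast this
  · subst hik
    simp
  · obtain ⟨e, rfl⟩ : ∃ e, i = k + e + 1 := ⟨i - k - 1, by omega⟩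
    have e1 : (((k + e + 1 : ℕ) : ℤ) - (k : ℤ)).natAbs = e + 1 := by omega
    rw [e1]
    have : (((e + 1) * (8 * κ) : ℕ) : ℤ) ≤ r := by
      push_cast at *
      nlinarith
    exact_mod_cast this

theorem ctr_box {i : ℕ} {f : Pt} (hf : f ∈ box (ctr K xa κ i) (2 * κ)) :
    sa xa κ i + 2 * κ ≤ f.1 ∧ f.1 ≤ sa xa κ i + 6 * κ ∧
    hgt K xa κ i + 2 * κ ≤ f.2 ∧ f.2 ≤ hgt K xa κ i + 6 * κ := by
  rw [mem_box_coord] at hf
  unfold ctr at hf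
  simp only at hf
  push_cast at hf
  omega

theorem ctr_dn (S : Setup T Q t0 yb xa m κ d ρ0 D) (hω : ω ∈ DD V) (g : Q.Good V ω K) {i : ℕ}
    (hi : i < m) {f : Pt} (hf : f ∈ box (ctr K xa κ i) (2 * κ)) :
    dn (pS K xa κ i) f ≤ 6 * κ := by
  obtain ⟨⟨h1, h2, _⟩, _⟩ := strip_spec S hω g hi
  have h3 := ctr_box hf
  rw [dn_le_iff]
  have e : (pS K xa κ i).2 = hgt K xa κ i := rfl
  rw [e]
  push_cast
  omega

theorem ctr_Rg (S : Setup T Q t0 yb xa m κ d ρ0 D) (hω : ω ∈ DD V) (g : Q.Good V ω K) {i : ℕ}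
    (hi : i < m) {f : Pt} (hf : f ∈ box (ctr K xa κ i) (2 * κ)) : f ∈ Rg Q yb :=
  (mid_box S (mid_pS S hω g hi) ((ctr_dn S hω g hi hf).trans S.κd)).1

/-- **time `j`**: the boxes above the strips are unexplored and above `c_j` -/
theorem box_in (S : Setup T Q t0 yb xa m κ d ρ0 D) (hω : ω ∈ DD T.V) {j : ℕ} (hj : 1 ≤ j)
    (h : Q.Has T.V t0 ω j) {i : ℕ} (hi : i < m) {f : Pt}
    (hf : f ∈ box (ctr (Q.cj T.V t0 ω j) xa κ i) (2 * κ)) :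
    Q.pr ω (Q.cj T.V t0 ω j) f = 1 ∧ f ∈ OE T (Q.Ej T.V t0 ω j) := by
  have g := cj_good hj h
  have hR := ctr_Rg S hω g hi hf
  obtain ⟨_, h2, _, _⟩ := strip_spec S hω g hi
  have h3 := ctr_box hf
  have s3 := S.κ1
  obtain ⟨r1, r2, r3, r4⟩ := hR
  have hp : Q.pr ω (Q.cj T.V t0 ω j) f = 1 := by
    refine g.above hω (x := f.1) (y := f.2) r1 r2 r4 ?_
    obtain ⟨h4, _⟩ := g.topE_spec hω r1 r2
    rcases h4.1 with h5 | h5
    · have := h2 _ _ (by omega) (by omega) h5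
      omega
    · have := h2 _ _ (by omega) (by omega) h5
      omega
  refine ⟨hp, S.face f r1 r2 r3 r4, fun hT => ?_⟩
  obtain ⟨u, hu, hfu⟩ := touch_iff.1 (sk_touch hω S.h0 S.ht hj h hT (by rw [hp]; decide))
  obtain ⟨u1, u2⟩ := u
  obtain ⟨f1, f2⟩ := f
  simp only [facesAt, mem_insert, mem_singleton, Prod.mk.injEq] at hfu
  simp only at h3
  have := h2 u1 u2 (by omega) (by omega) hu
  omega

/-- the points `p_i` are explored -/
theorem pS_notMem (S : Setup T Q t0 yb xa m κ d ρ0 D) (hω : ω ∈ DD T.V) {j J : ℕ} (hj : 1 ≤ j)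
    (hjJ : j ≤ J) (h : Q.Has T.V t0 ω j) {i : ℕ} (hi : i < m) :
    pS (Q.cj T.V t0 ω j) xa κ i ∉ OE T (Q.Ej T.V t0 ω J) := fun hO =>
  hO.2 (touch_mono ((cj_sub hj h).trans (Ej_mono S.ht hjJ)) (touch_pS S hω (cj_good hj h) hi))

/-! ### time `j + 1` -/

/-- total gap of the tops of `c_j` and `c_{j+1}` over the columns `[a, b)` -/
noncomputable def gapD (Q : Cap) (V : Finset Pt) (t0 : ℤ) (ω : Conf) (j : ℕ) (a b : ℤ) : ℤ :=
  ∑ X ∈ Finset.Ico a b, (topE ω (Q.cj V t0 ω (j + 1)) X - topE ω (Q.cj V t0 ω j) X)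

open Classical in
/-- the bad part of the box above strip `i` at time `j + 1` -/
noncomputable def bad (T : Temp) (Q : Cap) (t0 : ℤ) (ω : Conf) (j : ℕ) (xa : ℤ) (κ i : ℕ) :
    Finset Pt :=
  (box (ctr (Q.cj T.V t0 ω j) xa κ i) (2 * κ)).filter (fun f =>
    f ∈ OE T (Q.Ej T.V t0 ω (j + 1)) ∧ Q.pr ω (Q.cj T.V t0 ω (j + 1)) f ≠ 1)

theorem bad_card_one (S : Setup T Q t0 yb xa m κ d ρ0 D) (hω : ω ∈ DD T.V) {j : ℕ} (hj : 1 ≤ j)
    (h : Q.Has T.V t0 ω (j + 1)) {i : ℕ} (hi : i < m) :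
    ((bad T Q t0 ω j xa κ i).card : ℤ) ≤
      ∑ X ∈ Finset.Ico (sa xa κ i) (sa xa κ i + 16 * κ),
        (topE ω (Q.cj T.V t0 ω (j + 1)) X - topE ω (Q.cj T.V t0 ω j) X) := by
  classical
  have h' := has_of_succ h
  have g := cj_good hj h'
  have g' := cj_good (by omega : 1 ≤ j + 1) h
  obtain ⟨_, h2, h3, h4⟩ := strip_spec S hω g hi
  obtain ⟨r1, r2⟩ := sa_range S hi
  have s1 := S.left
  have s2 := S.right
  have s3 := S.κ1
  set K := Q.cj T.V t0 ω j with hK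
  set K' := Q.cj T.V t0 ω (j + 1) with hK'
  have hsub : bad T Q t0 ω j xa κ i ⊆
      (Finset.Icc (sa xa κ i + 2 * κ) (sa xa κ i + 6 * κ)).biUnion (fun X =>
        (Finset.Ico (hgt K xa κ i + 2 * κ) (topE ω K' X)).image (fun y => (X, y))) := by
    intro f hf
    unfold bad at hf
    rw [mem_filter] at hf
    have hb := ctr_box hf.1
    have hR := ctr_Rg S hω g hi hf.1
    rw [mem_biUnion]
    refine ⟨f.1, mem_Icc.2 ⟨hb.1, hb.2.1⟩, mem_image.2 ⟨f.2, mem_Ico.2 ⟨hb.2.2.1, ?_⟩, rfl⟩⟩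
    by_contra hcon
    exact hf.2.2 (g'.above hω hR.1 hR.2.1 hR.2.2.2 (by omega))
  have hgap : ∀ X ∈ Finset.Ico (sa xa κ i) (sa xa κ i + 16 * κ),
      0 ≤ topE ω K' X - topE ω K X := by
    intro X hX
    rw [mem_Ico] at hX
    have : topE ω K X < topE ω K' X :=
      sk_top hω S.h0 S.ht hj (Nat.lt_succ_self j) h (x := X) (by omega) (by omega)
    omega
  calc ((bad T Q t0 ω j xa κ i).card : ℤ)
      ≤ (((Finset.Icc (sa xa κ i + 2 * κ) (sa xa κ i + 6 * κ)).biUnion (fun X =>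
        (Finset.Ico (hgt K xa κ i + 2 * κ) (topE ω K' X)).image (fun y => (X, y)))).card : ℤ) := by
        exact_mod_cast Finset.card_le_card hsub
    _ ≤ ((∑ X ∈ Finset.Icc (sa xa κ i + 2 * κ) (sa xa κ i + 6 * κ),
        ((Finset.Ico (hgt K xa κ i + 2 * κ) (topE ω K' X)).image
          (fun y => ((X, y) : Pt))).card : ℕ) : ℤ) := by
        exact_mod_cast Finset.card_biUnion_le
    _ ≤ ∑ X ∈ Finset.Icc (sa xa κ i + 2 * κ) (sa xa κ i + 6 * κ),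
        (topE ω K' X - topE ω K X) := by
        push_cast
        refine Finset.sum_le_sum (fun X hX => ?_)
        rw [mem_Icc] at hX
        have e1 : (((Finset.Ico (hgt K xa κ i + 2 * κ) (topE ω K' X)).image
            (fun y => ((X, y) : Pt))).card : ℤ) ≤
            ((topE ω K' X - (hgt K xa κ i + 2 * κ)).toNat : ℤ) := by
          rw [← Int.card_Ico]
          exact_mod_cast Finset.card_image_le
        have e2 := hgap X (mem_Ico.2 ⟨by omega, by omega⟩)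
        obtain ⟨h5, _⟩ := g.topE_spec hω (x := X) (by omega) (by omega)
        have e3 : topE ω K X ≤ hgt K xa κ i := by
          rcases h5.1 with h6 | h6
          · exact h2 _ _ (by omega) (by omega) h6
          · exact h2 _ _ (by omega) (by omega) h6
        omega
    _ ≤ _ := by
        refine Finset.sum_le_sum_of_subset_of_nonneg ?_ (fun X hX _ => hgap X hX)
        intro X hX
        rw [mem_Icc] at hX
        rw [mem_Ico]
        omega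

theorem sum_strips {g : ℤ → ℤ} (κ : ℕ) (xa : ℤ) (m : ℕ) :
    ∑ i ∈ Finset.range m, ∑ X ∈ Finset.Ico (sa xa κ i) (sa xa κ i + 16 * κ), g X =
      ∑ X ∈ Finset.Ico xa (xa + 16 * κ * m), g X := by
  induction m with
  | zero => simp
  | succ m ih =>
    rw [Finset.sum_range_succ, ih]
    have h1 : xa ≤ xa + 16 * κ * m := by
      have : (0 : ℤ) ≤ 16 * κ * m := by positivity
      omega
    have h2 : xa + 16 * κ * m ≤ xa + 16 * κ * ((m + 1 : ℕ) : ℤ) := by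
      push_cast
      have : (0 : ℤ) ≤ 16 * κ := by positivity
      nlinarith
    rw [← Finset.Ico_union_Ico_eq_Ico h1 h2, Finset.sum_union (Finset.Ico_disjoint_Ico_consecutive _ _ _)]
    congr 1
    unfold sa
    congr 2
    push_cast
    ring

/-- **the bad parts are small** -/
theorem bad_card (S : Setup T Q t0 yb xa m κ d ρ0 D) (hω : ω ∈ DD T.V) {j : ℕ} (hj : 1 ≤ j)
    (h : Q.Has T.V t0 ω (j + 1)) :
    (∑ i ∈ Finset.range m, ((bad T Q t0 ω j xa κ i).card : ℤ)) ≤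
      gapD Q T.V t0 ω j xa (xa + 16 * κ * m) := by
  unfold gapD
  rw [← sum_strips κ xa m]
  exact Finset.sum_le_sum (fun i hi => bad_card_one S hω hj h (mem_range.1 hi))

/-- **the gaps are summable** -/
theorem sum_gapD (hω : ω ∈ DD V) {J : ℕ}
    (h : Q.Has V t0 ω (J + 1)) {a b : ℤ} (ha : Q.x0 ≤ a) (hb : b ≤ Q.x1) (hab : a ≤ b) :
    ∑ j ∈ Finset.Ico 1 (J + 1), gapD Q V t0 ω j a b ≤ (b - a) * (Q.yc - Q.y0) := by
  unfold gapD
  rw [Finset.sum_comm]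
  have key : ∀ X ∈ Finset.Ico a b, ∑ j ∈ Finset.Ico 1 (J + 1),
      (topE ω (Q.cj V t0 ω (j + 1)) X - topE ω (Q.cj V t0 ω j) X) ≤ Q.yc - Q.y0 := by
    intro X hX
    rw [mem_Ico] at hX
    rw [Finset.sum_Ico_sub (fun j => topE ω (Q.cj V t0 ω j) X) (by omega : 1 ≤ J + 1)]
    have e1 := hedge_reg (cj_good (by omega : 1 ≤ J + 1) h).reg
      ((cj_good (by omega : 1 ≤ J + 1) h).topE_spec hω (x := X) (by omega) (by omega)).1
    have h1 := has_mono (by omega : 1 ≤ J + 1) h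
    have e2 := hedge_reg (cj_good le_rfl h1).reg
      ((cj_good le_rfl h1).topE_spec hω (x := X) (by omega) (by omega)).1
    omega
  refine (Finset.sum_le_sum key).trans (le_of_eq ?_)
  rw [Finset.sum_const, Int.card_Ico, nsmul_eq_mul]
  have : (((b - a).toNat : ℕ) : ℤ) = b - a := Int.toNat_of_nonneg (by omega)
  rw [this]

end

end Vale.Agent.P155.T802
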