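import Vale.Agent.P155.T802.Good

/-!
# P155, TIGHT, sweep: the sequence of good crossings, and the sides of a loop
-/

namespace Vale.Agent.P155.T802

open Finset

variable {V : Finset Pt} {ω : Conf} {Q : Cap} {K : Set Pt} {t0 : ℤ}

open Classical in
/-- number of good crossings found in the first `k` steps -/
noncomputable def Cap.cnt (Q : Cap) (V : Finset Pt) (t0 : ℤ) (ω : Conf) (k : ℕ) : ℕ :=
  ((Finset.range k).filter (fun l => Q.Good V ω (Q.C V t0 ω l))).card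

open Classical in
theorem cnt_succ (k : ℕ) : Q.cnt V t0 ω (k + 1) =
    Q.cnt V t0 ω k + if Q.Good V ω (Q.C V t0 ω k) then 1 else 0 := by
  unfold Cap.cnt
  rw [Finset.range_add_one, Finset.filter_insert]
  split_ifs with h
  · rw [Finset.card_insert_of_notMem (by simp)]
  · rfl

theorem cnt_mono {k l : ℕ} (h : k ≤ l) : Q.cnt V t0 ω k ≤ Q.cnt V t0 ω l := by
  classical
  induction l, h using Nat.le_induction with
  | base => exact le_rfl
  | succ l _ ih => rw [cnt_succ]; omega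

theorem has_iff {j : ℕ} : Q.Has V t0 ω j ↔ ∃ k, j ≤ Q.cnt V t0 ω k := by
  unfold Cap.Has Cap.cnt
  constructor
  · rintro ⟨k, h⟩
    exact ⟨k, by convert h⟩
  · rintro ⟨k, h⟩
    exact ⟨k, by convert h⟩

theorem tau_eq {j : ℕ} : Q.tau V t0 ω j =
    sInf {k | j ≤ Q.cnt V t0 ω k ∨ Q.y1 ≤ Q.pos V t0 ω k} := by
  unfold Cap.tau Cap.cnt
  congr

theorem has_of_succ {j : ℕ} (h : Q.Has V t0 ω (j + 1)) : Q.Has V t0 ω j := by
  obtain ⟨k, hk⟩ := has_iff.1 h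
  exact has_iff.2 ⟨k, by omega⟩

theorem has_mono {i j : ℕ} (hij : i ≤ j) (h : Q.Has V t0 ω j) : Q.Has V t0 ω i := by
  obtain ⟨k, hk⟩ := has_iff.1 h
  exact has_iff.2 ⟨k, by omega⟩

theorem Cap.Good.nonempty (g : Q.Good V ω K) : K.Nonempty := by
  obtain ⟨v, _, _, h⟩ := g.comp
  exact ⟨v, h ▸ self_mem_compW _ _ _⟩

/-- the time `tau j` if `j` good crossings exist -/
theorem tau_spec {j : ℕ} (h : Q.Has V t0 ω j) :
    Q.cnt V t0 ω (Q.tau V t0 ω j) = j ∧ (∀ k, k < Q.tau V t0 ω j ↔ Q.cnt V t0 ω k < j) := by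
  classical
  have hex := has_iff.1 h
  set k0 := Nat.find hex with hk0
  have h1 : j ≤ Q.cnt V t0 ω k0 := Nat.find_spec hex
  have h2 : ∀ k < k0, Q.cnt V t0 ω k < j := fun k hk => not_le.1 (Nat.find_min hex hk)
  have e : Q.tau V t0 ω j = k0 := by
    rw [tau_eq]
    have hne : {k | j ≤ Q.cnt V t0 ω k ∨ Q.y1 ≤ Q.pos V t0 ω k}.Nonempty := ⟨k0, Or.inl h1⟩
    refine le_antisymm (Nat.sInf_le (Or.inl h1)) ?_
    rcases Nat.sInf_mem hne with h3 | h3
    · by_contra hcon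
      have := h2 _ (not_le.1 hcon)
      omega
    · by_contra hcon
      push Not at hcon
      set k := sInf {k | j ≤ Q.cnt V t0 ω k ∨ Q.y1 ≤ Q.pos V t0 ω k} with hk
      -- no good component after `k`
      have key : ∀ l, k ≤ l → Q.cnt V t0 ω l = Q.cnt V t0 ω k := by
        intro l hl
        induction l, hl using Nat.le_induction with
        | base => rfl
        | succ l hl ih =>
          rw [cnt_succ, if_neg, ih, add_zero]
          intro g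
          have := (C_comp g.nonempty).2.1
          have := pos_mono (V := V) (ω := ω) (Q := Q) (t0 := t0) k l hl
          omega
      have := key k0 hcon.le
      have := h2 k hcon
      omega
  rw [e]
  refine ⟨?_, fun k => ⟨h2 k, fun h3 => ?_⟩⟩
  · rcases Nat.eq_zero_or_pos k0 with h0 | h0
    · have : Q.cnt V t0 ω 0 = 0 := by simp [Cap.cnt]
      rw [h0] at h1 ⊢
      omega
    · have h3 := h2 (k0 - 1) (by omega)
      have h4 := cnt_succ (V := V) (ω := ω) (Q := Q) (t0 := t0) (k0 - 1)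
      rw [Nat.sub_add_cancel h0] at h4
      rw [h4] at h1 ⊢
      split_ifs at h1 ⊢ <;> omega
  · by_contra hcon
    have := cnt_mono (V := V) (ω := ω) (Q := Q) (t0 := t0) (not_lt.1 hcon)
    omega

theorem tau_zero : Q.tau V t0 ω 0 = 0 := by
  rw [tau_eq]
  exact Nat.le_zero.1 (Nat.sInf_le (Or.inl (Nat.zero_le _)))

theorem tau_pos {j : ℕ} (hj : 1 ≤ j) (h : Q.Has V t0 ω j) : 0 < Q.tau V t0 ω j := by
  rw [(tau_spec h).2]
  have : Q.cnt V t0 ω 0 = 0 := by simp [Cap.cnt]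
  omega

/-- the `j`-th good crossing is good -/
theorem cj_good {j : ℕ} (hj : 1 ≤ j) (h : Q.Has V t0 ω j) : Q.Good V ω (Q.cj V t0 ω j) := by
  classical
  have h0 := tau_pos hj h
  obtain ⟨h1, h2⟩ := tau_spec h
  have h3 := (h2 (Q.tau V t0 ω j - 1)).1 (by omega)
  have h4 := cnt_succ (V := V) (ω := ω) (Q := Q) (t0 := t0) (Q.tau V t0 ω j - 1)
  rw [Nat.sub_add_cancel h0, h1] at h4
  unfold Cap.cj
  by_contra hcon
  rw [if_neg hcon] at h4
  omega

theorem tau_lt {i j : ℕ} (hij : i < j) (h : Q.Has V t0 ω j) : Q.tau V t0 ω i < Q.tau V t0 ω j := by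
  rw [(tau_spec h).2, (tau_spec (has_mono hij.le h)).1]
  exact hij

/-- the times are monotone in general -/
theorem tau_mono {i j : ℕ} (ht : t0 < Q.y1) (hij : i ≤ j) : Q.tau V t0 ω i ≤ Q.tau V t0 ω j := by
  rw [tau_eq, tau_eq]
  obtain ⟨k, hk⟩ := exists_top (V := V) (ω := ω) ht
  have hne : {k | j ≤ Q.cnt V t0 ω k ∨ Q.y1 ≤ Q.pos V t0 ω k}.Nonempty := ⟨k, Or.inr hk.ge⟩
  refine Nat.sInf_le ?_
  rcases Nat.sInf_mem hne with h | h
  · exact Or.inl (hij.trans h)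
  · exact Or.inr h

theorem E_mono {k l : ℕ} (h : k ≤ l) : Q.E V t0 ω k ⊆ Q.E V t0 ω l :=
  fun _ ⟨i, hi, hv⟩ => ⟨i, hi.trans_le h, hv⟩

theorem Ej_mono {i j : ℕ} (ht : t0 < Q.y1) (hij : i ≤ j) : Q.Ej V t0 ω i ⊆ Q.Ej V t0 ω j :=
  E_mono (tau_mono ht hij)

theorem cj_sub {j : ℕ} (hj : 1 ≤ j) (h : Q.Has V t0 ω j) : Q.cj V t0 ω j ⊆ Q.Ej V t0 ω j :=
  fun _ hv => ⟨Q.tau V t0 ω j - 1, by have := tau_pos hj h; omega, hv⟩

/-- no good component between two consecutive good crossings -/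
theorem no_between {j : ℕ} (hj : 1 ≤ j) (h : Q.Has V t0 ω (j + 1)) {l : ℕ}
    (h1 : Q.tau V t0 ω j - 1 < l) (h2 : l < Q.tau V t0 ω (j + 1) - 1) :
    ¬ Q.Good V ω (Q.C V t0 ω l) := by
  classical
  intro g
  obtain ⟨a1, a2⟩ := tau_spec h
  obtain ⟨b1, b2⟩ := tau_spec (has_of_succ h)
  have c1 := (a2 (Q.tau V t0 ω (j + 1) - 1)).1 (by omega)
  have c2 := cnt_mono (V := V) (ω := ω) (Q := Q) (t0 := t0)
    (show l + 1 ≤ Q.tau V t0 ω (j + 1) - 1 by omega)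
  have c3 := cnt_succ (V := V) (ω := ω) (Q := Q) (t0 := t0) l
  rw [if_pos g] at c3
  have c4 := tau_pos hj (has_of_succ h)
  have c5 := cnt_mono (V := V) (ω := ω) (Q := Q) (t0 := t0)
    (show Q.tau V t0 ω j ≤ l by omega)
  omega

/-- every good crossing is one of the `c_j` -/
theorem good_eq_cj (hω : ω ∈ DD V) (h0 : ∀ t ≤ t0, (Q.xS, t) ∉ V) (ht : t0 < Q.y1)
    (g : Q.Good V ω K) : ∃ j, 1 ≤ j ∧ Q.Has V t0 ω j ∧ K = Q.cj V t0 ω j := by
  classical
  obtain ⟨k, rfl⟩ := good_found hω h0 ht g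
  have h1 := cnt_succ (V := V) (ω := ω) (Q := Q) (t0 := t0) k
  rw [if_pos g] at h1
  have hH : Q.Has V t0 ω (Q.cnt V t0 ω (k + 1)) := has_iff.2 ⟨k + 1, le_rfl⟩
  refine ⟨Q.cnt V t0 ω (k + 1), by omega, hH, ?_⟩
  obtain ⟨a1, a2⟩ := tau_spec hH
  have b1 : k < Q.tau V t0 ω (Q.cnt V t0 ω (k + 1)) := (a2 k).2 (by omega)
  have b2 : ¬ k + 1 < Q.tau V t0 ω (Q.cnt V t0 ω (k + 1)) := by rw [a2]; omega
  unfold Cap.cj
  rw [show Q.tau V t0 ω (Q.cnt V t0 ω (k + 1)) - 1 = k by omega]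

/-- many good crossings -/
theorem has_of_card (hω : ω ∈ DD V) (h0 : ∀ t ≤ t0, (Q.xS, t) ∉ V) (ht : t0 < Q.y1)
    (S : Finset (Set Pt)) (hS : ∀ K ∈ S, Q.Good V ω K) : Q.Has V t0 ω S.card := by
  classical
  choose! f hf using fun K (hK : K ∈ S) => good_found hω h0 ht (hS K hK)
  obtain ⟨M, hM⟩ := (S.image f).exists_le
  refine has_iff.2 ⟨M + 1, ?_⟩
  unfold Cap.cnt
  refine Finset.card_le_card_of_injOn f ?_ ?_
  · intro K hK
    rw [Finset.mem_coe, mem_filter, mem_range]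
    have h1 := hM (f K) (mem_image_of_mem f hK)
    refine ⟨by omega, ?_⟩
    rw [← hf K hK]
    convert hS K hK
  · intro K hK K' hK' h
    rw [hf K hK, hf K' hK', h]

/-! ### facts about `c_j` -/

section

variable (hω : ω ∈ DD V) (h0 : ∀ t ≤ t0, (Q.xS, t) ∉ V) (ht : t0 < Q.y1)
include hω h0 ht

/-- (seen from above) a face on the upper side of `c_j` touching the explored set touches `c_j` -/
theorem sk_touch {j : ℕ} (hj : 1 ≤ j) (h : Q.Has V t0 ω j) {f : Pt}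
    (hf : Touch (Q.Ej V t0 ω j) f) (hp : Q.pr ω (Q.cj V t0 ω j) f ≠ 0) :
    Touch (Q.cj V t0 ω j) f := by
  have h1 := tau_pos hj h
  unfold Cap.Ej at hf
  rw [show Q.tau V t0 ω j = Q.tau V t0 ω j - 1 + 1 by omega] at hf
  exact touch_top hω h0 ht hf hp

/-- the explored set before `c_j` is on the lower side -/
theorem sk_past {i j : ℕ} (hij : i < j) (h : Q.Has V t0 ω j) {f : Pt}
    (hf : Touch (Q.Ej V t0 ω i) f) : Q.pr ω (Q.cj V t0 ω j) f = 0 := by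
  have h1 := tau_lt hij h
  refine past hω h0 ht (k := Q.tau V t0 ω j - 1) ?_
  obtain ⟨u, hu, hfu⟩ := touch_iff.1 hf
  exact touch_iff.2 ⟨u, E_mono (by omega) hu, hfu⟩

/-- the tops are strictly increasing -/
theorem sk_top {i j : ℕ} (hi : 1 ≤ i) (hij : i < j) (h : Q.Has V t0 ω j) {x : ℤ}
    (hx0 : Q.x0 ≤ x) (hx1 : x < Q.x1) :
    topE ω (Q.cj V t0 ω i) x < topE ω (Q.cj V t0 ω j) x := by
  have h1 := tau_lt hij h
  have h2 := tau_pos hi (has_mono hij.le h)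
  exact top_lt hω h0 ht (cj_good hi (has_mono hij.le h)) (cj_good (hi.trans hij.le) h) (by omega)
    hx0 hx1

/-- later good crossings are on the upper side -/
theorem sk_future {i j : ℕ} (hi : 1 ≤ i) (hij : i < j) (h : Q.Has V t0 ω j) {f : Pt}
    (hf : Touch (Q.cj V t0 ω j) f) : Q.pr ω (Q.cj V t0 ω i) f = 1 := by
  have h1 := tau_lt hij h
  have h2 := tau_pos hi (has_mono hij.le h)
  exact future_good hω (k := Q.tau V t0 ω i - 1) (k' := Q.tau V t0 ω j - 1) (by omega)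
    (cj_good hi (has_mono hij.le h)) hf

/-- contiguity of `c_j` (upper side) and `c_{j+1}` (lower side) -/
theorem sk_contig {j : ℕ} (hj : 1 ≤ j) (h : Q.Has V t0 ω (j + 1)) {F : Pt → ZMod 2}
    (hF : Flat ω F) {f f' : Pt} (hf : Touch (Q.cj V t0 ω j) f)
    (hf' : Touch (Q.cj V t0 ω (j + 1)) f') (hp : Q.pr ω (Q.cj V t0 ω j) f = 1)
    (hp' : Q.pr ω (Q.cj V t0 ω (j + 1)) f' = 0) : F f = F f' := by
  have h1 : Q.tau V t0 ω j < Q.tau V t0 ω (j + 1) := tau_lt (Nat.lt_succ_self j) h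
  have h2 := tau_pos hj (has_of_succ h)
  have g := cj_good hj (has_of_succ h)
  have g' := cj_good (by omega : 1 ≤ j + 1) h
  have e := contig hω h0 ht (k := Q.tau V t0 ω j - 1) (k' := Q.tau V t0 ω (j + 1) - 1) g g'
    (by omega) (fun l => no_between hj h) hF
  obtain ⟨a1, a2, a3⟩ := C_comp (k := Q.tau V t0 ω j - 1) g.nonempty
  obtain ⟨b1, b2, b3⟩ := C_comp (k := Q.tau V t0 ω (j + 1) - 1) g'.nonempty
  have s1 : F f = F (Q.xS, Q.pos V t0 ω (Q.tau V t0 ω j - 1 + 1) - 1) := by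
    have hp2 := pr_gate' (V := V) hω ht (Q.tau V t0 ω j - 1)
    have hp3 := g.ptop hω Q.hS0.le Q.hS1
    unfold Cap.cj at hf hp hp3
    rw [hp3] at hp2
    have ht2 : Touch (Q.C V t0 ω (Q.tau V t0 ω j - 1))
        (Q.xS, Q.pos V t0 ω (Q.tau V t0 ω j - 1 + 1) - 1) := by
      refine touch_iff.2 ⟨(Q.xS, Q.pos V t0 ω (Q.tau V t0 ω j - 1 + 1) - 1), ?_, by simp [facesAt]⟩
      rw [(C_eq_cell (k := Q.tau V t0 ω j - 1) g.nonempty).1]
      exact (step_spec a2).2.2.2.1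
    rw [a3] at hf hp hp2 ht2
    exact side_comp hω a1 (Q.notW a2) hF hf ht2 (hp.trans hp2.symm)
  have s2 : F f' = F (Q.xS, Q.pos V t0 ω (Q.tau V t0 ω (j + 1) - 1) - 1) := by
    have hp2 := pr_gate hω h0 ht (Q.tau V t0 ω (j + 1) - 1)
    unfold Cap.cj at hf' hp'
    have ht2 : Touch (Q.C V t0 ω (Q.tau V t0 ω (j + 1) - 1))
        (Q.xS, Q.pos V t0 ω (Q.tau V t0 ω (j + 1) - 1) - 1) := by
      refine touch_iff.2 ⟨(Q.xS, Q.pos V t0 ω (Q.tau V t0 ω (j + 1) - 1)), ?_, by simp [facesAt]⟩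
      rw [b3]
      exact self_mem_compW _ _ _
    rw [b3] at hf' hp' hp2 ht2
    exact side_comp hω b1 (Q.notW b2) hF hf' ht2 (hp'.trans hp2.symm)
  rw [s1, e, s2]

end

end Vale.Agent.P155.T802
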