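import Vale.Agent.P155.T802.Side

/-!
# P155, TIGHT, sweep: the walker
-/

namespace Vale.Agent.P155.T802

open Finset

variable {V : Finset Pt} {ω : Conf} {Q : Cap} {K : Set Pt} {t0 : ℤ}

theorem Cap.notW (Q : Cap) {t : ℤ} (ht : t < Q.y1) : (Q.xS, t) ∉ Q.W := by
  simp only [Cap.W, Set.mem_ofPred_eq]
  have := Q.hS0
  have := Q.hS1
  omega

open Classical in
/-- what is visited in step `k`: the component, or the single point off `V` -/
noncomputable def Cap.cell (Q : Cap) (V : Finset Pt) (t0 : ℤ) (ω : Conf) (k : ℕ) : Set Pt :=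
  if (Q.xS, Q.pos V t0 ω k) ∈ V then compW Q.W ω (Q.xS, Q.pos V t0 ω k)
  else {(Q.xS, Q.pos V t0 ω k)}

theorem pos_succ {k : ℕ} (h : Q.pos V t0 ω k < Q.y1) :
    Q.pos V t0 ω (k + 1) = Q.next V ω (Q.pos V t0 ω k) := by
  rw [Cap.pos, if_pos h]

theorem pos_stop {k : ℕ} (h : ¬ Q.pos V t0 ω k < Q.y1) :
    Q.pos V t0 ω (k + 1) = Q.pos V t0 ω k := by
  rw [Cap.pos, if_neg h]

theorem C_eq_cell {k : ℕ} (h : (Q.C V t0 ω k).Nonempty) :
    Q.C V t0 ω k = Q.cell V t0 ω k ∧ (Q.xS, Q.pos V t0 ω k) ∈ V ∧ Q.pos V t0 ω k < Q.y1 := by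
  unfold Cap.C at h ⊢
  by_cases hc : (Q.xS, Q.pos V t0 ω k) ∈ V ∧ Q.pos V t0 ω k < Q.y1
  · rw [if_pos hc]
    refine ⟨?_, hc⟩
    unfold Cap.cell
    rw [if_pos hc.1]
  · rw [if_neg hc] at h
    exact absurd h Set.not_nonempty_empty

theorem C_of {k : ℕ} (h1 : (Q.xS, Q.pos V t0 ω k) ∈ V) (h2 : Q.pos V t0 ω k < Q.y1) :
    Q.C V t0 ω k = compW Q.W ω (Q.xS, Q.pos V t0 ω k) := by
  unfold Cap.C
  rw [if_pos ⟨h1, h2⟩]

theorem next_spec {t : ℤ} (ht : t < Q.y1) :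
    t < Q.next V ω t ∧ Q.next V ω t ≤ Q.y1 ∧
    ((Q.xS, t) ∈ V → (Q.xS, Q.next V ω t - 1) ∈ compW Q.W ω (Q.xS, t) ∧
      ∀ t' < Q.y1, (Q.xS, t') ∈ compW Q.W ω (Q.xS, t) → t' < Q.next V ω t) ∧
    ((Q.xS, t) ∉ V → Q.next V ω t = t + 1) := by
  by_cases hV : (Q.xS, t) ∈ V
  · have e : Q.next V ω t =
        1 + sSup {t' : ℤ | t' < Q.y1 ∧ (Q.xS, t') ∈ compW Q.W ω (Q.xS, t)} := by
      unfold Cap.next
      rw [if_pos hV]
    have hbdd : BddAbove {t' : ℤ | t' < Q.y1 ∧ (Q.xS, t') ∈ compW Q.W ω (Q.xS, t)} :=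
      ⟨Q.y1, fun t' h => h.1.le⟩
    have hne : {t' : ℤ | t' < Q.y1 ∧ (Q.xS, t') ∈ compW Q.W ω (Q.xS, t)}.Nonempty :=
      ⟨t, ht, self_mem_compW _ _ _⟩
    have hmem := Int.csSup_mem hne hbdd
    have hle : ∀ t', t' < Q.y1 → (Q.xS, t') ∈ compW Q.W ω (Q.xS, t) →
        t' ≤ sSup {t' : ℤ | t' < Q.y1 ∧ (Q.xS, t') ∈ compW Q.W ω (Q.xS, t)} :=
      fun t' h1 h2 => le_csSup hbdd ⟨h1, h2⟩
    have h0 := hle t ht (self_mem_compW _ _ _)
    refine ⟨by omega, by have := hmem.1; omega, fun _ => ⟨?_, ?_⟩, fun h => absurd hV h⟩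
    · rw [e, add_sub_cancel_left]
      exact hmem.2
    · intro t' h1 h2
      have := hle t' h1 h2
      omega
  · have e : Q.next V ω t = t + 1 := by
      unfold Cap.next
      rw [if_neg hV]
    exact ⟨by omega, by omega, fun h => absurd h hV, fun _ => e⟩

/-- basic facts about the step from `k` to `k + 1` -/
theorem step_spec {k : ℕ} (h : Q.pos V t0 ω k < Q.y1) :
    Q.pos V t0 ω k < Q.pos V t0 ω (k + 1) ∧ Q.pos V t0 ω (k + 1) ≤ Q.y1 ∧
    (Q.xS, Q.pos V t0 ω k) ∈ Q.cell V t0 ω k ∧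
    (Q.xS, Q.pos V t0 ω (k + 1) - 1) ∈ Q.cell V t0 ω k ∧
    ∀ t' < Q.y1, (Q.xS, t') ∈ Q.cell V t0 ω k → t' < Q.pos V t0 ω (k + 1) := by
  obtain ⟨h1, h2, h3, h4⟩ := next_spec (V := V) (ω := ω) h
  rw [pos_succ h]
  unfold Cap.cell
  by_cases hV : (Q.xS, Q.pos V t0 ω k) ∈ V
  · rw [if_pos hV]
    exact ⟨h1, h2, self_mem_compW _ _ _, (h3 hV).1, (h3 hV).2⟩
  · rw [if_neg hV, h4 hV]
    refine ⟨by omega, by omega, rfl, by simp, ?_⟩
    intro t' _ h'
    simp only [Set.mem_singleton_iff, Prod.mk.injEq, true_and] at h'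
    omega

theorem pos_le (ht : t0 < Q.y1) (k : ℕ) : Q.pos V t0 ω k ≤ Q.y1 := by
  induction k with
  | zero => exact ht.le
  | succ k ih =>
    by_cases h : Q.pos V t0 ω k < Q.y1
    · exact (step_spec h).2.1
    · rw [pos_stop h]; exact ih

theorem pos_mono (k l : ℕ) (h : k ≤ l) : Q.pos V t0 ω k ≤ Q.pos V t0 ω l := by
  induction l, h using Nat.le_induction with
  | base => exact le_rfl
  | succ l _ ih =>
    by_cases h' : Q.pos V t0 ω l < Q.y1
    · exact ih.trans (step_spec h').1.le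
    · rw [pos_stop h']; exact ih

theorem pos_ge (ht : t0 < Q.y1) (k : ℕ) : min Q.y1 (t0 + k) ≤ Q.pos V t0 ω k := by
  induction k with
  | zero => exact le_trans (min_le_right _ _) (by simp [Cap.pos])
  | succ k ih =>
    by_cases h : Q.pos V t0 ω k < Q.y1
    · have := (step_spec h).1
      push_cast
      omega
    · rw [pos_stop h]
      have := pos_le (V := V) (ω := ω) ht k
      omega

/-- the walker reaches the top -/
theorem exists_top (ht : t0 < Q.y1) : ∃ k, Q.pos V t0 ω k = Q.y1 := by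
  refine ⟨(Q.y1 - t0).toNat, le_antisymm (pos_le ht _) ?_⟩
  have := pos_ge (V := V) (ω := ω) ht (Q.y1 - t0).toNat
  omega

/-- the part of the line above the walker is unexplored -/
theorem line_free {k : ℕ} {t : ℤ} (h1 : Q.pos V t0 ω k ≤ t) (h2 : t < Q.y1) :
    (Q.xS, t) ∉ Q.E V t0 ω k := by
  rintro ⟨l, hl, h⟩
  obtain ⟨e, _, h3⟩ := C_eq_cell ⟨_, h⟩
  rw [e] at h
  have := (step_spec h3).2.2.2.2 t h2 h
  have := pos_mono (V := V) (ω := ω) (Q := Q) (t0 := t0) (l + 1) k hl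
  omega

/-- parity far below -/
theorem pr_base (hω : ω ∈ DD V) (hK : Closed Q.W V ω K) (h0 : ∀ t ≤ t0, (Q.xS, t) ∉ V)
    (ht : t0 < Q.y1) {f : Pt} (hf : f ∈ facesAt (Q.xS, t0)) : Q.pr ω K f = 0 := by
  -- a very low row
  obtain ⟨M', hM'⟩ := (V.image (fun v => - v.2)).exists_le
  obtain ⟨M, hM⟩ : ∃ M : ℤ, ∀ v ∈ V, M ≤ v.2 :=
    ⟨-M', fun v hv => by have := hM' (- v.2) (Finset.mem_image_of_mem (fun v : Pt => - v.2) hv); omega⟩
  set t := min t0 (min (M - 2) (Q.y0 - 2)) with ht'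
  have h1 : t ≤ t0 := min_le_left _ _
  have h2 : t ≤ M - 2 := (min_le_right _ _).trans (min_le_left _ _)
  have h3 : t ≤ Q.y0 - 2 := (min_le_right _ _).trans (min_le_right _ _)
  have nK : ∀ x y : ℤ, y < M → (x, y) ∉ K := by
    intro x y hy h
    have := hM _ (hK.sub _ h).1
    simp only at this
    omega
  have hrow : Q.pr ω K (Q.xS, t) = 0 :=
    Cap.pr_row _ _ (fun x' => ⟨nK _ _ (by omega), nK _ _ (by omega)⟩) (Or.inl (by omega))
  rw [← hrow]
  symm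
  have e : t + ((t0 - t).toNat : ℤ) = t0 := by omega
  refine Cap.pr_line hω hK (x := Q.xS) (t := t) (t0 - t).toNat ?_ (by simp [facesAt])
    (by rw [e]; exact hf)
  intro i hi
  have hi' : t + (i : ℤ) ≤ t0 := by omega
  exact ⟨fun h => h0 _ hi' (hK.sub _ h).1, Q.notW (by omega)⟩

/-- **the past is outside**: if `K` avoids the first `k` components, everything visited in these
steps lies outside `K`. -/
theorem pr_past (hω : ω ∈ DD V) (hK : Closed Q.W V ω K) (h0 : ∀ t ≤ t0, (Q.xS, t) ∉ V)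
    (ht : t0 < Q.y1) {k : ℕ} (hd : ∀ l < k, ∀ u ∈ Q.C V t0 ω l, u ∉ K) :
    (∀ l < k, Q.pos V t0 ω l < Q.y1 → ∀ u ∈ Q.cell V t0 ω l, ∀ f ∈ facesAt u, Q.pr ω K f = 0) ∧
    Q.pr ω K (Q.xS, Q.pos V t0 ω k - 1) = 0 := by
  -- one cell
  have hcell : ∀ l < k, Q.pos V t0 ω l < Q.y1 → Q.pr ω K (Q.xS, Q.pos V t0 ω l - 1) = 0 →
      ∀ u ∈ Q.cell V t0 ω l, ∀ f ∈ facesAt u, Q.pr ω K f = 0 := by
    intro l hl hpos hg u hu f hf
    have hgf : (Q.xS, Q.pos V t0 ω l - 1) ∈ facesAt (Q.xS, Q.pos V t0 ω l) := by simp [facesAt]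
    by_cases hV : (Q.xS, Q.pos V t0 ω l) ∈ V
    · have hC := C_of hV hpos
      have hu' : u ∈ compW Q.W ω (Q.xS, Q.pos V t0 ω l) := by
        unfold Cap.cell at hu
        rwa [if_pos hV] at hu
      rw [← hg]
      exact Cap.pr_comp hω hK hV (Q.notW hpos) (fun u hu => hd l hl u (hC ▸ hu)) hu' hf hgf
    · unfold Cap.cell at hu
      rw [if_neg hV, Set.mem_singleton_iff] at hu
      subst hu
      rw [← hg]
      exact Cap.pr_around hω hK (fun h => hV (hK.sub _ h).1) (Q.notW hpos) hf hgf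
  have main : ∀ l ≤ k, Q.pr ω K (Q.xS, Q.pos V t0 ω l - 1) = 0 := by
    intro l
    induction l with
    | zero =>
      intro _
      exact pr_base hω hK h0 ht (by simp [facesAt, Cap.pos])
    | succ l ih =>
      intro hl
      by_cases h : Q.pos V t0 ω l < Q.y1
      · obtain ⟨_, _, _, h4, _⟩ := step_spec h
        exact hcell l hl h (ih (Nat.le_of_succ_le hl)) _ h4 _ (by simp [facesAt])
      · rw [pos_stop h]
        exact ih (Nat.le_of_succ_le hl)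
  exact ⟨fun l hl hpos => hcell l hl hpos (main l hl.le), main k le_rfl⟩

/-- the future: if the line above height `t` avoids `K`, the parity along it is that of the top -/
theorem pr_future (hω : ω ∈ DD V) (hK : Closed Q.W V ω K) {t : ℤ} (ht : t < Q.y1)
    (hd : ∀ t', t ≤ t' → t' < Q.y1 → (Q.xS, t') ∉ K) {f : Pt} (hf : f ∈ facesAt (Q.xS, t)) :
    Q.pr ω K f = Q.pr ω K (Q.xS, Q.y1 - 1) := by
  have e : t + ((Q.y1 - 1 - t).toNat : ℤ) = Q.y1 - 1 := by omega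
  refine Cap.pr_line hω hK (x := Q.xS) (t := t) (Q.y1 - 1 - t).toNat ?_ hf
    (by rw [e]; simp [facesAt])
  intro i hi
  exact ⟨hd _ (by omega) (by omega), Q.notW (by omega)⟩

end Vale.Agent.P155.T802
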