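import Vale.Agent.P155.T802.Strips
import Vale.Agent.P155.S862.Eval2
import Vale.Agent.P155.S743.Bump
import Vale.Agent.P155.T862.Cont

/-!
# P155, TIGHT, sweep: the two evaluations, deterministic part
-/

namespace Vale.Agent.P155.T802

open Finset T905 H904 S862 S743 SW HT J H12 G45

variable {T : Temp} {V : Finset Pt} {ω : Conf} {Q : Cap} {K : Set Pt} {t0 : ℤ}

/-- the upper side of `c_J` -/
def inS (Q : Cap) (V : Finset Pt) (t0 : ℤ) (ω : Conf) (J : ℕ) : Set Pt :=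
  {f | Q.pr ω (Q.cj V t0 ω J) f = 1}

/-- the bump above the strip `i` of `K` -/
noncomputable def bmp (K : Set Pt) (xa : ℤ) (κ i : ℕ) : Pt → ℝ := bump κ (ctr K xa κ i)

/-- the test function above `K` -/
noncomputable def phi (K : Set Pt) (xa : ℤ) (m κ : ℕ) (x : Pt) : ℝ :=
  (m : ℝ)⁻¹ * ∑ i : Fin m, bmp K xa κ i x

/-- the neighbourhood of the bump `i` of `c_j` at time `J` -/
noncomputable def nbh (T : Temp) (Q : Cap) (t0 : ℤ) (ω : Conf) (j J : ℕ) (xa : ℤ) (κ d i : ℕ) :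
    Set Pt :=
  reach (OE T (Q.Ej T.V t0 ω J)) (pS (Q.cj T.V t0 ω j) xa κ i) d
    ((box (ctr (Q.cj T.V t0 ω j) xa κ i) (2 * κ) : Set Pt) ∩ inS Q T.V t0 ω J)

open Classical in
/-- faces of the box above strip `i` of `c_j` which are not above `c_J` -/
noncomputable def badF (T : Temp) (Q : Cap) (t0 : ℤ) (ω : Conf) (j J : ℕ) (xa : ℤ) (κ i : ℕ) :
    Finset Pt :=
  (box (ctr (Q.cj T.V t0 ω j) xa κ i) (2 * κ)).filter (fun f => f ∉ inS Q T.V t0 ω J)

section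

variable {yb xa : ℤ} {m κ d ρ0 D : ℕ}

theorem badF_self (S : Setup T Q t0 yb xa m κ d ρ0 D) (hω : ω ∈ DD T.V) {j : ℕ} (hj : 1 ≤ j)
    (h : Q.Has T.V t0 ω j) {i : ℕ} (hi : i < m) : badF T Q t0 ω j j xa κ i = ∅ := by
  classical
  unfold badF
  rw [Finset.filter_eq_empty_iff]
  intro f hf hn
  exact hn (box_in S hω hj h hi hf).1

theorem badF_card_one (S : Setup T Q t0 yb xa m κ d ρ0 D) (hω : ω ∈ DD T.V) {j : ℕ} (hj : 1 ≤ j)
    (h : Q.Has T.V t0 ω (j + 1)) {i : ℕ} (hi : i < m) :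
    ((badF T Q t0 ω j (j + 1) xa κ i).card : ℤ) ≤
      ∑ X ∈ Finset.Ico (sa xa κ i) (sa xa κ i + 16 * κ),
        (topE ω (Q.cj T.V t0 ω (j + 1)) X - topE ω (Q.cj T.V t0 ω j) X) := by
  classical
  have h' := has_of_succ h
  have g := cj_good hj h'
  have g' := cj_good (by omega : 1 ≤ j + 1) h
  obtain ⟨_, h2, h3, h4⟩ := strip_spec S hω g hi
  obtain ⟨r1, r2⟩ := sa_range S hi
  have s1 := S.left
  have s2 := S.right
  have s3 := S.κ1
  set K := Q.cj T.V t0 ω j with hK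
  set K' := Q.cj T.V t0 ω (j + 1) with hK'
  have hsub : badF T Q t0 ω j (j + 1) xa κ i ⊆
      (Finset.Icc (sa xa κ i + 2 * κ) (sa xa κ i + 6 * κ)).biUnion (fun X =>
        (Finset.Ico (hgt K xa κ i + 2 * κ) (topE ω K' X)).image (fun y => (X, y))) := by
    intro f hf
    unfold badF at hf
    rw [mem_filter] at hf
    have hb := ctr_box hf.1
    have hR := ctr_Rg S hω g hi hf.1
    rw [mem_biUnion]
    refine ⟨f.1, mem_Icc.2 ⟨hb.1, hb.2.1⟩, mem_image.2 ⟨f.2, mem_Ico.2 ⟨hb.2.2.1, ?_⟩, rfl⟩⟩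
    by_contra hcon
    exact hf.2 (g'.above hω hR.1 hR.2.1 hR.2.2.2 (by omega))
  have hgap : ∀ X ∈ Finset.Ico (sa xa κ i) (sa xa κ i + 16 * κ),
      0 ≤ topE ω K' X - topE ω K X := by
    intro X hX
    rw [mem_Ico] at hX
    have : topE ω K X < topE ω K' X :=
      sk_top hω S.h0 S.ht hj (Nat.lt_succ_self j) h (x := X) (by omega) (by omega)
    omega
  calc ((badF T Q t0 ω j (j + 1) xa κ i).card : ℤ)
      ≤ (((Finset.Icc (sa xa κ i + 2 * κ) (sa xa κ i + 6 * κ)).biUnion (fun X =>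
        (Finset.Ico (hgt K xa κ i + 2 * κ) (topE ω K' X)).image (fun y => (X, y)))).card : ℤ) := by
        exact_mod_cast Finset.card_le_card hsub
    _ ≤ ((∑ X ∈ Finset.Icc (sa xa κ i + 2 * κ) (sa xa κ i + 6 * κ),
        ((Finset.Ico (hgt K xa κ i + 2 * κ) (topE ω K' X)).image
          (fun y => ((X, y) : Pt))).card : ℕ) : ℤ) := by
        exact_mod_cast Finset.card_biUnion_le
    _ ≤ ∑ X ∈ Finset.Icc (sa xa κ i + 2 * κ) (sa xa κ i + 6 * κ),
        (topE ω K' X - topE ω K X) := by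
        push_cast
        refine Finset.sum_le_sum (fun X hX => ?_)
        rw [mem_Icc] at hX
        have e1 : (((Finset.Ico (hgt K xa κ i + 2 * κ) (topE ω K' X)).image
            (fun y => ((X, y) : Pt))).card : ℤ) ≤
            ((topE ω K' X - (hgt K xa κ i + 2 * κ)).toNat : ℤ) := by
          rw [← Int.card_Ico]
          exact_mod_cast Finset.card_image_le
        have e2 := hgap X (mem_Ico.2 ⟨by omega, by omega⟩)
        obtain ⟨h5, _⟩ := g.topE_spec hω (x := X) (by omega) (by omega)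
        have e3 : topE ω K X ≤ hgt K xa κ i := by
          rcases h5.1 with h6 | h6
          · exact h2 _ _ (by omega) (by omega) h6
          · exact h2 _ _ (by omega) (by omega) h6
        omega
    _ ≤ _ := by
        refine Finset.sum_le_sum_of_subset_of_nonneg ?_ (fun X hX _ => hgap X hX)
        intro X hX
        rw [mem_Icc] at hX
        rw [mem_Ico]
        omega

theorem gapD_mono (hω : ω ∈ DD V) (h0 : ∀ t ≤ t0, (Q.xS, t) ∉ V) (ht : t0 < Q.y1) {j : ℕ}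
    (hj : 1 ≤ j) (h : Q.Has V t0 ω (j + 1)) {a b a' b' : ℤ} (ha : Q.x0 ≤ a) (haa : a ≤ a')
    (hbb : b' ≤ b) (hb : b ≤ Q.x1) : gapD Q V t0 ω j a' b' ≤ gapD Q V t0 ω j a b := by
  unfold gapD
  refine Finset.sum_le_sum_of_subset_of_nonneg (Finset.Ico_subset_Ico haa hbb) ?_
  intro X hX _
  rw [mem_Ico] at hX
  have : topE ω (Q.cj V t0 ω j) X < topE ω (Q.cj V t0 ω (j + 1)) X :=
    sk_top hω h0 ht hj (Nat.lt_succ_self j) h (x := X) (by omega) (by omega)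
  omega

/-- **the bad parts are small** -/
theorem badF_card (S : Setup T Q t0 yb xa m κ d ρ0 D) (hω : ω ∈ DD T.V) {j : ℕ} (hj : 1 ≤ j)
    (h : Q.Has T.V t0 ω (j + 1)) :
    (∑ i : Fin m, ((badF T Q t0 ω j (j + 1) xa κ i).card : ℤ)) ≤
      gapD Q T.V t0 ω j xa (xa + 16 * κ * m) := by
  rw [Fin.sum_univ_eq_sum_range (fun i => ((badF T Q t0 ω j (j + 1) xa κ i).card : ℤ)) m]
  unfold gapD
  rw [← sum_strips κ xa m]
  exact Finset.sum_le_sum (fun i hi => badF_card_one S hω hj h (mem_range.1 hi))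

/-- walks inside a box -/
theorem box_conn {P : Pt → Prop} {x : Pt} {s : ℕ}
    (hstep : ∀ z z', Adj z z' → dn x z < s → dn x z' < s → P z → P z') {y z : Pt} (hy : P y)
    (hxy : dn x y < s) (hxz : dn x z < s) : P z := by
  refine T905.walk (P := P) (x := y) hy (l1 y z) z rfl (fun w w' ha hw hw' _ => hstep w w' ha ?_ ?_)
  · have h1 := dn_le' (le_refl (dn x y))
    have h2 := dn_le' (le_refl (dn x z))
    have : dn x w ≤ s - 1 := by
      rw [dn_le_iff]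
      unfold T905.Btw at hw
      omega
    omega
  · have h1 := dn_le' (le_refl (dn x y))
    have h2 := dn_le' (le_refl (dn x z))
    have : dn x w' ≤ s - 1 := by
      rw [dn_le_iff]
      unfold T905.Btw at hw'
      omega
    omega

theorem box_sub2 (p : Pt) (κ : ℕ) : box p κ ⊆ box p (2 * κ) := by
  intro z hz
  rw [mem_box_coord] at *
  omega

/-- **the bump system** of `c_j` at time `J` (`J = j` or `J = j + 1`) -/
theorem sys2 (S : Setup T Q t0 yb xa m κ d ρ0 D) (hω : ω ∈ DD T.V) {j J : ℕ} (hj : 1 ≤ j)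
    (hjJ : j ≤ J) (h : Q.Has T.V t0 ω J) (hκ : 5 ≤ κ) {s : ℕ} (hs : 2 * s ≤ κ) :
    BumpSys2 (OE T (Q.Ej T.V t0 ω J)) (inS Q T.V t0 ω J) (Rg Q yb) s
      (fun i : Fin m => pS (Q.cj T.V t0 ω j) xa κ i)
      (fun i : Fin m => bmp (Q.cj T.V t0 ω j) xa κ i)
      (fun i : Fin m => box (ctr (Q.cj T.V t0 ω j) xa κ i) κ)
      (fun i : Fin m => nbh T Q t0 ω j J xa κ d i)
      (fun i : Fin m => badF T Q t0 ω j J xa κ i) (6 * κ) d (16000000 / (κ : ℝ) ^ 2) where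
  off i := pS_notMem S hω hj hjJ (has_mono hjJ h) i.2
  nonneg i x := bump_nonneg _ _ _
  sup i x := bump_le hκ _ _
  supp i x hx := bump_supp hκ hx
  reg i x hx := ctr_Rg S hω (cj_good hj (has_mono hjJ h)) i.2 (box_sub2 _ _ (bump_supp hκ hx))
  sum i := bump_sum hκ _ le_rfl
  near i x hx := ctr_dn S hω (cj_good hj (has_mono hjJ h)) i.2 (box_sub2 _ _ (bump_supp hκ hx))
  good i x hx hI hO := by
    have hb := box_sub2 _ _ (bump_supp hκ hx)
    exact mem_reach (by exact ⟨by exact_mod_cast hb, hI⟩) hO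
      ((ctr_dn S hω (cj_good hj (has_mono hjJ h)) i.2 hb).trans S.κd)
  nb i := isNb_reach _ _ _ _
  bad i x hx hI := by
    classical
    unfold badF
    rw [mem_filter]
    exact ⟨box_sub2 _ _ (bump_supp hκ hx), hI⟩
  box i x y hx hy hyI hxy z hz := by
    classical
    have g := cj_good hj (has_mono hjJ h)
    have hyb := bump_supp hκ hy
    have hsub : ∀ w, dn x w < s → w ∈ box (ctr (Q.cj T.V t0 ω j) xa κ i) (2 * κ) := by
      intro w hw
      have h1 := dn_le' (le_refl (dn x y))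
      have h2 := dn_le' (le_refl (dn x w))
      rw [mem_box_coord] at hyb ⊢
      push_cast
      omega
    have hO : ∀ w, dn x w < s → w ∈ OE T (Q.Ej T.V t0 ω J) := fun w hw =>
      mem_of_lt_dF (lt_of_lt_of_le hw hx)
    unfold badF
    rw [mem_filter]
    refine ⟨hsub z hz, ?_⟩
    refine box_conn (P := fun w => w ∉ inS Q T.V t0 ω J) (x := x) (s := s) ?_ hyI hxy hz
    intro w w' ha hw hw' hwI hw'I
    apply hwI
    change Q.pr ω _ w = 1
    rw [in_step hω (hj.trans hjJ) h (ctr_Rg S hω g i.2 (hsub w hw)) (ctr_Rg S hω g i.2 (hsub w' hw'))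
      ha (hO w hw)]
    exact hw'I

theorem alg_e2 {C C0 β m κ Z : ℝ} (hC : 0 < C) (hC0 : 0 ≤ C0) (_hβ : 0 < β) (hm : 0 < m)
    (hκ : 0 < κ) (hZ : 0 ≤ Z) : C * (C0 + 1) * (16000000 / κ ^ 2 * (m⁻¹ * Z)) ≤
      ((7 : ℝ) ^ β * C + 16000000 * C) * (C0 + 1) * ((m * κ ^ 2)⁻¹ * Z) := by
  have e3 : C * (C0 + 1) * (16000000 / κ ^ 2 * (m⁻¹ * Z)) =
      (16000000 * C) * (C0 + 1) * ((m * κ ^ 2)⁻¹ * Z) := by
    rw [mul_inv]
    ring
  rw [e3]
  apply mul_le_mul_of_nonneg_right _ (by positivity)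
  apply mul_le_mul_of_nonneg_right _ (by positivity)
  have : 0 ≤ (7 : ℝ) ^ β * C := by positivity
  linarith

open Classical in
/-- **one evaluation**, at time `J` (`J = j` or `J = j + 1`), test function above `c_j` -/
theorem det_eval : ∃ β : ℝ, 0 < β ∧ ∃ C : ℝ, 0 < C ∧
    ∀ (T : Temp) (Q : Cap) (t0 yb xa : ℤ) (m κ d ρ0 D : ℕ), Setup T Q t0 yb xa m κ d ρ0 D →
    ∀ ω ∈ DD T.V, ∀ (j J : ℕ), 1 ≤ j → j ≤ J → Q.Has T.V t0 ω J →
    ∀ A ∈ Loops ω, (∃ q ∈ A, q.1 = Q.x0 + 1) →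
    ∀ (hO : (OE T (Q.Ej T.V t0 ω J)).Finite), CPr (OE T (Q.Ej T.V t0 ω J)) →
    ∀ (s : ℕ) (C0 : ℝ) (χ u : Pt → ℝ) (v : Fin m → Pt → ℝ) (B : Pt → Finset Pt),
    1 ≤ m → 5 ≤ κ → 1 ≤ s → 2 * s ≤ κ → 18 * κ ≤ d → 2 * s + 1 ≤ D →
    (∀ x, B x ⊆ box x ρ0) →
    IsCut (OE T (Q.Ej T.V t0 ω J)) s C0 χ →
    IsGreen (OE T (Q.Ej T.V t0 ω J)) (phi (Q.cj T.V t0 ω j) xa m κ) u →
    (∀ i : Fin m, IsGreen (OE T (Q.Ej T.V t0 ω J))
      (gpart (inS Q T.V t0 ω J) (bmp (Q.cj T.V t0 ω j) xa κ i)) (v i)) →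
    |mass ω (phi (Q.cj T.V t0 ω j) xa m κ) A - (if upS Q ω (Q.cj T.V t0 ω J) A then 1 else 0)| ≤
      |mass ω (lap (fun y => χ y * u y)) A| +
      C * (C0 + 1) * (((κ : ℝ)) / ((d : ℝ))) ^ β +
      (m : ℝ)⁻¹ * ∑ i : Fin m, ∑ x ∈ hO.toFinset,
        |fL (OE T (Q.Ej T.V t0 ω J))
          (gpart (inS Q T.V t0 ω J) (bmp (Q.cj T.V t0 ω j) xa κ i)) χ (v i) x| *
        (if x ∈ nbh T Q t0 ω j J xa κ d i ∧
          TwoVisit (fun _ : Fin 1 => box x (D + 1)) (res T.V (B x) ω) then 1 else 0) +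
      C * (C0 + 1) * (((m : ℝ) * (κ : ℝ) ^ 2)⁻¹ *
        ∑ i : Fin m, ((badF T Q t0 ω j J xa κ i).card : ℝ)) := by
  obtain ⟨β, hβ, C, hC, hev⟩ := eval_det2
  refine ⟨β, hβ, (7 : ℝ) ^ β * C + 16000000 * C, by positivity, ?_⟩
  intro T Q t0 yb xa m κ d ρ0 D S ω hω j J hj hjJ h A hA hAq hO hCP s C0 χ u v B hm hκ hs hsκ hκd hD
    hB hχ hu hv
  have hJ := hj.trans hjJ
  have hC0 := cut_C0_nonneg hχ
  have g := cj_good hj (has_mono hjJ h)
  have key := hev T T.V ω hω Q.W (Q.Ej T.V t0 ω J) (Q.cj T.V t0 ω J) (inS Q T.V t0 ω J) (Rg Q yb) A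
    (upS Q ω (Q.cj T.V t0 ω J) A) hA (near_j S hω hJ h hA) (Ej_closed hω J) hO hCP m
    (fun i : Fin m => pS (Q.cj T.V t0 ω j) xa κ i)
    (fun i : Fin m => bmp (Q.cj T.V t0 ω j) xa κ i)
    (fun i : Fin m => box (ctr (Q.cj T.V t0 ω j) xa κ i) κ)
    (fun i : Fin m => nbh T Q t0 ω j J xa κ d i)
    (fun i : Fin m => badF T Q t0 ω j J xa κ i) (6 * κ) d s D (16000000 / (κ : ℝ) ^ 2) C0 χ u v B
    hm (by positivity) (sys2 S hω hj hjJ h hκ hsκ) hs (by omega) (by omega) hχ hu hv hD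
    (fun i x hx => reach_geo S hω hJ h (mid_pS S hω g i.2) (fun f hf => hf.2) hAq hx (hB x))
  have hm0 : (0 : ℝ) < m := by exact_mod_cast hm
  have hκ0 : (0 : ℝ) < κ := by exact_mod_cast (by omega : 0 < κ)
  have hd0 : (0 : ℝ) < d := by exact_mod_cast (by omega : 0 < d)
  refine key.trans ?_
  have e1 : C * (C0 + 1) * ((((6 * κ : ℕ) : ℝ) + 1) / ((d : ℝ) + 1)) ^ β ≤
      ((7 : ℝ) ^ β * C + 16000000 * C) * (C0 + 1) * (((κ : ℝ)) / ((d : ℝ))) ^ β := by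
    have h1 : ((((6 * κ : ℕ) : ℝ) + 1) / ((d : ℝ) + 1)) ^ β ≤ (7 : ℝ) ^ β * (((κ : ℝ)) / ((d : ℝ))) ^ β := by
      rw [← Real.mul_rpow (by norm_num) (by positivity)]
      apply Real.rpow_le_rpow (by positivity) _ hβ.le
      rw [mul_div_assoc', div_le_div_iff₀ (by positivity) hd0]
      push_cast
      have : (1 : ℝ) ≤ κ := by exact_mod_cast (by omega : 1 ≤ κ)
      nlinarith
    have h2 : 0 ≤ (((κ : ℝ)) / ((d : ℝ))) ^ β := by positivity
    calc C * (C0 + 1) * ((((6 * κ : ℕ) : ℝ) + 1) / ((d : ℝ) + 1)) ^ β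
        ≤ C * (C0 + 1) * ((7 : ℝ) ^ β * (((κ : ℝ)) / ((d : ℝ))) ^ β) :=
          mul_le_mul_of_nonneg_left h1 (by positivity)
      _ = ((7 : ℝ) ^ β * C) * (C0 + 1) * (((κ : ℝ)) / ((d : ℝ))) ^ β := by ring
      _ ≤ _ := by
        apply mul_le_mul_of_nonneg_right _ h2
        apply mul_le_mul_of_nonneg_right _ (by positivity)
        have : 0 ≤ 16000000 * C := by positivity
        linarith
  have e2 : C * (C0 + 1) * (16000000 / (κ : ℝ) ^ 2 *
      ((m : ℝ)⁻¹ * ∑ i : Fin m, ((badF T Q t0 ω j J xa κ i).card : ℝ))) ≤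
      ((7 : ℝ) ^ β * C + 16000000 * C) * (C0 + 1) * (((m : ℝ) * (κ : ℝ) ^ 2)⁻¹ *
        ∑ i : Fin m, ((badF T Q t0 ω j J xa κ i).card : ℝ)) := by
    have hs0 : 0 ≤ ∑ i : Fin m, ((badF T Q t0 ω j J xa κ i).card : ℝ) :=
      Finset.sum_nonneg fun _ _ => by positivity
    exact alg_e2 hC hC0 hβ hm0 hκ0 hs0
  exact add_le_add (add_le_add (add_le_add le_rfl e1) le_rfl) e2

end

end Vale.Agent.P155.T802
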