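import Vale.Agent.P155.T802.Own
import Vale.Agent.P155.H878.TightIface
import Vale.Agent.P155.H878.Orb

/-!
# P155, TIGHT, sweep: strands are good crossings
-/

namespace Vale.Agent.P155.T802

open Finset Vale.Agent.P155.Q1

variable {V : Finset Pt} {ω : Conf} {Q : Cap} {K : Set Pt} {t0 : ℤ}

/-- predecessor -/
def pre (ω : Conf) (v : Pt) : Pt := if White v then ω.2 v else ω.1 v

theorem suc_or (ω : Conf) (v : Pt) : SW.suc ω v = ω.1 v ∨ SW.suc ω v = ω.2 v := by
  unfold SW.suc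
  split_ifs
  exacts [Or.inl rfl, Or.inr rfl]

theorem white_adj {u v : Pt} (h : Adj u v) : White v ↔ ¬ White u := by
  have h := L.adj_even h
  unfold White
  rw [← Int.not_even_iff_odd, ← Int.not_even_iff_odd, h]

theorem suc_pre (hω : ω ∈ DD V) {v : Pt} (hv : v ∈ V) : SW.suc ω (pre ω v) = v := by
  unfold pre SW.suc
  by_cases h : White v
  · rw [if_pos h, if_neg (by rw [white_adj (L.adj2 hω hv)]; exact fun hh => hh h), L.inv2 hω]
  · rw [if_neg h, if_pos ((white_adj (L.adj1 hω hv)).2 h), L.inv1 hω]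

theorem nb (hω : ω ∈ DD V) {u r : Pt} (hu : u ∈ V) :
    (ω.1 u = r ∨ ω.2 u = r) ↔ (SW.suc ω u = r ∨ SW.suc ω r = u) := by
  constructor
  · intro h
    by_cases hw : White u
    · rcases h with h | h
      · left; unfold SW.suc; rwa [if_pos hw]
      · right
        have := suc_pre hω hu
        unfold pre at this
        rwa [if_pos hw, h] at this
    · rcases h with h | h
      · right
        have := suc_pre hω hu
        unfold pre at this
        rwa [if_neg hw, h] at this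
      · left; unfold SW.suc; rwa [if_neg hw]
  · rintro (h | h)
    · rcases suc_or ω u with e | e
      · exact Or.inl (e.symm.trans h)
      · exact Or.inr (e.symm.trans h)
    · rcases suc_or ω r with e | e
      · left; rw [← h, e, L.inv1 hω]
      · right; rw [← h, e, L.inv2 hω]

theorem degW_sp (ω : Conf) (K : Set Pt) (z : Pt) :
    degW ω K z = ind (SW.suc ω z ∈ K) + ind (pre ω z ∈ K) := by
  rw [degW_eq]
  unfold SW.suc pre
  split_ifs
  · rfl
  · exact add_comm _ _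

/-- interior vertices of a strand -/
def inner (ω : Conf) (v : Pt) (m : ℕ) : Set Pt :=
  {u | ∃ j, 0 < j ∧ j < m ∧ u = (SW.suc ω)^[j] v}

section

variable {q0 q1 : ℤ} {v : Pt} {m : ℕ}

theorem st_mem (hω : ω ∈ DD V) {p0 p1 : ℤ} (hs : Strand Prod.fst Prod.snd ω p0 p1 q0 q1 v m)
    (j : ℕ) : (SW.suc ω)^[j] v ∈ V := iter_mem hω (L.mem_V_of_ne hω hs.loop) j

theorem st_W0 (_h0 : Q.y0 ≤ q0) (h1 : q1 ≤ Q.yc)
    (hs : Strand Prod.fst Prod.snd ω Q.x0 Q.x1 q0 q1 v m) {j : ℕ} (hj : j ≤ m)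
    (h : (SW.suc ω)^[j] v ∈ Q.W) : j = 0 ∨ j = m := by
  by_contra hcon
  push Not at hcon
  have h2 := hs.pmem j (by omega) (by omega)
  have h3 := hs.qmem j hj
  have h4 := Q.hy1
  simp only [Cap.W, Set.mem_ofPred_eq] at h
  omega

theorem st_W (h0 : Q.y0 ≤ q0) (h1 : q1 ≤ Q.yc)
    (hs : Strand Prod.fst Prod.snd ω Q.x0 Q.x1 q0 q1 v m) :
    v ∈ Q.W ∧ (SW.suc ω)^[m] v ∈ Q.W := by
  have h2 := hs.qmem 0 (Nat.zero_le _)
  have h3 := hs.qmem m le_rfl
  have h4 := Q.hy1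
  have h5 := hs.ends
  simp only [Function.iterate_zero, id_eq] at h2
  simp only [Cap.W, Set.mem_ofPred_eq]
  omega

theorem st_two (hω : ω ∈ DD V) (hs : Strand Prod.fst Prod.snd ω Q.x0 Q.x1 q0 q1 v m) :
    2 ≤ m := by
  have h1 := Q.hS0
  have h2 := Q.hS1
  have h3 := hs.ends
  by_contra hcon
  have : m = 0 ∨ m = 1 := by omega
  rcases this with rfl | rfl
  · simp only [Function.iterate_zero, id_eq] at h3
    omega
  · have h4 := adj_coord (suc_adj hω (L.mem_V_of_ne hω hs.loop))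
    simp only [Function.iterate_one] at h3
    omega

/-- the interior of a strand is a component cut at the wall -/
theorem st_comp (hω : ω ∈ DD V) (h0 : Q.y0 ≤ q0) (h1 : q1 ≤ Q.yc)
    (hs : Strand Prod.fst Prod.snd ω Q.x0 Q.x1 q0 q1 v m) :
    inner ω v m = compW Q.W ω (SW.suc ω v) := by
  have hm := st_two hω hs
  have hW := st_W h0 h1 hs
  apply Set.Subset.antisymm
  · rintro u ⟨j, hj0, hjm, rfl⟩
    induction j, hj0 using Nat.le_induction with
    | base => exact self_mem_compW _ _ _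
    | succ j hj ih =>
      have ih' := ih (by omega)
      rw [Function.iterate_succ_apply']
      refine Relation.ReflTransGen.tail ih' ⟨?_, suc_or ω _⟩
      intro h
      rw [← Function.iterate_succ_apply' (SW.suc ω)] at h
      have := st_W0 h0 h1 hs (j := j + 1) (by omega) h
      omega
  · intro u hu
    induction hu with
    | refl => exact ⟨1, by omega, by omega, rfl⟩
    | @tail b c _ hbc ih =>
      obtain ⟨j, hj0, hjm, rfl⟩ := ih
      have h2 := (nb hω (st_mem hω hs j)).1 (hbc.2.imp Eq.symm Eq.symm)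
      rcases h2 with h2 | h2
      · rw [← Function.iterate_succ_apply' (SW.suc ω)] at h2
        refine ⟨j + 1, by omega, ?_, h2.symm⟩
        by_contra hcon
        have : j.succ = m := by omega
        rw [this] at h2
        exact hbc.1 (h2 ▸ hW.2)
      · obtain ⟨i, rfl⟩ : ∃ i, j = i + 1 := ⟨j - 1, by omega⟩
        rw [Function.iterate_succ_apply'] at h2
        have h3 := suc_inj hω h2
        refine ⟨i, ?_, by omega, h3⟩
        by_contra hcon
        have : i = 0 := by omega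
        subst this
        exact hbc.1 (h3 ▸ hW.1)

theorem st_reg (h0 : Q.y0 ≤ q0) (h1 : q1 ≤ Q.yc)
    (hs : Strand Prod.fst Prod.snd ω Q.x0 Q.x1 q0 q1 v m) : Q.Reg (inner ω v m) := by
  rintro u ⟨j, hj0, hjm, rfl⟩
  have h2 := hs.pmem j hj0 hjm
  have h3 := hs.qmem j hjm.le
  omega

theorem st_deg (hω : ω ∈ DD V) (h0 : Q.y0 ≤ q0) (h1 : q1 ≤ Q.yc)
    (hs : Strand Prod.fst Prod.snd ω Q.x0 Q.x1 q0 q1 v m) {z : Pt} (hz : z ∈ Q.W) :
    degW ω (inner ω v m) z = ind (z = v) + ind (z = (SW.suc ω)^[m] v) := by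
  have hm := st_two hω hs
  have hW := st_W h0 h1 hs
  rw [degW_sp]
  congr 1
  · apply ind_congr
    constructor
    · rintro ⟨j, hj0, hjm, h⟩
      obtain ⟨i, rfl⟩ : ∃ i, j = i + 1 := ⟨j - 1, by omega⟩
      rw [Function.iterate_succ_apply'] at h
      have h3 := suc_inj hω h
      have h4 := st_W0 h0 h1 hs (j := i) (by omega) (h3 ▸ hz)
      have : i = 0 := by omega
      subst this
      exact h3
    · rintro rfl
      exact ⟨1, by omega, by omega, rfl⟩
  · apply ind_congr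
    constructor
    · rintro ⟨j, hj0, hjm, h⟩
      by_cases hzV : z ∈ V
      · have h3 := suc_pre hω hzV
        rw [h, ← Function.iterate_succ_apply' (SW.suc ω)] at h3
        have h4 := st_W0 h0 h1 hs (j := j + 1) (by omega) (h3 ▸ hz)
        have : j + 1 = m := by omega
        rw [← this]
        exact h3.symm
      · exfalso
        apply hzV
        have : pre ω z = z := by
          unfold pre
          split_ifs
          exacts [L.off2 hω hzV, L.off1 hω hzV]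
        rw [← this, h]
        exact st_mem hω hs j
    · intro h
      have hzV : z ∈ V := h ▸ st_mem hω hs m
      refine ⟨m - 1, by omega, by omega, ?_⟩
      apply suc_inj hω
      rw [suc_pre hω hzV, ← Function.iterate_succ_apply' (SW.suc ω), Nat.succ_eq_add_one,
        Nat.sub_add_cancel (by omega), h]

theorem st_good (hω : ω ∈ DD V) (h0 : Q.y0 ≤ q0) (h1 : q1 ≤ Q.yc)
    (hs : Strand Prod.fst Prod.snd ω Q.x0 Q.x1 q0 q1 v m) : Q.Good V ω (inner ω v m) where
  comp := by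
    refine ⟨SW.suc ω v, suc_mem hω (L.mem_V_of_ne hω hs.loop), ?_, st_comp hω h0 h1 hs⟩
    have hm := st_two hω hs
    intro h
    have := st_W0 h0 h1 hs (j := 1) (by omega) h
    omega
  reg := st_reg h0 h1 hs
  odd := by
    have hx := Q.hx
    have hyc := Q.hy1
    have h2 := hs.qmem 0 (Nat.zero_le _)
    have h3 := hs.qmem m le_rfl
    simp only [Function.iterate_zero, id_eq] at h2
    unfold Cap.DL
    have e : ∀ y ∈ Finset.Icc Q.y0 Q.y1, degW ω (inner ω v m) (Q.x0, y) =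
        ind ((Q.x0, y) = v) + ind ((Q.x0, y) = (SW.suc ω)^[m] v) := by
      intro y hy
      rw [mem_Icc] at hy
      exact st_deg hω h0 h1 hs (Or.inl ⟨rfl, hy⟩)
    rw [Finset.sum_congr rfl e, Finset.sum_add_distrib]
    have one : ∀ w : Pt, w.1 = Q.x0 → Q.y0 ≤ w.2 → w.2 ≤ Q.y1 →
        (∑ y ∈ Finset.Icc Q.y0 Q.y1, ind ((Q.x0, y) = w)) = 1 := by
      intro w hw1 hw2 hw3
      rw [Finset.sum_eq_single w.2]
      · exact ind_true (by rw [← hw1])
      · intro y _ hy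
        exact ind_false (fun h => hy (by rw [← h]))
      · intro h
        exact absurd (mem_Icc.2 ⟨hw2, hw3⟩) h
    have zero : ∀ w : Pt, w.1 = Q.x1 → (∑ y ∈ Finset.Icc Q.y0 Q.y1, ind ((Q.x0, y) = w)) = 0 := by
      intro w hw
      refine Finset.sum_eq_zero (fun y _ => ind_false (fun h => ?_))
      rw [← h] at hw
      simp only at hw
      omega
    rcases hs.ends with ⟨h4, h5⟩ | ⟨h4, h5⟩
    · rw [one v h4 (by omega) (by omega), zero _ h5, add_zero]
    · rw [zero v h4, one _ h5 (by omega) (by omega), zero_add]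

/-- the tops agree -/
theorem st_top (hω : ω ∈ DD V) (hs : Strand Prod.fst Prod.snd ω Q.x0 Q.x1 q0 q1 v m) (X : ℤ) :
    topS Prod.fst Prod.snd ω v m X = topE ω (inner ω v m) X := by
  have hm := st_two hω hs
  unfold topS topE
  congr 1
  ext Y
  simp only [Set.mem_ofPred_eq]
  constructor
  · rintro ⟨j, hj, h1, h2, h3, h4⟩
    have hV := st_mem hω hs j
    have hadj : ω.1 ((SW.suc ω)^[j] v) = (SW.suc ω)^[j + 1] v ∨
        ω.2 ((SW.suc ω)^[j] v) = (SW.suc ω)^[j + 1] v := by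
      rw [nb hω hV, Function.iterate_succ_apply']
      exact Or.inl rfl
    have hin : (SW.suc ω)^[j] v ∈ inner ω v m ∨ (SW.suc ω)^[j + 1] v ∈ inner ω v m := by
      by_cases h : 0 < j
      · exact Or.inl ⟨j, h, hj, rfl⟩
      · exact Or.inr ⟨j + 1, by omega, by omega, rfl⟩
    have hcase : ((SW.suc ω)^[j] v = (X, Y) ∧ (SW.suc ω)^[j + 1] v = (X + 1, Y)) ∨
        ((SW.suc ω)^[j] v = (X + 1, Y) ∧ (SW.suc ω)^[j + 1] v = (X, Y)) := by
      rcases le_total ((SW.suc ω)^[j] v).1 ((SW.suc ω)^[j + 1] v).1 with h | h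
      · left
        rw [min_eq_left h] at h3
        rw [max_eq_right h] at h4
        exact ⟨Prod.ext h3 h1, Prod.ext h4 h2⟩
      · right
        rw [min_eq_right h] at h3
        rw [max_eq_left h] at h4
        exact ⟨Prod.ext h4 h1, Prod.ext h3 h2⟩
    rcases hcase with ⟨e1, e2⟩ | ⟨e1, e2⟩
    · rw [e1, e2] at hin hadj
      exact ⟨hin, hadj⟩
    · rw [e1, e2] at hin hadj
      refine ⟨hin.symm, ?_⟩
      rcases hadj with h | h
      · left; rw [← h, L.inv1 hω]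
      · right; rw [← h, L.inv2 hω]
  · rintro ⟨hin, hadj⟩
    have key : ∀ a b : Pt, a ∈ inner ω v m → (ω.1 a = b ∨ ω.2 a = b) →
        ∃ j < m, (((SW.suc ω)^[j] v = a ∧ (SW.suc ω)^[j + 1] v = b) ∨
          ((SW.suc ω)^[j] v = b ∧ (SW.suc ω)^[j + 1] v = a)) := by
      rintro a b ⟨j, hj0, hjm, rfl⟩ h
      rcases (nb hω (st_mem hω hs j)).1 h with h2 | h2
      · exact ⟨j, hjm, Or.inl ⟨rfl, by rw [Function.iterate_succ_apply']; exact h2⟩⟩
      · obtain ⟨i, rfl⟩ : ∃ i, j = i + 1 := ⟨j - 1, by omega⟩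
        rw [Function.iterate_succ_apply'] at h2
        have h3 := suc_inj hω h2
        exact ⟨i, by omega, Or.inr ⟨h3.symm, rfl⟩⟩
    have hfin : ∀ j < m, (((SW.suc ω)^[j] v = (X, Y) ∧ (SW.suc ω)^[j + 1] v = (X + 1, Y)) ∨
        ((SW.suc ω)^[j] v = (X + 1, Y) ∧ (SW.suc ω)^[j + 1] v = (X, Y))) →
        ∃ j < m, ((SW.suc ω)^[j] v).2 = Y ∧ ((SW.suc ω)^[j + 1] v).2 = Y ∧
          min ((SW.suc ω)^[j] v).1 ((SW.suc ω)^[j + 1] v).1 = X ∧
          max ((SW.suc ω)^[j] v).1 ((SW.suc ω)^[j + 1] v).1 = X + 1 := by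
      rintro j hj (⟨e1, e2⟩ | ⟨e1, e2⟩)
      · exact ⟨j, hj, by rw [e1], by rw [e2], by rw [e1, e2]; simp, by rw [e1, e2]; simp⟩
      · exact ⟨j, hj, by rw [e1], by rw [e2], by rw [e1, e2]; simp, by rw [e1, e2]; simp⟩
    rcases hin with h | h
    · obtain ⟨j, hj, h'⟩ := key _ _ h hadj
      exact hfin j hj h'
    · have hadj' : ω.1 (X + 1, Y) = (X, Y) ∨ ω.2 (X + 1, Y) = (X, Y) := by
        rcases hadj with h | h
        · left; rw [← h, L.inv1 hω]
        · right; rw [← h, L.inv2 hω]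
      obtain ⟨j, hj, h'⟩ := key _ _ h hadj'
      exact hfin j hj h'.symm

/-- different strands give different crossings -/
theorem st_inj (hω : ω ∈ DD V) (h0 : Q.y0 ≤ q0) (h1 : q1 ≤ Q.yc)
    (hs : Strand Prod.fst Prod.snd ω Q.x0 Q.x1 q0 q1 v m) {v' : Pt} {m' : ℕ}
    (hs' : Strand Prod.fst Prod.snd ω Q.x0 Q.x1 q0 q1 v' m')
    (h : inner ω v m = inner ω v' m') : v = v' := by
  have hm := st_two hω hs
  have h2 : SW.suc ω v ∈ inner ω v' m' := h ▸ ⟨1, by omega, by omega, rfl⟩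
  obtain ⟨j, hj0, hjm, e⟩ := h2
  obtain ⟨i, rfl⟩ : ∃ i, j = i + 1 := ⟨j - 1, by omega⟩
  rw [Function.iterate_succ_apply'] at e
  have h3 := suc_inj hω e
  have h4 := st_W0 h0 h1 hs' (j := i) (by omega) (h3 ▸ (st_W h0 h1 hs).1)
  have : i = 0 := by omega
  subst this
  exact h3

/-- the number of strands is at most the number of good crossings -/
theorem has_strands (hω : ω ∈ DD V) (ht0 : ∀ t ≤ t0, (Q.xS, t) ∉ V) (ht : t0 < Q.y1)
    (h0 : Q.y0 ≤ q0) (h1 : q1 ≤ Q.yc) :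
    Q.Has V t0 ω (Set.ncard {v | ∃ m, Strand Prod.fst Prod.snd ω Q.x0 Q.x1 q0 q1 v m}) := by
  classical
  set S := {v | ∃ m, Strand Prod.fst Prod.snd ω Q.x0 Q.x1 q0 q1 v m} with hS
  have hfin : S.Finite := V.finite_toSet.subset (fun v ⟨m, hs⟩ => L.mem_V_of_ne hω hs.loop)
  choose! m hm using fun v (hv : v ∈ S) => (hv : ∃ m, Strand Prod.fst Prod.snd ω Q.x0 Q.x1 q0 q1 v m)
  rw [Set.ncard_eq_toFinset_card S hfin]
  have hinj : Set.InjOn (fun v => inner ω v (m v)) (hfin.toFinset : Set Pt) := by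
    intro v hv v' hv' h
    rw [Finset.mem_coe, Set.Finite.mem_toFinset] at hv hv'
    exact st_inj hω h0 h1 (hm v hv) (hm v' hv') h
  rw [← Finset.card_image_of_injOn hinj]
  refine has_of_card hω ht0 ht _ ?_
  intro K hK
  rw [Finset.mem_image] at hK
  obtain ⟨v, hv, rfl⟩ := hK
  rw [Set.Finite.mem_toFinset] at hv
  exact st_good hω h0 h1 (hm v hv)

end

/-! ### the flip -/

/-- **flip**: the owner of `c_{j+1}` distinguishes the upper sides of `c_j` and of `c_{j+1}` -/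
theorem sk_flip (hω : ω ∈ DD V) (h0 : ∀ t ≤ t0, (Q.xS, t) ∉ V) (ht : t0 < Q.y1) {j : ℕ}
    (hj : 1 ≤ j) (h : Q.Has V t0 ω (j + 1)) {A : Set Pt} (hA : A ∈ Loops ω) {u : Pt}
    (hu : u ∈ Q.cj V t0 ω (j + 1)) (huA : u ∈ A) {f f' : Pt} (hf : Touch (Q.cj V t0 ω j) f)
    (hf' : Touch (Q.cj V t0 ω (j + 1)) f') (hp : Q.pr ω (Q.cj V t0 ω j) f = 1)
    (hp' : Q.pr ω (Q.cj V t0 ω (j + 1)) f' = 1) : ¬ (surr ω A f ↔ surr ω A f') := by
  have g' := cj_good (by omega : 1 ≤ j + 1) h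
  obtain ⟨b1, b2, b3⟩ := C_comp (k := Q.tau V t0 ω (j + 1) - 1) g'.nonempty
  have hp2 : Q.pr ω (Q.cj V t0 ω (j + 1)) (Q.xS, Q.pos V t0 ω (Q.tau V t0 ω (j + 1) - 1) - 1) = 0 :=
    pr_gate hω h0 ht (Q.tau V t0 ω (j + 1) - 1)
  have ht2 : Touch (Q.cj V t0 ω (j + 1)) (Q.xS, Q.pos V t0 ω (Q.tau V t0 ω (j + 1) - 1) - 1) := by
    refine touch_iff.2 ⟨(Q.xS, Q.pos V t0 ω (Q.tau V t0 ω (j + 1) - 1)), ?_, by simp [facesAt]⟩
    unfold Cap.cj
    rw [b3]
    exact self_mem_compW _ _ _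
  have e1 := ind_iff (sk_contig hω h0 ht hj h (flat_surr hω hA) hf ht2 hp hp2)
  rw [e1]
  exact other_side hω g' hA hu huA ht2 hf' (by rw [hp2, hp']; decide)

end Vale.Agent.P155.T802
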