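import Vale.Agent.P155.T802.Par
import Vale.Agent.P155.L.Cycle

/-!
# P155, TIGHT, sweep: the even edge set of a closed vertex set, completed along the wall
-/

namespace Vale.Agent.P155.T802

open Finset

open Classical in
/-- indicator in `ZMod 2` -/
noncomputable def ind (p : Prop) : ZMod 2 := if p then 1 else 0

theorem ind_true {p : Prop} (h : p) : ind p = 1 := by simp [ind, h]
theorem ind_false {p : Prop} (h : ¬ p) : ind p = 0 := by simp [ind, h]
theorem ind_congr {p q : Prop} (h : p ↔ q) : ind p = ind q := by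
  by_cases hp : p
  · rw [ind_true hp, ind_true (h.1 hp)]
  · rw [ind_false hp, ind_false (fun hq => hp (h.2 hq))]

theorem sum_ind {s : Finset Pt} (p : Pt → Prop) [DecidablePred p] :
    (∑ u ∈ s, ind (p u)) = ∑ _u ∈ s.filter p, (1 : ZMod 2) := by
  rw [Finset.sum_filter]
  refine Finset.sum_congr rfl (fun u _ => ?_)
  by_cases h : p u
  · rw [ind_true h, if_pos h]
  · rw [ind_false h, if_neg h]

/-- vertical edges of the superposition at `K` (a doubled edge counts twice, i.e. zero) -/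
noncomputable def eA (ω : Conf) (K : Set Pt) (v : Pt) : ZMod 2 :=
  ind ((v ∈ K ∨ (v.1, v.2 + 1) ∈ K) ∧ ω.1 v = (v.1, v.2 + 1)) +
    ind ((v ∈ K ∨ (v.1, v.2 + 1) ∈ K) ∧ ω.2 v = (v.1, v.2 + 1))

/-- horizontal edges of the superposition at `K` -/
noncomputable def eB (ω : Conf) (K : Set Pt) (v : Pt) : ZMod 2 :=
  ind ((v ∈ K ∨ (v.1 + 1, v.2) ∈ K) ∧ ω.1 v = (v.1 + 1, v.2)) +
    ind ((v ∈ K ∨ (v.1 + 1, v.2) ∈ K) ∧ ω.2 v = (v.1 + 1, v.2))

theorem degW_eq (ω : Conf) (K : Set Pt) (z : Pt) : degW ω K z = ind (ω.1 z ∈ K) + ind (ω.2 z ∈ K) :=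
  rfl

open Classical in
/-- correction along the wall: vertical edges -/
noncomputable def Cap.wA (Q : Cap) (ω : Conf) (K : Set Pt) (v : Pt) : ZMod 2 :=
  if Q.y0 ≤ v.2 ∧ v.2 < Q.y1 then
    if v.1 = Q.x0 ∨ v.1 = Q.x1 then ∑ y ∈ Finset.Icc Q.y0 v.2, degW ω K (v.1, y) else 0
  else 0

open Classical in
/-- correction along the wall: horizontal edges -/
noncomputable def Cap.wB (Q : Cap) (ω : Conf) (K : Set Pt) (v : Pt) : ZMod 2 :=
  if v.2 = Q.y1 ∧ Q.x0 ≤ v.1 ∧ v.1 < Q.x1 then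
    (∑ y ∈ Finset.Icc Q.y0 (Q.y1 - 1), degW ω K (Q.x0, y)) +
      ∑ x ∈ Finset.Icc Q.x0 v.1, degW ω K (x, Q.y1)
  else 0

/-- the full even edge set -/
noncomputable def Cap.fA (Q : Cap) (ω : Conf) (K : Set Pt) (v : Pt) : ZMod 2 :=
  eA ω K v + Q.wA ω K v

noncomputable def Cap.fB (Q : Cap) (ω : Conf) (K : Set Pt) (v : Pt) : ZMod 2 :=
  eB ω K v + Q.wB ω K v

/-- the parity function of `K` -/
noncomputable def Cap.pr (Q : Cap) (ω : Conf) (K : Set Pt) (f : Pt) : ZMod 2 := par (Q.fA ω K) f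

section

variable {V : Finset Pt} {ω : Conf}

/-- degree formula for the four edges at a vertex, one matching -/
theorem four {m : Pt → Pt} (hm : ∀ v, m (m v) = v) (hadj : ∀ v, m v = v ∨ Adj v (m v))
    (K : Set Pt) (v : Pt) :
    ind ((v ∈ K ∨ (v.1, v.2 + 1) ∈ K) ∧ m v = (v.1, v.2 + 1)) +
    ind (((v.1, v.2 - 1) ∈ K ∨ (v.1, v.2 - 1 + 1) ∈ K) ∧ m (v.1, v.2 - 1) = (v.1, v.2 - 1 + 1)) +
    ind ((v ∈ K ∨ (v.1 + 1, v.2) ∈ K) ∧ m v = (v.1 + 1, v.2)) +
    ind (((v.1 - 1, v.2) ∈ K ∨ (v.1 - 1 + 1, v.2) ∈ K) ∧ m (v.1 - 1, v.2) = (v.1 - 1 + 1, v.2)) =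
    ind ((v ∈ K ∨ m v ∈ K) ∧ m v ≠ v) := by
  obtain ⟨x, y⟩ := v
  simp only [sub_add_cancel]
  have e2 : (m (x, y - 1) = (x, y)) ↔ m (x, y) = (x, y - 1) :=
    ⟨fun h => by rw [← h, hm], fun h => by rw [← h, hm]⟩
  have e4 : (m (x - 1, y) = (x, y)) ↔ m (x, y) = (x - 1, y) :=
    ⟨fun h => by rw [← h, hm], fun h => by rw [← h, hm]⟩
  rw [e2, e4]
  rcases hadj (x, y) with h | h
  · rw [h]
    simp only [Prod.mk.injEq, true_and, left_eq_add, one_ne_zero, and_false, ne_eq, not_true_eq_false,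
      and_true]
    rw [ind_false (fun h => h.elim), ind_false (by omega), ind_false (by omega)]
    simp
  · have hne : m (x, y) ≠ (x, y) := fun hh => by rw [hh] at h; simp [Adj] at h
    have := mem_nbrs.2 h
    simp only [nbrs, mem_insert, mem_singleton] at this
    rcases this with h' | h' | h' | h'
    · rw [h']
      simp only [Prod.mk.injEq, ne_eq]
      rw [ind_false (by omega), ind_false (by omega), ind_false (by omega : ¬ (_ ∧ (x + 1 = x - 1 ∧ _)))]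
      rw [zero_add, zero_add, add_zero]
      apply ind_congr
      simp only [and_true, add_eq_left, one_ne_zero, not_false_eq_true]
    · rw [h']
      simp only [Prod.mk.injEq, ne_eq]
      rw [ind_false (by omega), ind_false (by omega), ind_false (by omega : ¬ (_ ∧ (x - 1 = x + 1 ∧ _)))]
      rw [zero_add, zero_add, zero_add]
      apply ind_congr
      simp only [and_true, sub_eq_self, one_ne_zero, not_false_eq_true]
      tauto
    · rw [h']
      simp only [Prod.mk.injEq, ne_eq]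
      rw [ind_false (by omega : ¬ (_ ∧ (True ∧ y + 1 = y - 1))), ind_false (by omega : ¬ (_ ∧ (x = x + 1 ∧ _))),
        ind_false (by omega : ¬ (_ ∧ (x = x - 1 ∧ _)))]
      rw [add_zero, add_zero, add_zero]
      apply ind_congr
      simp only [and_true, add_eq_left, one_ne_zero, and_false, not_false_eq_true]
    · rw [h']
      simp only [Prod.mk.injEq, ne_eq]
      rw [ind_false (by omega : ¬ (_ ∧ (True ∧ y - 1 = y + 1))), ind_false (by omega : ¬ (_ ∧ (x = x + 1 ∧ _))),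
        ind_false (by omega : ¬ (_ ∧ (x = x - 1 ∧ _)))]
      rw [zero_add, add_zero, add_zero]
      apply ind_congr
      simp only [and_true, sub_eq_self, one_ne_zero, and_false, not_false_eq_true]
      tauto

/-- sum over the whole wall of the degrees is even -/
noncomputable def Cap.WF (Q : Cap) : Finset Pt :=
  ((Finset.Icc Q.y0 Q.y1).image (fun y => (Q.x0, y)) ∪ (Finset.Icc Q.y0 Q.y1).image (fun y => (Q.x1, y)))
    ∪ (Finset.Icc Q.x0 Q.x1).image (fun x => (x, Q.y1))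

theorem Cap.mem_WF {Q : Cap} {v : Pt} : v ∈ Q.WF ↔ v ∈ Q.W := by
  obtain ⟨x, y⟩ := v
  simp only [Cap.WF, Cap.W, mem_union, mem_image, mem_Icc, Prod.mk.injEq, Set.mem_ofPred_eq]
  constructor
  · rintro ((⟨a, h1, h2, h3⟩ | ⟨a, h1, h2, h3⟩) | ⟨a, h1, h2, h3⟩)
    · omega
    · omega
    · omega
  · rintro (h | h | h)
    · exact Or.inl (Or.inl ⟨y, h.2, h.1.symm, rfl⟩)
    · exact Or.inl (Or.inr ⟨y, h.2, h.1.symm, rfl⟩)
    · exact Or.inr ⟨x, h.2, rfl, h.1.symm⟩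

/-- one matching: number of wall points matched into `K` = number of points of `K`, mod 2 -/
theorem sum_one {m : Pt → Pt} (hm : ∀ v, m (m v) = v) (hne : ∀ v ∈ V, m v ≠ v) {W : Finset Pt}
    {K : Set Pt} (hK : ∀ u ∈ K, u ∈ V ∧ u ∉ W) (hc : ∀ u ∈ K, m u ∈ K ∨ m u ∈ W) :
    (∑ z ∈ W, ind (m z ∈ K)) = ∑ u ∈ V, ind (u ∈ K) := by
  classical
  have h1 : (∑ z ∈ W, ind (m z ∈ K)) = ∑ u ∈ V, ind (u ∈ K ∧ m u ∈ W) := by
    have e1 : (∑ z ∈ W, ind (m z ∈ K)) = ∑ z ∈ W.filter (fun z => m z ∈ K), (1 : ZMod 2) :=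
      sum_ind _
    have e2 : (∑ u ∈ V, ind (u ∈ K ∧ m u ∈ W)) =
        ∑ u ∈ V.filter (fun u => u ∈ K ∧ m u ∈ W), (1 : ZMod 2) := sum_ind _
    rw [e1, e2]
    refine Finset.sum_bij (fun z _ => m z) ?_ ?_ ?_ ?_
    · intro z hz
      rw [mem_filter] at hz ⊢
      exact ⟨(hK _ hz.2).1, hz.2, by rw [hm]; exact hz.1⟩
    · intro a _ b _ hab
      rw [← hm a, ← hm b]
      exact congrArg m hab
    · intro b hb
      rw [mem_filter] at hb
      exact ⟨m b, by rw [mem_filter, hm]; exact ⟨hb.2.2, hb.2.1⟩, hm b⟩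
    · intro _ _
      rfl
  have h2 : (∑ u ∈ V, ind (u ∈ K)) = (∑ u ∈ V, ind (u ∈ K ∧ m u ∈ W)) +
      ∑ u ∈ V, ind (u ∈ K ∧ m u ∈ K) := by
    rw [← Finset.sum_add_distrib]
    refine Finset.sum_congr rfl (fun u _ => ?_)
    by_cases hu : u ∈ K
    · rcases hc u hu with h | h
      · rw [ind_true hu, ind_false (fun hh => (hK _ h).2 hh.2), ind_true ⟨hu, h⟩, zero_add]
      · rw [ind_true hu, ind_true ⟨hu, h⟩, ind_false (fun hh => (hK _ hh.2).2 h), add_zero]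
    · rw [ind_false hu, ind_false (fun hh => hu hh.1), ind_false (fun hh => hu hh.1), add_zero]
  have h3 : (∑ u ∈ V, ind (u ∈ K ∧ m u ∈ K)) = 0 := by
    have e2 : (∑ u ∈ V, ind (u ∈ K ∧ m u ∈ K)) =
        ∑ u ∈ V.filter (fun u => u ∈ K ∧ m u ∈ K), (1 : ZMod 2) := sum_ind _
    rw [e2]
    refine Finset.sum_involution (fun u _ => m u) ?_ ?_ ?_ ?_
    · intro _ _
      exact z2 1
    · intro a ha _
      exact hne a (mem_filter.1 ha).1
    · intro a ha
      rw [mem_filter] at ha ⊢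
      exact ⟨(hK _ ha.2.2).1, ha.2.2, by rw [hm]; exact ha.2.1⟩
    · intro a _
      exact hm a
  rw [h1, h2, h3, add_zero]

/-- the total degree of the wall is even -/
theorem Cap.sum_WF {Q : Cap} (hω : ω ∈ DD V) {K : Set Pt} (hK : Closed Q.W V ω K) :
    ∑ z ∈ Q.WF, degW ω K z = 0 := by
  simp only [degW_eq]
  rw [Finset.sum_add_distrib,
    sum_one (L.inv1 hω) (fun v hv => (L.adj_ne (L.adj1 hω hv)).symm) (V := V) (W := Q.WF)
      (fun u hu => ⟨(hK.sub u hu).1, fun h => (hK.sub u hu).2 (Cap.mem_WF.1 h)⟩)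
      (fun u hu => (hK.one u hu).imp id Cap.mem_WF.2),
    sum_one (L.inv2 hω) (fun v hv => (L.adj_ne (L.adj2 hω hv)).symm) (V := V) (W := Q.WF)
      (fun u hu => ⟨(hK.sub u hu).1, fun h => (hK.sub u hu).2 (Cap.mem_WF.1 h)⟩)
      (fun u hu => (hK.two u hu).imp id Cap.mem_WF.2)]
  exact z2 _

theorem Cap.sum_sides {Q : Cap} (g : Pt → ZMod 2) :
    (∑ z ∈ Q.WF, g z) = (∑ y ∈ Finset.Icc Q.y0 (Q.y1 - 1), g (Q.x0, y)) +
      (∑ x ∈ Finset.Icc Q.x0 Q.x1, g (x, Q.y1)) + ∑ y ∈ Finset.Icc Q.y0 (Q.y1 - 1), g (Q.x1, y) := by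
  classical
  have hx : Q.x0 < Q.x1 := Q.hS0.trans Q.hS1
  have hy : Q.y0 < Q.y1 := by have := Q.hy0; have := Q.hy1; omega
  have e : Q.WF = ((Finset.Icc Q.y0 (Q.y1 - 1)).image (fun y => (Q.x0, y)) ∪
      (Finset.Icc Q.x0 Q.x1).image (fun x => (x, Q.y1))) ∪
      (Finset.Icc Q.y0 (Q.y1 - 1)).image (fun y => (Q.x1, y)) := by
    ext ⟨x, y⟩
    simp only [Cap.mem_WF, Cap.W, mem_union, mem_image, mem_Icc, Prod.mk.injEq, Set.mem_ofPred_eq]
    constructor
    · intro h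
      by_cases hyy : y = Q.y1
      · refine Or.inl (Or.inr ⟨x, by omega, rfl, hyy.symm⟩)
      · by_cases hxx : x = Q.x0
        · exact Or.inl (Or.inl ⟨y, by omega, hxx.symm, rfl⟩)
        · exact Or.inr ⟨y, by omega, by omega, rfl⟩
    · rintro ((⟨a, h1, h2, h3⟩ | ⟨a, h1, h2, h3⟩) | ⟨a, h1, h2, h3⟩) <;> omega
  rw [e, Finset.sum_union, Finset.sum_union, Finset.sum_image, Finset.sum_image, Finset.sum_image]
  · intro a _ b _ h
    simpa using h
  · intro a _ b _ h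
    simpa using h
  · intro a _ b _ h
    simpa using h
  · rw [Finset.disjoint_left]
    rintro ⟨x, y⟩ h1 h2
    simp only [mem_image, mem_Icc, Prod.mk.injEq] at h1 h2
    obtain ⟨a, h3, h4, h5⟩ := h1
    obtain ⟨b, h6, h7, h8⟩ := h2
    omega
  · rw [Finset.disjoint_left]
    rintro ⟨x, y⟩ h1 h2
    simp only [mem_union, mem_image, mem_Icc, Prod.mk.injEq] at h1 h2
    obtain ⟨b, h6, h7, h8⟩ := h2
    rcases h1 with ⟨a, h3, h4, h5⟩ | ⟨a, h3, h4, h5⟩ <;> omega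

end

end Vale.Agent.P155.T802
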