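import Vale.Agent.P155.T802.Edge

/-!
# P155, TIGHT, sweep: evenness, values of the parity functions
-/

namespace Vale.Agent.P155.T802

open Finset

variable {V : Finset Pt} {ω : Conf} {Q : Cap} {K : Set Pt}

theorem degW_eq_zero {z : Pt} (h1 : ω.1 z ∉ K) (h2 : ω.2 z ∉ K) : degW ω K z = 0 := by
  rw [degW_eq, ind_false h1, ind_false h2, add_zero]

open Classical in
/-- degree of the superposition part at a vertex -/
theorem deg_e (hω : ω ∈ DD V) (hK : Closed Q.W V ω K) (v : Pt) :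
    eA ω K v + eA ω K (v.1, v.2 - 1) + eB ω K v + eB ω K (v.1 - 1, v.2) =
      if v ∈ Q.W then degW ω K v else 0 := by
  have a1 : ∀ u, ω.1 u = u ∨ Adj u (ω.1 u) := by
    intro u
    by_cases hu : u ∈ V
    · exact Or.inr (L.adj1 hω hu)
    · exact Or.inl (L.off1 hω hu)
  have a2 : ∀ u, ω.2 u = u ∨ Adj u (ω.2 u) := by
    intro u
    by_cases hu : u ∈ V
    · exact Or.inr (L.adj2 hω hu)
    · exact Or.inl (L.off2 hω hu)
  have h1 := four (L.inv1 hω) a1 K v
  have h2 := four (L.inv2 hω) a2 K v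
  have key : eA ω K v + eA ω K (v.1, v.2 - 1) + eB ω K v + eB ω K (v.1 - 1, v.2) =
      ind ((v ∈ K ∨ ω.1 v ∈ K) ∧ ω.1 v ≠ v) + ind ((v ∈ K ∨ ω.2 v ∈ K) ∧ ω.2 v ≠ v) := by
    rw [← h1, ← h2]
    unfold eA eB
    simp only
    ring
  rw [key]
  by_cases hvK : v ∈ K
  · have hV := (hK.sub v hvK).1
    rw [if_neg (hK.sub v hvK).2, ind_true ⟨Or.inl hvK, (L.adj_ne (L.adj1 hω hV)).symm⟩,
      ind_true ⟨Or.inl hvK, (L.adj_ne (L.adj2 hω hV)).symm⟩]
    exact z2 1
  · have n1 : ω.1 v ∈ K → v ∈ Q.W ∧ ω.1 v ≠ v := by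
      intro h
      refine ⟨?_, fun hh => hvK (hh ▸ h)⟩
      rcases hK.one _ h with h' | h'
      · rw [L.inv1 hω] at h'
        exact absurd h' hvK
      · rwa [L.inv1 hω] at h'
    have n2 : ω.2 v ∈ K → v ∈ Q.W ∧ ω.2 v ≠ v := by
      intro h
      refine ⟨?_, fun hh => hvK (hh ▸ h)⟩
      rcases hK.two _ h with h' | h'
      · rw [L.inv2 hω] at h'
        exact absurd h' hvK
      · rwa [L.inv2 hω] at h'
    by_cases hW : v ∈ Q.W
    · rw [if_pos hW, degW_eq]
      congr 1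
      · exact ind_congr ⟨fun h => h.1.resolve_left hvK, fun h => ⟨Or.inr h, (n1 h).2⟩⟩
      · exact ind_congr ⟨fun h => h.1.resolve_left hvK, fun h => ⟨Or.inr h, (n2 h).2⟩⟩
    · rw [if_neg hW, ind_false (fun h => hW (n1 (h.1.resolve_left hvK)).1),
        ind_false (fun h => hW (n2 (h.1.resolve_left hvK)).1), add_zero]

theorem z2_alg2 : ∀ p q r d : ZMod 2, p + d + q + r = 0 → p + q + r = d := by decide

theorem z2_alg3 : ∀ p d : ZMod 2, p + d + p = d := by decide

theorem z2_alg4 : ∀ p q d : ZMod 2, p + (p + q + d) + q = d := by decide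

open Classical in
/-- degree of the wall part at a vertex -/
theorem deg_w (hω : ω ∈ DD V) (hK : Closed Q.W V ω K) (v : Pt) :
    Q.wA ω K v + Q.wA ω K (v.1, v.2 - 1) + Q.wB ω K v + Q.wB ω K (v.1 - 1, v.2) =
      if v ∈ Q.W then degW ω K v else 0 := by
  have hx : Q.x0 < Q.x1 := Q.hS0.trans Q.hS1
  have hy : Q.y0 < Q.y1 := by have := Q.hy0; have := Q.hy1; omega
  have htot := Cap.sum_WF hω hK
  rw [Cap.sum_sides] at htot
  obtain ⟨x, y⟩ := v
  by_cases hW : (x, y) ∈ Q.W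
  · rw [if_pos hW]
    simp only [Cap.W, Set.mem_ofPred_eq] at hW
    unfold Cap.wA Cap.wB
    simp only
    by_cases hyy : y = Q.y1
    · subst hyy
      rw [if_neg (by omega : ¬ (Q.y0 ≤ Q.y1 ∧ Q.y1 < Q.y1)), if_pos (by omega : Q.y0 ≤ Q.y1 - 1 ∧ _)]
      by_cases hx0 : x = Q.x0
      · subst hx0
        rw [if_pos (Or.inl rfl), if_pos (by omega), if_neg (by omega), Finset.Icc_self,
          Finset.sum_singleton, zero_add, add_zero, ← add_assoc, z2, zero_add]
      · by_cases hx1 : x = Q.x1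
        · subst hx1
          rw [if_pos (Or.inr rfl), if_neg (by omega), if_pos (by omega), add_zero, zero_add]
          have e : Finset.Icc Q.x0 Q.x1 = insert Q.x1 (Finset.Icc Q.x0 (Q.x1 - 1)) :=
            (Finset.insert_Icc_sub_one_right_eq_Icc hx.le).symm
          rw [e, Finset.sum_insert (by simp)] at htot
          generalize (∑ y ∈ Finset.Icc Q.y0 (Q.y1 - 1), degW ω K (Q.x1, y)) = p at *
          generalize (∑ y ∈ Finset.Icc Q.y0 (Q.y1 - 1), degW ω K (Q.x0, y)) = q at *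
          generalize (∑ x ∈ Finset.Icc Q.x0 (Q.x1 - 1), degW ω K (x, Q.y1)) = r at *
          generalize degW ω K (Q.x1, Q.y1) = d at *
          have : ∀ p q r d : ZMod 2, q + (d + r) + p = 0 → p + (q + r) = d := by decide
          exact this _ _ _ _ htot
        · rw [if_neg (by omega), if_pos (by omega), if_pos (by omega), zero_add, zero_add]
          have e : Finset.Icc Q.x0 x = insert x (Finset.Icc Q.x0 (x - 1)) :=
            (Finset.insert_Icc_sub_one_right_eq_Icc (by omega)).symm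
          rw [e, Finset.sum_insert (by simp)]
          generalize (∑ y ∈ Finset.Icc Q.y0 (Q.y1 - 1), degW ω K (Q.x0, y)) = q
          generalize (∑ x ∈ Finset.Icc Q.x0 (x - 1), degW ω K (x, Q.y1)) = r
          generalize degW ω K (x, Q.y1) = d
          revert q r d
          decide
    · have hxx : x = Q.x0 ∨ x = Q.x1 := by omega
      rw [if_pos (by omega), if_pos hxx, if_neg (by omega : ¬ (y = Q.y1 ∧ _)),
        if_neg (by omega : ¬ (y = Q.y1 ∧ _))]
      by_cases hy0 : y = Q.y0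
      · subst hy0
        rw [if_neg (by omega), Finset.Icc_self, Finset.sum_singleton]
        simp
      · rw [if_pos (by omega), if_pos hxx]
        have e : Finset.Icc Q.y0 y = insert y (Finset.Icc Q.y0 (y - 1)) :=
          (Finset.insert_Icc_sub_one_right_eq_Icc (by omega)).symm
        rw [e, Finset.sum_insert (by simp), add_zero, add_zero, add_assoc, z2, add_zero]
  · rw [if_neg hW]
    simp only [Cap.W, Set.mem_ofPred_eq] at hW
    unfold Cap.wA Cap.wB
    simp only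
    have e1 : ¬ (Q.y0 ≤ y ∧ y < Q.y1) ∨ ¬ (x = Q.x0 ∨ x = Q.x1) := by omega
    have e2 : ¬ (Q.y0 ≤ y - 1 ∧ y - 1 < Q.y1) ∨ ¬ (x = Q.x0 ∨ x = Q.x1) := by omega
    rw [if_neg (by omega : ¬ (y = Q.y1 ∧ Q.x0 ≤ x ∧ x < Q.x1)),
      if_neg (by omega : ¬ (y = Q.y1 ∧ Q.x0 ≤ x - 1 ∧ x - 1 < Q.x1))]
    have f1 : (if Q.y0 ≤ y ∧ y < Q.y1 then
        if x = Q.x0 ∨ x = Q.x1 then ∑ y ∈ Finset.Icc Q.y0 y, degW ω K (x, y) else 0 else 0) = 0 := by
      rcases e1 with h | h
      · rw [if_neg h]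
      · rw [if_neg h, ite_self]
    have f2 : (if Q.y0 ≤ y - 1 ∧ y - 1 < Q.y1 then
        if x = Q.x0 ∨ x = Q.x1 then ∑ y ∈ Finset.Icc Q.y0 (y - 1), degW ω K (x, y) else 0 else 0)
        = 0 := by
      rcases e2 with h | h
      · rw [if_neg h]
      · rw [if_neg h, ite_self]
    rw [f1, f2]
    simp

/-- **evenness** -/
theorem Cap.even (hω : ω ∈ DD V) (hK : Closed Q.W V ω K) : EvenSet (Q.fA ω K) (Q.fB ω K) where
  bd := by
    classical
    obtain ⟨M', hM'⟩ := (V.image (fun v => - v.1)).exists_le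
    obtain ⟨M, hM⟩ : ∃ M : ℤ, ∀ v ∈ V, M ≤ v.1 :=
      ⟨-M', fun v hv => by have := hM' (- v.1) (Finset.mem_image_of_mem (fun v : Pt => - v.1) hv); omega⟩
    refine ⟨min (M - 1) Q.x0, fun v hv => ?_⟩
    have hv1 : v.1 < M - 1 := lt_of_lt_of_le hv (min_le_left _ _)
    have hv2 : v.1 < Q.x0 := lt_of_lt_of_le hv (min_le_right _ _)
    have hx : Q.x0 < Q.x1 := Q.hS0.trans Q.hS1
    have nK : ∀ u : Pt, u.1 < M → u ∉ K := by
      intro u hu h
      have := hM u (hK.sub u h).1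
      omega
    have k1 : v ∉ K := nK _ (by omega)
    have k2 : (v.1, v.2 + 1) ∉ K := nK _ (by simp only; omega)
    have k3 : (v.1 + 1, v.2) ∉ K := nK _ (by simp only; omega)
    constructor
    · unfold Cap.fA eA Cap.wA
      rw [ind_false (fun h => h.1.elim k1 k2), ind_false (fun h => h.1.elim k1 k2),
        if_neg (by omega : ¬ (v.1 = Q.x0 ∨ v.1 = Q.x1)), ite_self]
      simp
    · unfold Cap.fB eB Cap.wB
      rw [ind_false (fun h => h.1.elim k1 k3), ind_false (fun h => h.1.elim k1 k3),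
        if_neg (by omega)]
      simp
  even := by
    intro v
    have h1 := deg_e hω hK v
    have h2 := deg_w hω hK v
    unfold Cap.fA Cap.fB
    have : eA ω K v + Q.wA ω K v + (eA ω K (v.1, v.2 - 1) + Q.wA ω K (v.1, v.2 - 1)) +
        (eB ω K v + Q.wB ω K v) + (eB ω K (v.1 - 1, v.2) + Q.wB ω K (v.1 - 1, v.2)) =
        (eA ω K v + eA ω K (v.1, v.2 - 1) + eB ω K v + eB ω K (v.1 - 1, v.2)) +
        (Q.wA ω K v + Q.wA ω K (v.1, v.2 - 1) + Q.wB ω K v + Q.wB ω K (v.1 - 1, v.2)) := by ring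
    rw [this, h1, h2]
    exact z2 _

end Vale.Agent.P155.T802
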