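import Vale.Agent.P155.T802.Even

/-!
# P155, TIGHT, sweep: the parity function of a closed set is locally constant
-/

namespace Vale.Agent.P155.T802

open Finset

variable {V : Finset Pt} {ω : Conf} {Q : Cap} {K : Set Pt}

theorem Cap.hx (Q : Cap) : Q.x0 < Q.x1 := Q.hS0.trans Q.hS1
theorem Cap.hy (Q : Cap) : Q.y0 < Q.y1 := by have := Q.hy0; have := Q.hy1; omega

/-- no edge of `K` between two points, one of which is neither in `K` nor on the wall -/
theorem no_edge (hω : ω ∈ DD V) (hK : Closed Q.W V ω K) {q r : Pt} (hq : q ∉ K) (hW : q ∉ Q.W) :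
    ¬ ((q ∈ K ∨ r ∈ K) ∧ ω.1 q = r) ∧ ¬ ((q ∈ K ∨ r ∈ K) ∧ ω.2 q = r) ∧
    ¬ ((r ∈ K ∨ q ∈ K) ∧ ω.1 r = q) ∧ ¬ ((r ∈ K ∨ q ∈ K) ∧ ω.2 r = q) := by
  refine ⟨?_, ?_, ?_, ?_⟩
  · rintro ⟨h, e⟩
    have hr := h.resolve_left hq
    rcases hK.one r hr with h1 | h1 <;> rw [← e, L.inv1 hω] at h1
    · exact hq h1
    · exact hW h1
  · rintro ⟨h, e⟩
    have hr := h.resolve_left hq
    rcases hK.two r hr with h1 | h1 <;> rw [← e, L.inv2 hω] at h1
    · exact hq h1
    · exact hW h1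
  · rintro ⟨h, e⟩
    have hr := h.resolve_right hq
    rcases hK.one r hr with h1 | h1 <;> rw [e] at h1
    · exact hq h1
    · exact hW h1
  · rintro ⟨h, e⟩
    have hr := h.resolve_right hq
    rcases hK.two r hr with h1 | h1 <;> rw [e] at h1
    · exact hq h1
    · exact hW h1

theorem wA_off {v : Pt} (h : v ∉ Q.W ∨ (v.1, v.2 + 1) ∉ Q.W) : Q.wA ω K v = 0 := by
  unfold Cap.wA
  simp only [Cap.W, Set.mem_ofPred_eq] at h
  have := Q.hx
  have := Q.hy
  by_cases h1 : Q.y0 ≤ v.2 ∧ v.2 < Q.y1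
  · rw [if_pos h1, if_neg (by omega)]
  · rw [if_neg h1]

theorem wB_off {v : Pt} (h : v ∉ Q.W ∨ (v.1 + 1, v.2) ∉ Q.W) : Q.wB ω K v = 0 := by
  unfold Cap.wB
  simp only [Cap.W, Set.mem_ofPred_eq] at h
  have := Q.hx
  have := Q.hy
  rw [if_neg (by omega)]

theorem eA_off (hω : ω ∈ DD V) (hK : Closed Q.W V ω K) {v : Pt} (hq : v ∉ K ∧ v ∉ Q.W ∨
    ((v.1, v.2 + 1) ∉ K ∧ (v.1, v.2 + 1) ∉ Q.W)) : eA ω K v = 0 := by
  unfold eA
  rcases hq with ⟨h1, h2⟩ | ⟨h1, h2⟩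
  · obtain ⟨a, b, _, _⟩ := no_edge hω hK (r := (v.1, v.2 + 1)) h1 h2
    rw [ind_false a, ind_false b, add_zero]
  · obtain ⟨_, _, a, b⟩ := no_edge hω hK (r := v) h1 h2
    rw [ind_false a, ind_false b, add_zero]

theorem eB_off (hω : ω ∈ DD V) (hK : Closed Q.W V ω K) {v : Pt} (hq : v ∉ K ∧ v ∉ Q.W ∨
    ((v.1 + 1, v.2) ∉ K ∧ (v.1 + 1, v.2) ∉ Q.W)) : eB ω K v = 0 := by
  unfold eB
  rcases hq with ⟨h1, h2⟩ | ⟨h1, h2⟩
  · obtain ⟨a, b, _, _⟩ := no_edge hω hK (r := (v.1 + 1, v.2)) h1 h2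
    rw [ind_false a, ind_false b, add_zero]
  · obtain ⟨_, _, a, b⟩ := no_edge hω hK (r := v) h1 h2
    rw [ind_false a, ind_false b, add_zero]

/-- around a vertex off `K` and off the wall the parity is constant -/
theorem Cap.pr_around (hω : ω ∈ DD V) (hK : Closed Q.W V ω K) {q : Pt} (hq : q ∉ K)
    (hW : q ∉ Q.W) {f f' : Pt} (hf : f ∈ facesAt q) (hf' : f' ∈ facesAt q) :
    Q.pr ω K f = Q.pr ω K f' := by
  refine par_around (Cap.even hω hK) ?_ ?_ ?_ ?_ hf hf'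
  · unfold Cap.fA
    rw [eA_off hω hK (Or.inl ⟨hq, hW⟩), wA_off (Or.inl hW), add_zero]
  · unfold Cap.fA
    rw [eA_off hω hK (Or.inr ⟨by simpa using hq, by simpa using hW⟩),
      wA_off (Or.inr (by simpa using hW)), add_zero]
  · unfold Cap.fB
    rw [eB_off hω hK (Or.inl ⟨hq, hW⟩), wB_off (Or.inl hW), add_zero]
  · unfold Cap.fB
    rw [eB_off hω hK (Or.inr ⟨by simpa using hq, by simpa using hW⟩),
      wB_off (Or.inr (by simpa using hW)), add_zero]

/-- adjacent vertices have a common face -/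
theorem common_face {u v : Pt} (h : Adj u v) : ∃ f, f ∈ facesAt u ∧ f ∈ facesAt v := by
  obtain ⟨x, y⟩ := u
  have := mem_nbrs.2 h
  simp only [nbrs, mem_insert, mem_singleton] at this
  rcases this with rfl | rfl | rfl | rfl
  · exact ⟨(x, y), by simp [facesAt], by simp [facesAt]⟩
  · exact ⟨(x - 1, y), by simp [facesAt], by simp [facesAt]⟩
  · exact ⟨(x, y), by simp [facesAt], by simp [facesAt]⟩
  · exact ⟨(x, y - 1), by simp [facesAt], by simp [facesAt]⟩

/-- adjacent vertices off `K` and off the wall have the same parity around them -/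
theorem Cap.pr_adj (hω : ω ∈ DD V) (hK : Closed Q.W V ω K) {u v : Pt} (hu : u ∉ K ∧ u ∉ Q.W)
    (hv : v ∉ K ∧ v ∉ Q.W) (h : Adj u v) {f f' : Pt} (hf : f ∈ facesAt u) (hf' : f' ∈ facesAt v) :
    Q.pr ω K f = Q.pr ω K f' := by
  obtain ⟨g, h1, h2⟩ := common_face h
  rw [Cap.pr_around hω hK hu.1 hu.2 hf h1, Cap.pr_around hω hK hv.1 hv.2 h2 hf']

/-! ### components -/

theorem closed_comp (hω : ω ∈ DD V) {W : Set Pt} {v : Pt} (hv : v ∈ V) (hW : v ∉ W) :
    Closed W V ω (compW W ω v) where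
  sub := by
    intro u hu
    induction hu with
    | refl => exact ⟨hv, hW⟩
    | tail _ hab ih =>
      obtain ⟨h1, h2 | h2⟩ := hab
      · exact ⟨h2 ▸ L.mem1 hω ih.1, h1⟩
      · exact ⟨h2 ▸ L.mem2 hω ih.1, h1⟩
  one := by
    intro u hu
    by_cases h : ω.1 u ∈ W
    · exact Or.inr h
    · exact Or.inl (Relation.ReflTransGen.tail hu ⟨h, Or.inl rfl⟩)
  two := by
    intro u hu
    by_cases h : ω.2 u ∈ W
    · exact Or.inr h
    · exact Or.inl (Relation.ReflTransGen.tail hu ⟨h, Or.inr rfl⟩)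

theorem self_mem_compW (W : Set Pt) (ω : Conf) (v : Pt) : v ∈ compW W ω v :=
  Relation.ReflTransGen.refl

theorem compW_symm (hω : ω ∈ DD V) {W : Set Pt} {u v : Pt} (hv : v ∉ W) (h : u ∈ compW W ω v) :
    v ∈ compW W ω u := by
  have key : ∀ x, SameW W ω v x → SameW W ω x v ∧ x ∉ W := by
    intro x hx
    induction hx with
    | refl => exact ⟨Relation.ReflTransGen.refl, hv⟩
    | tail _ hab ih =>
      obtain ⟨h1, h2 | h2⟩ := hab
      · refine ⟨Relation.ReflTransGen.head ⟨ih.2, Or.inl ?_⟩ ih.1, h1⟩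
        rw [h2, L.inv1 hω]
      · refine ⟨Relation.ReflTransGen.head ⟨ih.2, Or.inr ?_⟩ ih.1, h1⟩
        rw [h2, L.inv2 hω]
  exact (key u h).1

theorem compW_eq (hω : ω ∈ DD V) {W : Set Pt} {u v : Pt} (hv : v ∉ W) (h : u ∈ compW W ω v) :
    compW W ω u = compW W ω v := by
  ext x
  exact ⟨fun hx => Relation.ReflTransGen.trans h hx,
    fun hx => Relation.ReflTransGen.trans (compW_symm hω hv h) hx⟩

/-- a component avoiding `K` carries one parity -/
theorem Cap.pr_comp (hω : ω ∈ DD V) (hK : Closed Q.W V ω K) {v : Pt} (hv : v ∈ V) (hW : v ∉ Q.W)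
    (hd : ∀ u ∈ compW Q.W ω v, u ∉ K) {u : Pt} (hu : u ∈ compW Q.W ω v) {f f' : Pt}
    (hf : f ∈ facesAt u) (hf' : f' ∈ facesAt v) : Q.pr ω K f = Q.pr ω K f' := by
  have hc := closed_comp hω hv hW (W := Q.W)
  have key : ∀ x, SameW Q.W ω v x → ∀ g ∈ facesAt x, Q.pr ω K g = Q.pr ω K f' := by
    intro x hx
    induction hx with
    | refl => exact fun g hg => Cap.pr_around hω hK (hd v (self_mem_compW _ _ _)) hW hg hf'
    | @tail b c hab hbc ih =>
      intro g hg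
      have hb : b ∈ compW Q.W ω v := hab
      have hcc : c ∈ compW Q.W ω v := Relation.ReflTransGen.tail hab hbc
      have hadj : Adj b c := by
        rcases hbc.2 with h | h
        · exact h ▸ L.adj1 hω (hc.sub b hb).1
        · exact h ▸ L.adj2 hω (hc.sub b hb).1
      obtain ⟨g', h1, h2⟩ := common_face hadj
      rw [← ih g' h1]
      exact Cap.pr_around hω hK (hd c hcc) (hc.sub c hcc).2 hg h2
  exact key u hu f hf

/-! ### vertical line -/

/-- along a vertical segment free of `K` and of the wall the parity is constant -/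
theorem Cap.pr_line (hω : ω ∈ DD V) (hK : Closed Q.W V ω K) {x t : ℤ} (n : ℕ)
    (h : ∀ i : ℕ, i ≤ n → (x, t + i) ∉ K ∧ (x, t + i) ∉ Q.W) {f f' : Pt}
    (hf : f ∈ facesAt (x, t)) (hf' : f' ∈ facesAt (x, t + n)) : Q.pr ω K f = Q.pr ω K f' := by
  induction n generalizing f' with
  | zero =>
    have h0 := h 0 le_rfl
    simp only [Nat.cast_zero, add_zero] at h0 hf'
    exact Cap.pr_around hω hK h0.1 h0.2 hf hf'
  | succ n ih =>
    have h1 := h n (Nat.le_succ n)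
    have h2 := h (n + 1) le_rfl
    push_cast at h2 hf'
    have hadj : Adj (x, t + (n : ℤ)) (x, t + ((n : ℤ) + 1)) := by simp [Adj]
    obtain ⟨g, h3, h4⟩ := common_face hadj
    rw [ih (fun i hi => h i (hi.trans (Nat.le_succ n))) h3]
    exact Cap.pr_around hω hK h2.1 h2.2 h4 hf'

/-! ### values -/

/-- rows without points of `K` and of the wall -/
theorem Cap.pr_row (x y : ℤ) (h : ∀ x', (x', y) ∉ K ∧ (x', y + 1) ∉ K)
    (hW : y < Q.y0 ∨ Q.y1 ≤ y) : Q.pr ω K (x, y) = 0 := by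
  unfold Cap.pr
  apply par_zero_row
  intro x'
  obtain ⟨h1, h2⟩ := h x'
  unfold Cap.fA eA Cap.wA
  rw [ind_false (fun hh => hh.1.elim h1 h2), ind_false (fun hh => hh.1.elim h1 h2),
    if_neg (by simp only; omega)]
  simp

end Vale.Agent.P155.T802
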