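import Mathlib

/-!
# Gallai's theorem: every finite graph has a vertex set containing at least half of the vertices
# which induces a subgraph with all degrees even; application to two linear orders.
-/

namespace Vale.Agent.P155.T802

open Finset

/-- The linear map of a square array over `ZMod 2`. -/
def lin {V : Type*} [Fintype V] (M : V → V → ZMod 2) : (V → ZMod 2) →ₗ[ZMod 2] (V → ZMod 2) where
  toFun x := fun v => ∑ w, M v w * x w
  map_add' x y := by ext v; simp [mul_add, Finset.sum_add_distrib]
  map_smul' c x := by
    ext v
    simp only [Pi.smul_apply, smul_eq_mul, RingHom.id_apply, Finset.mul_sum]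
    exact Finset.sum_congr rfl fun w _ => by ring

/-- The diagonal of a symmetric matrix over `ZMod 2` is in its range. -/
theorem diag_mem_range {V : Type*} [Fintype V] [DecidableEq V] (M : V → V → ZMod 2)
    (hM : ∀ u v, M u v = M v u) : ∃ x : V → ZMod 2, ∀ v, ∑ w, M v w * x w = M v v := by
  classical
  by_contra hcon
  set d : V → ZMod 2 := fun v => M v v with hd
  have hnot : d ∉ LinearMap.range (lin M) := by
    rintro ⟨x, hx⟩
    exact hcon ⟨x, fun v => congrFun hx v⟩
  obtain ⟨f, hf, hfker⟩ := Submodule.exists_le_ker_of_notMem hnot
  -- f is given by a vector y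
  let y : V → ZMod 2 := fun v => f (Pi.single v 1)
  have hfy : ∀ z : V → ZMod 2, f z = ∑ v, y v * z v := by
    intro z
    conv_lhs => rw [← Finset.univ_sum_single z]
    rw [map_sum]
    refine Finset.sum_congr rfl fun v _ => ?_
    have : (Pi.single v (z v) : V → ZMod 2) = z v • Pi.single v 1 := by
      ext w; by_cases h : w = v
      · subst h; simp
      · simp [h]
    rw [this, map_smul, smul_eq_mul, mul_comm]
  have hyM : ∀ x : V → ZMod 2, ∑ v, y v * (∑ w, M v w * x w) = 0 := by
    intro x
    have h1 : f (lin M x) = 0 := hfker ⟨x, rfl⟩
    rw [hfy] at h1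
    exact h1
  have h1 : ∑ v, y v * d v = ∑ v, y v * (∑ w, M v w * y w) := by
    -- expand the double sum, off-diagonal terms cancel
    have hexp : ∑ v, y v * (∑ w, M v w * y w) = ∑ v, ∑ w, y v * M v w * y w := by
      refine Finset.sum_congr rfl fun v _ => ?_
      rw [Finset.mul_sum]
      refine Finset.sum_congr rfl fun w _ => ?_
      ring
    rw [hexp]
    have hsplit : ∑ v, ∑ w, y v * M v w * y w =
        ∑ v, y v * M v v * y v + ∑ v, ∑ w ∈ univ.erase v, y v * M v w * y w := by
      rw [← Finset.sum_add_distrib]
      refine Finset.sum_congr rfl fun v _ => ?_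
      rw [Finset.add_sum_erase _ (fun w => y v * M v w * y w) (mem_univ v)]
    rw [hsplit]
    have hoff : ∑ v, ∑ w ∈ univ.erase v, y v * M v w * y w = 0 := by
      rw [Finset.sum_sigma']
      refine Finset.sum_involution (fun p _ => ⟨p.2, p.1⟩) ?_ ?_ ?_ ?_
      · rintro ⟨v, w⟩ _
        simp only
        rw [hM w v]
        have h2 : y w * M v w * y v = y v * M v w * y w := by ring
        rw [h2]
        exact CharTwo.add_self_eq_zero _
      · rintro ⟨v, w⟩ hp _ heq
        simp only [mem_sigma, mem_univ, mem_erase, true_and] at hp
        have := congrArg Sigma.fst heq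
        exact hp.1 (by simpa using this)
      · rintro ⟨v, w⟩ hp
        simp only [mem_sigma, mem_univ, mem_erase, true_and] at hp ⊢
        exact ⟨fun h => hp.1 h.symm, trivial⟩
      · rintro ⟨v, w⟩ _
        rfl
    rw [hoff, add_zero]
    refine Finset.sum_congr rfl fun v _ => ?_
    have hsq : y v * y v = y v := by
      have : ∀ a : ZMod 2, a * a = a := by decide
      exact this _
    calc y v * d v = (y v * y v) * M v v := by rw [hsq]
      _ = y v * M v v * y v := by ring
  have h2 : f d = 0 := by rw [hfy, h1]; exact hyM y
  exact hf h2

/-- Gallai: there is a set `U` with at least half of the vertices inducing even degrees. -/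
theorem gallai {V : Type*} [Fintype V] [DecidableEq V] (G : V → V → Prop) [DecidableRel G]
    (hs : ∀ u v, G u v → G v u) (hi : ∀ u, ¬ G u u) :
    ∃ U : Finset V, Fintype.card V ≤ 2 * U.card ∧
      ∀ u ∈ U, Even ((U.filter (fun v => G u v)).card) := by
  classical
  let dg : V → ℕ := fun u => (univ.filter (fun v => G u v)).card
  let M : V → V → ZMod 2 := fun u v => if u = v then (dg u : ZMod 2) else if G u v then 1 else 0
  have hM : ∀ u v, M u v = M v u := by
    intro u v
    simp only [M]
    by_cases huv : u = v
    · subst huv; rfl
    · have hvu : ¬ v = u := fun h => huv h.symm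
      simp only [huv, hvu, if_false]
      by_cases hg : G u v
      · simp [hg, hs _ _ hg]
      · have : ¬ G v u := fun h => hg (hs _ _ h)
        simp [hg, this]
  obtain ⟨x, hx⟩ := diag_mem_range M hM
  have hrow : ∀ u, (dg u : ZMod 2) * x u + ∑ v ∈ univ.filter (fun v => G u v), x v = dg u := by
    intro u
    have h := hx u
    have hdiag : M u u = (dg u : ZMod 2) := by simp [M]
    rw [hdiag] at h
    rw [← Finset.add_sum_erase _ (fun w => M u w * x w) (mem_univ u), hdiag] at h
    have h3 : ∑ v ∈ univ.filter (fun v => G u v), x v = ∑ w ∈ univ.erase u, M u w * x w := by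
      rw [Finset.sum_filter]
      rw [← Finset.add_sum_erase _ (fun v => if G u v then x v else 0) (mem_univ u)]
      simp only [hi u, if_false, zero_add]
      refine Finset.sum_congr rfl fun v hv => ?_
      have hvu : ¬ u = v := fun h => (mem_erase.1 hv).1 h.symm
      simp only [M, hvu, if_false]
      split_ifs <;> simp
    rw [h3]
    exact h
  have h01 : ∀ a : ZMod 2, a = 0 ∨ a = 1 := by decide
  have hcount : ∀ (S : Finset V), (∑ v ∈ S, x v) = ((S.filter (fun v => x v = 1)).card : ZMod 2) := by
    intro S
    rw [Finset.card_filter]
    push_cast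
    refine Finset.sum_congr rfl fun v _ => ?_
    rcases h01 (x v) with h | h
    · simp [h]
    · simp [h]
  let U1 : Finset V := univ.filter (fun v => x v = 1)
  let U0 : Finset V := univ.filter (fun v => x v = 0)
  have hev1 : ∀ u ∈ U1, Even ((U1.filter (fun v => G u v)).card) := by
    intro u hu
    have hxu : x u = 1 := by simpa [U1] using hu
    have h := hrow u
    rw [hxu, mul_one, hcount] at h
    have h0 : ((univ.filter (fun v => G u v)).filter (fun v => x v = 1)).card = (0 : ZMod 2) := by
      have := h
      exact add_eq_left.1 this
    rw [ZMod.natCast_eq_zero_iff_even] at h0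
    have heq : U1.filter (fun v => G u v) = (univ.filter (fun v => G u v)).filter (fun v => x v = 1) := by
      ext v; simp [U1, and_comm]
    rw [heq]; exact h0
  have hev0 : ∀ u ∈ U0, Even ((U0.filter (fun v => G u v)).card) := by
    intro u hu
    have hxu : x u = 0 := by simpa [U0] using hu
    have h := hrow u
    rw [hxu, mul_zero, zero_add, hcount] at h
    -- number of neighbours with x = 1 is congruent to the degree
    have hsplit : dg u = ((univ.filter (fun v => G u v)).filter (fun v => x v = 1)).card +
        (U0.filter (fun v => G u v)).card := by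
      have h1 := Finset.card_filter_add_card_filter_not (s := univ.filter (fun v => G u v))
        (fun v => x v = 1)
      have h2 : (univ.filter (fun v => G u v)).filter (fun v => ¬ x v = 1) =
          U0.filter (fun v => G u v) := by
        ext v
        simp only [mem_filter, mem_univ, true_and, U0]
        constructor
        · rintro ⟨hg, hne⟩
          exact ⟨(h01 (x v)).resolve_right hne, hg⟩
        · rintro ⟨hz, hg⟩
          exact ⟨hg, by rw [hz]; decide⟩
      rw [h2] at h1
      exact h1.symm
    rw [← ZMod.natCast_eq_zero_iff_even]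
    have h3 : (dg u : ZMod 2) = (((univ.filter (fun v => G u v)).filter (fun v => x v = 1)).card : ZMod 2) +
        ((U0.filter (fun v => G u v)).card : ZMod 2) := by
      rw [hsplit]; push_cast; rfl
    rw [h] at h3
    exact (add_eq_left.1 h3.symm)
  have hcard : Fintype.card V = U1.card + U0.card := by
    have h1 := Finset.card_filter_add_card_filter_not (s := (univ : Finset V)) (fun v => x v = 1)
    have h2 : (univ : Finset V).filter (fun v => ¬ x v = 1) = U0 := by
      ext v
      simp only [mem_filter, mem_univ, true_and, U0]
      exact ⟨fun h => (h01 (x v)).resolve_right h, fun h => by rw [h]; decide⟩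
    rw [h2] at h1
    rw [← Finset.card_univ]
    exact h1.symm
  rcases le_total U0.card U1.card with h | h
  · exact ⟨U1, by omega, hev1⟩
  · exact ⟨U0, by omega, hev0⟩

/-- Parity of ranks: for two injective times `s, t` on a finite set there is a subset `U` with at
least half of the points such that, inside `U`, the ranks with respect to `s` and `t` have the same
parity at every point. -/
theorem rank_parity {V : Type*} [Fintype V] [DecidableEq V] (s t : V → ℕ)
    (hs : Function.Injective s) (ht : Function.Injective t) :
    ∃ U : Finset V, Fintype.card V ≤ 2 * U.card ∧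
      ∀ u ∈ U, (Even ((U.filter (fun v => s v < s u)).card) ↔
        Even ((U.filter (fun v => t v < t u)).card)) := by
  classical
  obtain ⟨U, hU, hev⟩ := gallai (fun u v : V => (s v < s u ∧ t u < t v) ∨ (s u < s v ∧ t v < t u))
    (by rintro u v (h | h)
        · exact Or.inr ⟨h.1, h.2⟩
        · exact Or.inl ⟨h.1, h.2⟩)
    (by rintro u (h | h) <;> exact absurd h.1 (lt_irrefl _))
  refine ⟨U, hU, fun u hu => ?_⟩
  have h := hev u hu
  -- A = {s v < s u, t v < t u}, B = {s v < s u, t u < t v}, C = {s u < s v, t v < t u}
  set A := U.filter (fun v => s v < s u ∧ t v < t u)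
  set B := U.filter (fun v => s v < s u ∧ t u < t v)
  set C := U.filter (fun v => s u < s v ∧ t v < t u)
  have hBC : (U.filter (fun v => (s v < s u ∧ t u < t v) ∨ (s u < s v ∧ t v < t u))).card =
      B.card + C.card := by
    rw [Finset.filter_or, Finset.card_union_of_disjoint]
    rw [Finset.disjoint_filter]
    rintro v _ h1 h2
    omega
  have hAB : (U.filter (fun v => s v < s u)).card = A.card + B.card := by
    rw [← Finset.card_union_of_disjoint]
    · congr 1
      ext v
      simp only [mem_filter, mem_union, A, B]
      constructor
      · rintro ⟨hv, h1⟩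
        have hne : t v ≠ t u := by
          intro h2
          have := ht h2
          subst this
          exact lt_irrefl _ h1
        rcases lt_or_gt_of_ne hne with h3 | h3
        · exact Or.inl ⟨hv, h1, h3⟩
        · exact Or.inr ⟨hv, h1, h3⟩
      · rintro (⟨hv, h1, _⟩ | ⟨hv, h1, _⟩) <;> exact ⟨hv, h1⟩
    · rw [Finset.disjoint_filter]
      rintro v _ h1 h2
      omega
  have hAC : (U.filter (fun v => t v < t u)).card = A.card + C.card := by
    rw [← Finset.card_union_of_disjoint]
    · congr 1
      ext v
      simp only [mem_filter, mem_union, A, C]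
      constructor
      · rintro ⟨hv, h1⟩
        have hne : s v ≠ s u := by
          intro h2
          have := hs h2
          subst this
          exact lt_irrefl _ h1
        rcases lt_or_gt_of_ne hne with h3 | h3
        · exact Or.inl ⟨hv, h3, h1⟩
        · exact Or.inr ⟨hv, h3, h1⟩
      · rintro (⟨hv, _, h1⟩ | ⟨hv, _, h1⟩) <;> exact ⟨hv, h1⟩
    · rw [Finset.disjoint_filter]
      rintro v _ h1 h2
      omega
  rw [hBC] at h
  rw [hAB, hAC]
  rw [Nat.even_add] at h ⊢
  rw [Nat.even_add]
  tauto

end Vale.Agent.P155.T802
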