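import Vale.Agent.P155.T802.Facts

/-!
# P155, TIGHT, sweep: the two sides of a component
-/

namespace Vale.Agent.P155.T802

open Finset

variable {V : Finset Pt} {ω : Conf} {Q : Cap} {K : Set Pt}

/-- `F` is constant across every edge which is not an edge of a loop. -/
structure Flat (ω : Conf) (F : Pt → ZMod 2) : Prop where
  vert : ∀ v : Pt, (ω.1 v = (v.1, v.2 + 1) ↔ ω.2 v = (v.1, v.2 + 1)) → F (v.1 - 1, v.2) = F v
  hor : ∀ v : Pt, (ω.1 v = (v.1 + 1, v.2) ↔ ω.2 v = (v.1 + 1, v.2)) → F (v.1, v.2 - 1) = F v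

/-- data at one edge: same parity and same value, or different parity -/
def EE (p p' F F' : ZMod 2) : Prop := (p = p' ∧ F = F') ∨ p' = p + 1

instance (p p' F F' : ZMod 2) : Decidable (EE p p' F F') := by unfold EE; infer_instance

theorem alg_opp : ∀ p1 p2 p3 p4 F1 F2 F3 F4 : ZMod 2, (p1 = p2 ∧ F1 = F2) → (p3 = p4 ∧ F3 = F4) →
    p3 = p2 + 1 → (p1 = p2 → F1 = F2) ∧ (p1 = p3 → F1 = F3) ∧ (p1 = p4 → F1 = F4) ∧
    (p2 = p3 → F2 = F3) ∧ (p2 = p4 → F2 = F4) ∧ (p3 = p4 → F3 = F4) := by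
  intro p1 p2 p3 p4 F1 F2 F3 F4 ⟨h1, h2⟩ ⟨h3, h4⟩ h5
  subst h1 h2 h3 h4 h5
  have : ∀ p : ZMod 2, p ≠ p + 1 := by decide
  exact ⟨fun _ => rfl, fun h => absurd h (this _), fun h => absurd h (this _),
    fun h => absurd h (this _), fun h => absurd h (this _), fun _ => rfl⟩

theorem alg_adj : ∀ p1 p2 p3 p4 F1 F2 F3 F4 : ZMod 2, (p1 = p2 ∧ F1 = F2) → (p2 = p3 ∧ F2 = F3) →
    p4 = p3 + 1 → (p1 = p2 → F1 = F2) ∧ (p1 = p3 → F1 = F3) ∧ (p1 = p4 → F1 = F4) ∧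
    (p2 = p3 → F2 = F3) ∧ (p2 = p4 → F2 = F4) ∧ (p3 = p4 → F3 = F4) := by
  intro p1 p2 p3 p4 F1 F2 F3 F4 ⟨h1, h2⟩ ⟨h3, h4⟩ h5
  subst h1 h2 h3 h4 h5
  have : ∀ p : ZMod 2, p ≠ p + 1 := by decide
  exact ⟨fun _ => rfl, fun _ => rfl, fun h => absurd h (this _),
    fun _ => rfl, fun h => absurd h (this _), fun h => absurd h (this _)⟩

theorem ind_add_eq_zero {p q : Prop} (h : p ↔ q) : ind p + ind q = 0 := by
  rw [ind_congr h]; exact z2 _

theorem ind_add_eq_one {p q : Prop} (h : ¬ (p ↔ q)) : ind p + ind q = 1 := by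
  by_cases hp : p
  · have hq : ¬ q := fun hq => h ⟨fun _ => hq, fun _ => hp⟩
    rw [ind_true hp, ind_false hq, add_zero]
  · have hq : q := by
      by_contra hq
      exact h ⟨fun h' => absurd h' hp, fun h' => absurd h' hq⟩
    rw [ind_false hp, ind_true hq, zero_add]

/-- the four edges at a vertex of `K`: parity and flat function -/
theorem edges_at (hω : ω ∈ DD V) (hK : Closed Q.W V ω K) {F : Pt → ZMod 2} (hF : Flat ω F)
    {x y : ℤ} (hu : (x, y) ∈ K) :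
    (((ω.1 (x, y) = (x, y + 1) ↔ ω.2 (x, y) = (x, y + 1)) →
      Q.pr ω K (x, y) = Q.pr ω K (x - 1, y) ∧ F (x, y) = F (x - 1, y)) ∧
    (¬ (ω.1 (x, y) = (x, y + 1) ↔ ω.2 (x, y) = (x, y + 1)) →
      Q.pr ω K (x, y) = Q.pr ω K (x - 1, y) + 1)) ∧
    (((ω.1 (x, y) = (x, y - 1) ↔ ω.2 (x, y) = (x, y - 1)) →
      Q.pr ω K (x, y - 1) = Q.pr ω K (x - 1, y - 1) ∧ F (x, y - 1) = F (x - 1, y - 1)) ∧
    (¬ (ω.1 (x, y) = (x, y - 1) ↔ ω.2 (x, y) = (x, y - 1)) →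
      Q.pr ω K (x, y - 1) = Q.pr ω K (x - 1, y - 1) + 1)) ∧
    (((ω.1 (x, y) = (x + 1, y) ↔ ω.2 (x, y) = (x + 1, y)) →
      Q.pr ω K (x, y) = Q.pr ω K (x, y - 1) ∧ F (x, y) = F (x, y - 1)) ∧
    (¬ (ω.1 (x, y) = (x + 1, y) ↔ ω.2 (x, y) = (x + 1, y)) →
      Q.pr ω K (x, y) = Q.pr ω K (x, y - 1) + 1)) ∧
    (((ω.1 (x, y) = (x - 1, y) ↔ ω.2 (x, y) = (x - 1, y)) →
      Q.pr ω K (x - 1, y) = Q.pr ω K (x - 1, y - 1) ∧ F (x - 1, y) = F (x - 1, y - 1)) ∧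
    (¬ (ω.1 (x, y) = (x - 1, y) ↔ ω.2 (x, y) = (x - 1, y)) →
      Q.pr ω K (x - 1, y) = Q.pr ω K (x - 1, y - 1) + 1)) := by
  have hev := Cap.even hω hK
  have hW := (hK.sub _ hu).2
  have i1 := L.inv1 hω
  have i2 := L.inv2 hω
  have s1 : ∀ r : Pt, ω.1 r = (x, y) ↔ ω.1 (x, y) = r :=
    fun r => ⟨fun h => by rw [← h, i1], fun h => by rw [← h, i1]⟩
  have s2 : ∀ r : Pt, ω.2 r = (x, y) ↔ ω.2 (x, y) = r :=
    fun r => ⟨fun h => by rw [← h, i2], fun h => by rw [← h, i2]⟩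
  have aN : Q.fA ω K (x, y) = ind (ω.1 (x, y) = (x, y + 1)) + ind (ω.2 (x, y) = (x, y + 1)) := by
    unfold Cap.fA eA
    rw [wA_off (Or.inl hW), add_zero]
    simp only [hu, true_or, true_and]
  have aS : Q.fA ω K (x, y - 1) = ind (ω.1 (x, y) = (x, y - 1)) + ind (ω.2 (x, y) = (x, y - 1)) := by
    unfold Cap.fA eA
    rw [wA_off (Or.inr (by simpa using hW)), add_zero]
    simp only [sub_add_cancel, hu, or_true, true_and, s1, s2]
  have bE : Q.fB ω K (x, y) = ind (ω.1 (x, y) = (x + 1, y)) + ind (ω.2 (x, y) = (x + 1, y)) := by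
    unfold Cap.fB eB
    rw [wB_off (Or.inl hW), add_zero]
    simp only [hu, true_or, true_and]
  have bW : Q.fB ω K (x - 1, y) = ind (ω.1 (x, y) = (x - 1, y)) + ind (ω.2 (x, y) = (x - 1, y)) := by
    unfold Cap.fB eB
    rw [wB_off (Or.inr (by simpa using hW)), add_zero]
    simp only [sub_add_cancel, hu, or_true, true_and, s1, s2]
  have e1 := par_right hev x y
  have e2 := par_right hev x (y - 1)
  have e3 := par_up hev x y
  have e4 := par_up hev (x - 1) y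
  refine ⟨⟨fun h => ⟨?_, ?_⟩, fun h => ?_⟩, ⟨fun h => ⟨?_, ?_⟩, fun h => ?_⟩,
    ⟨fun h => ⟨?_, ?_⟩, fun h => ?_⟩, ⟨fun h => ⟨?_, ?_⟩, fun h => ?_⟩⟩
  · unfold Cap.pr
    rw [e1, aN, ind_add_eq_zero h, add_zero]
  · exact (hF.vert (x, y) h).symm
  · unfold Cap.pr
    rw [e1, aN, ind_add_eq_one h]
  · unfold Cap.pr
    rw [e2, aS, ind_add_eq_zero h, add_zero]
  · refine (hF.vert (x, y - 1) ?_).symm
    simp only [sub_add_cancel, s1, s2]
    exact h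
  · unfold Cap.pr
    rw [e2, aS, ind_add_eq_one h]
  · unfold Cap.pr
    rw [e3, bE, ind_add_eq_zero h, add_zero]
  · exact (hF.hor (x, y) h).symm
  · unfold Cap.pr
    rw [e3, bE, ind_add_eq_one h]
  · unfold Cap.pr
    rw [e4, bW, ind_add_eq_zero h, add_zero]
  · refine (hF.hor (x - 1, y) ?_).symm
    simp only [sub_add_cancel, s1, s2]
    exact h
  · unfold Cap.pr
    rw [e4, bW, ind_add_eq_one h]

theorem z2_cases : ∀ p q : ZMod 2, (q = p) ∨ (q = p + 1) := by decide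

/-- the purely algebraic part: four faces in cyclic order, edges `A` (no strand) or `B` -/
theorem alg_four {n w s e : Prop} {p1 p2 p3 p4 F1 F2 F3 F4 : ZMod 2}
    (N1 : n → p1 = p2 ∧ F1 = F2) (N2 : ¬ n → p1 = p2 + 1)
    (W1 : w → p2 = p3 ∧ F2 = F3) (W2 : ¬ w → p2 = p3 + 1)
    (S1 : s → p4 = p3 ∧ F4 = F3) (S2 : ¬ s → p4 = p3 + 1)
    (E1 : e → p1 = p4 ∧ F1 = F4) (E2 : ¬ e → p1 = p4 + 1)
    (hne : ¬ (¬ n ∧ ¬ w ∧ ¬ s ∧ ¬ e)) :
    (p1 = p2 → F1 = F2) ∧ (p1 = p3 → F1 = F3) ∧ (p1 = p4 → F1 = F4) ∧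
    (p2 = p3 → F2 = F3) ∧ (p2 = p4 → F2 = F4) ∧ (p3 = p4 → F3 = F4) := by
  have k1 : ∀ p : ZMod 2, p ≠ p + 1 := by decide
  have k2 : ∀ p : ZMod 2, p + 1 + 1 = p := by decide
  have k3 : ∀ p : ZMod 2, p + 1 ≠ p := by decide
  have hN : (n ∧ p1 = p2 ∧ F1 = F2) ∨ (¬ n ∧ p1 = p2 + 1) :=
    (em n).imp (fun h => ⟨h, N1 h⟩) (fun h => ⟨h, N2 h⟩)
  have hW : (w ∧ p2 = p3 ∧ F2 = F3) ∨ (¬ w ∧ p2 = p3 + 1) :=
    (em w).imp (fun h => ⟨h, W1 h⟩) (fun h => ⟨h, W2 h⟩)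
  have hS : (s ∧ p4 = p3 ∧ F4 = F3) ∨ (¬ s ∧ p4 = p3 + 1) :=
    (em s).imp (fun h => ⟨h, S1 h⟩) (fun h => ⟨h, S2 h⟩)
  have hE : (e ∧ p1 = p4 ∧ F1 = F4) ∨ (¬ e ∧ p1 = p4 + 1) :=
    (em e).imp (fun h => ⟨h, E1 h⟩) (fun h => ⟨h, E2 h⟩)
  clear N1 N2 W1 W2 S1 S2 E1 E2
  rcases hN with ⟨hn, n1, n2⟩ | ⟨hn, n1⟩ <;> rcases hW with ⟨hw, w1, w2⟩ | ⟨hw, w1⟩ <;>
    rcases hS with ⟨hs, s1, s2⟩ | ⟨hs, s1⟩ <;> rcases hE with ⟨he, e1, e2⟩ | ⟨he, e1⟩ <;>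
    subst n1 <;> subst w1 <;> subst s1 <;>
    simp_all [k1, k2, k3]

/-- around a vertex of `K`, equal parity implies equal value -/
theorem side_around (hω : ω ∈ DD V) (hK : Closed Q.W V ω K) {F : Pt → ZMod 2} (hF : Flat ω F)
    {u : Pt} (hu : u ∈ K) {f f' : Pt} (hf : f ∈ facesAt u) (hf' : f' ∈ facesAt u)
    (hp : Q.pr ω K f = Q.pr ω K f') : F f = F f' := by
  obtain ⟨x, y⟩ := u
  obtain ⟨⟨N1, N2⟩, ⟨S1, S2⟩, ⟨E1, E2⟩, ⟨W1, W2⟩⟩ := edges_at hω hK hF hu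
  have hV := (hK.sub _ hu).1
  have m1 := mem_nbrs.2 (L.adj1 hω hV)
  have m2 := mem_nbrs.2 (L.adj2 hω hV)
  simp only [nbrs, mem_insert, mem_singleton] at m1 m2
  have main := alg_four N1 N2 W1 W2 S1 S2 E1 E2 (by
    rintro ⟨h1, h2, h3, h4⟩
    rcases m1 with e1 | e1 | e1 | e1 <;> rcases m2 with e2 | e2 | e2 | e2 <;>
      rw [e1, e2] at h1 h2 h3 h4 <;> simp at h1 h2 h3 h4 <;> omega)
  obtain ⟨a1, a2, a3, a4, a5, a6⟩ := main
  simp only [facesAt, mem_insert, mem_singleton] at hf hf'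
  rcases hf with rfl | rfl | rfl | rfl <;> rcases hf' with rfl | rfl | rfl | rfl
  · rfl
  · exact a1 hp
  · exact a3 hp
  · exact a2 hp
  · exact (a1 hp.symm).symm
  · rfl
  · exact a5 hp
  · exact a4 hp
  · exact (a3 hp.symm).symm
  · exact (a5 hp.symm).symm
  · rfl
  · exact (a6 hp.symm).symm
  · exact (a2 hp.symm).symm
  · exact (a4 hp.symm).symm
  · exact a6 hp
  · rfl

/-- around a vertex with a doubled edge parity and value are constant -/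
theorem doubled_around (hω : ω ∈ DD V) (hK : Closed Q.W V ω K) {F : Pt → ZMod 2} (hF : Flat ω F)
    {u : Pt} (hu : u ∈ K) (hd : ω.1 u = ω.2 u) {f f' : Pt} (hf : f ∈ facesAt u)
    (hf' : f' ∈ facesAt u) : Q.pr ω K f = Q.pr ω K f' ∧ F f = F f' := by
  obtain ⟨x, y⟩ := u
  obtain ⟨⟨N1, _⟩, ⟨S1, _⟩, ⟨E1, _⟩, ⟨W1, _⟩⟩ := edges_at hω hK hF hu
  have n := N1 (by rw [hd])
  have s := S1 (by rw [hd])
  have e := E1 (by rw [hd])
  have key : ∀ g ∈ facesAt (x, y), Q.pr ω K g = Q.pr ω K (x, y) ∧ F g = F (x, y) := by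
    intro g hg
    simp only [facesAt, mem_insert, mem_singleton] at hg
    rcases hg with rfl | rfl | rfl | rfl
    · exact ⟨rfl, rfl⟩
    · exact ⟨n.1.symm, n.2.symm⟩
    · exact ⟨e.1.symm, e.2.symm⟩
    · exact ⟨s.1.symm.trans e.1.symm, s.2.symm.trans e.2.symm⟩
  exact ⟨(key f hf).1.trans (key f' hf').1.symm, (key f hf).2.trans (key f' hf').2.symm⟩

/-- the two faces at an edge of `K` -/
theorem two_faces (hω : ω ∈ DD V) (hK : Closed Q.W V ω K) {b c : Pt} (hb : b ∈ K)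
    (hc : c = ω.1 b ∨ c = ω.2 b) : ∃ g1 g2, (g1 ∈ facesAt b ∧ g1 ∈ facesAt c) ∧
      (g2 ∈ facesAt b ∧ g2 ∈ facesAt c) ∧ (ω.1 b ≠ ω.2 b → Q.pr ω K g1 = Q.pr ω K g2 + 1) := by
  obtain ⟨x, y⟩ := b
  have hF : Flat ω (fun _ => 0) := ⟨fun _ _ => rfl, fun _ _ => rfl⟩
  obtain ⟨⟨_, N2⟩, ⟨_, S2⟩, ⟨_, E2⟩, ⟨_, W2⟩⟩ := edges_at hω hK hF hb
  have hV := (hK.sub _ hb).1
  have hn : c ∈ nbrs (x, y) := by
    rcases hc with h | h
    · exact h ▸ mem_nbrs.2 (L.adj1 hω hV)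
    · exact h ▸ mem_nbrs.2 (L.adj2 hω hV)
  have hiff : ω.1 (x, y) ≠ ω.2 (x, y) → ¬ (ω.1 (x, y) = c ↔ ω.2 (x, y) = c) := by
    intro hne h
    rcases hc with h' | h'
    · exact hne (h'.symm.trans (h.1 h'.symm).symm)
    · exact hne ((h.2 h'.symm).trans h')
  simp only [nbrs, mem_insert, mem_singleton] at hn
  rcases hn with rfl | rfl | rfl | rfl
  · exact ⟨(x, y), (x, y - 1), by simp [facesAt], by simp [facesAt], fun h => E2 (hiff h)⟩
  · exact ⟨(x - 1, y), (x - 1, y - 1), by simp [facesAt], by simp [facesAt],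
      fun h => W2 (hiff h)⟩
  · exact ⟨(x, y), (x - 1, y), by simp [facesAt], by simp [facesAt], fun h => N2 (hiff h)⟩
  · exact ⟨(x, y - 1), (x - 1, y - 1), by simp [facesAt], by simp [facesAt],
      fun h => S2 (hiff h)⟩

/-- `f` touches `K`, in terms of vertices -/
theorem touch_iff {E : Set Pt} {f : Pt} : Touch E f ↔ ∃ u ∈ E, f ∈ facesAt u :=
  ⟨fun ⟨v, h1, h2⟩ => ⟨v, h2, mem_facesAt.2 h1⟩, fun ⟨v, h1, h2⟩ => ⟨v, mem_facesAt.1 h2, h1⟩⟩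

/-- **sides**: a flat function takes the same value at faces touching the component `K` with the
same `K`-parity -/
theorem side_comp (hω : ω ∈ DD V) {v : Pt} (hv : v ∈ V) (hW : v ∉ Q.W) {F : Pt → ZMod 2}
    (hF : Flat ω F) {f f' : Pt} (hf : Touch (compW Q.W ω v) f) (hf' : Touch (compW Q.W ω v) f')
    (hp : Q.pr ω (compW Q.W ω v) f = Q.pr ω (compW Q.W ω v) f') : F f = F f' := by
  have hK := closed_comp hω hv hW (W := Q.W)
  set K := compW Q.W ω v with hKdef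
  have hvK : v ∈ K := self_mem_compW _ _ _
  -- parity at a vertex is attained at each neighbouring common face
  have step : ∀ b c, b ∈ K → c ∈ K → (c = ω.1 b ∨ c = ω.2 b) → ∀ g ∈ facesAt c,
      ∃ g', g' ∈ facesAt b ∧ g' ∈ facesAt c ∧ Q.pr ω K g' = Q.pr ω K g := by
    intro b c hb hc hbc g hg
    obtain ⟨g1, g2, h1, h2, h3⟩ := two_faces hω hK hb hbc
    by_cases hd : ω.1 b = ω.2 b
    · have hdc : ω.1 c = ω.2 c := by
        rcases hbc with h | h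
        · have e1 : ω.1 c = b := by rw [h, L.inv1 hω]
          have e2 : ω.2 c = b := by rw [h, hd, L.inv2 hω]
          rw [e1, e2]
        · have e1 : ω.2 c = b := by rw [h, L.inv2 hω]
          have e2 : ω.1 c = b := by rw [h, ← hd, L.inv1 hω]
          rw [e1, e2]
      exact ⟨g1, h1.1, h1.2, (doubled_around hω hK hF hc hdc h1.2 hg).1⟩
    · rcases z2_cases (Q.pr ω K g2) (Q.pr ω K g) with h | h
      · exact ⟨g2, h2.1, h2.2, h.symm⟩
      · exact ⟨g1, h1.1, h1.2, (h3 hd).trans h.symm⟩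
  have key : ∀ x, SameW Q.W ω v x → ∀ g ∈ facesAt x, ∀ g' ∈ facesAt v,
      Q.pr ω K g = Q.pr ω K g' → F g = F g' := by
    intro x hx
    induction hx with
    | refl => exact fun g hg g' hg' h => side_around hω hK hF hvK hg hg' h
    | @tail b c hab hbc ih =>
      intro g hg g' hg' h
      have hb : b ∈ K := hab
      have hc : c ∈ K := Relation.ReflTransGen.tail hab hbc
      obtain ⟨g1, h1, h2, h3⟩ := step b c hb hc hbc.2 g hg
      rw [side_around hω hK hF hc hg h2 h3.symm]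
      exact ih g1 h1 g' hg' (h3.trans h)
  -- every parity near `K` is attained near `v`
  have att : ∀ x, SameW Q.W ω v x → ∀ g ∈ facesAt x, ∃ g' ∈ facesAt v,
      Q.pr ω K g' = Q.pr ω K g := by
    intro x hx
    induction hx with
    | refl => exact fun g hg => ⟨g, hg, rfl⟩
    | @tail b c hab hbc ih =>
      intro g hg
      have hb : b ∈ K := hab
      have hc : c ∈ K := Relation.ReflTransGen.tail hab hbc
      obtain ⟨g1, h1, h2, h3⟩ := step b c hb hc hbc.2 g hg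
      obtain ⟨g2, h4, h5⟩ := ih g1 h1
      exact ⟨g2, h4, h5.trans h3⟩
  obtain ⟨u, hu, hfu⟩ := touch_iff.1 hf
  obtain ⟨u', hu', hfu'⟩ := touch_iff.1 hf'
  obtain ⟨g, hg, hgp⟩ := att u hu f hfu
  rw [key u hu f hfu g hg hgp.symm, key u' hu' f' hfu' g hg (hp.symm.trans hgp.symm)]

/-- across a strand edge of `K` an indicator that jumps there takes different values -/
theorem side_ne (hω : ω ∈ DD V) {v : Pt} (hv : v ∈ V) (hW : v ∉ Q.W) {F : Pt → ZMod 2}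
    (hF : Flat ω F) (hjump : ∃ g g', Touch (compW Q.W ω v) g ∧ Touch (compW Q.W ω v) g' ∧
      F g ≠ F g') {f f' : Pt} (hf : Touch (compW Q.W ω v) f) (hf' : Touch (compW Q.W ω v) f')
    (hp : Q.pr ω (compW Q.W ω v) f ≠ Q.pr ω (compW Q.W ω v) f') : F f ≠ F f' := by
  obtain ⟨g, g', h1, h2, h3⟩ := hjump
  intro h
  have hgg : Q.pr ω (compW Q.W ω v) g ≠ Q.pr ω (compW Q.W ω v) g' :=
    fun h' => h3 (side_comp hω hv hW hF h1 h2 h')
  have key : ∀ p q r s : ZMod 2, p ≠ q → r ≠ s → (r = p ∧ s = q) ∨ (r = q ∧ s = p) := by decide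
  rcases key _ _ _ _ hp hgg with ⟨e1, e2⟩ | ⟨e1, e2⟩
  · exact h3 (((side_comp hω hv hW hF h1 hf e1).trans h).trans
      (side_comp hω hv hW hF hf' h2 e2.symm))
  · exact h3 (((side_comp hω hv hW hF h1 hf' e1).trans h.symm).trans
      (side_comp hω hv hW hF hf h2 e2.symm))

end Vale.Agent.P155.T802
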