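import Vale.Agent.P155.T802.StepEV
import Vale.Agent.P155.S743.EvMain
import Vale.Agent.P155.S862.AreaEV

/-!
# P155, TIGHT, sweep: `STEP` and `AREA1` hold
-/

namespace Vale.Agent.P155.T802

theorem step : S7.STEP := step_of_EV S743.ev_holds

theorem area1 : S7.AREA1 := S862.area1_of_EV S743.ev_holds

end Vale.Agent.P155.T802
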